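import Vale.Agent.P290Z.Spec1

/-!
# P290Z, part III, blocks N1 and N2: rational curves, standard neighbourhoods, tori. Definitions
and the statements which do not mention forms.
-/

set_option linter.unusedVariables false

open scoped Manifold ContDiff Topology
open Set Filter Metric

noncomputable section

namespace Vale.Agent.P290Z.Nk

open Vale.Agent.P290
open Vale.Agent.P290.All (Etale dir Hol)

/-! ### smooth rational curves and their neighbourhoods -/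

/-- a smooth rational curve: `g b u` is the point `[dir b u]` -/
structure RC (X : Type) [TopologicalSpace X] [ChartedSpace C2 X] where
  g : Bool → ℂ → X
  hol : ∀ b u, MD (g b) u
  imm : ∀ b u, deriv (fun z => chartAt C2 (g b u) (g b z)) u ≠ 0
  glue : ∀ b u, u ≠ 0 → g (!b) u⁻¹ = g b u
  inj : ∀ b, Function.Injective (g b)
  ne : ∀ u, g true u ≠ g false 0

/-- the set of points of the curve -/
def RC.supp {X : Type} [TopologicalSpace X] [ChartedSpace C2 X] (C : RC X) : Set X :=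
  {x | ∃ b u, C.g b u = x}

/-- the domain of the homogeneous chart -/
def SD (ε : ℝ) (h : ℂ) (d : C2) : Prop := d ≠ 0 ∧ ‖h‖ * ‖d‖ ^ 2 < ε

/-- `ν h d` is the class of `√h d` in the resolution of the quotient of a ball by `±1` -/
structure IsStd {X : Type} [TopologicalSpace X] [ChartedSpace C2 X] (C : RC X) (ε : ℝ)
    (ν : ℂ → C2 → X) : Prop where
  hom : ∀ h t d, t ≠ 0 → ν (h * t ^ 2) d = ν h (t • d)
  etale : ∀ b (v : C2), SD ε v.1 (dir b v.2) → Etale (fun w : C2 => ν w.1 (dir b w.2)) v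
  inj : ∀ h d h' d', SD ε h d → SD ε h' d' → ν h d = ν h' d' →
    ∃ t : ℂ, t ≠ 0 ∧ d' = t • d ∧ h = h' * t ^ 2
  zero : ∀ b u, ν 0 (dir b u) = C.g b u

/-- a bidisc -/
def Box (δ R : ℝ) : Set C2 := {v | ‖v.1‖ < δ ∧ ‖v.2‖ < R}

/-- a disc times an annulus -/
def Ann (δ R : ℝ) : Set C2 := {v | ‖v.1‖ < δ ∧ R⁻¹ < ‖v.2‖ ∧ ‖v.2‖ < R}

/-- the transition maps between two tube charts -/
structure TD (δ : ℝ) (T : Bool → C2 → C2) : Prop where
  hol : ∀ b, DifferentiableOn ℂ (T b) (Ann δ 9)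
  zero : ∀ b u, 9⁻¹ < ‖u‖ → ‖u‖ < 9 → T b (0, u) = (0, u⁻¹)
  der : ∀ b u, 9⁻¹ < ‖u‖ → ‖u‖ < 9 → HasDerivAt (fun h => (T b (h, u)).1) (u ^ 2) 0
  inv : ∀ b, ∀ v ∈ Ann δ 9, T b v ∈ Ann δ 9 → T (!b) (T b v) = v

/-- two tube charts along the curve `C` -/
structure Tubes {X : Type} [TopologicalSpace X] [ChartedSpace C2 X] (C : RC X) (δ : ℝ)
    (τ : Bool → C2 → X) (T : Bool → C2 → C2) : Prop where
  td : TD δ T
  etale : ∀ b, ∀ v ∈ Box δ 10, Etale (τ b) v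
  zero : ∀ b u, ‖u‖ < 10 → τ b (0, u) = C.g b u
  trans : ∀ b, ∀ v ∈ Ann δ 9, τ (!b) (T b v) = τ b v

/-- the homogeneous coordinates in the two charts -/
structure NF (δ : ℝ) (T G : Bool → C2 → C2) : Prop where
  hol : ∀ b, DifferentiableOn ℂ (G b) (Box δ (5 / 4))
  zero : ∀ b u, ‖u‖ < 5 / 4 → G b (0, u) = dir b u
  trans : ∀ v ∈ Ann δ (5 / 4), ∃ β : ℂ, β ≠ 0 ∧ (T true v).1 = v.1 * β ^ 2 ∧
    G true v = β • G false (T true v)

/-! ### tori -/

/-- a translation structure: `F x` is a local coordinate at `x`, two of them differ by a locally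
constant function -/
structure Tr {X : Type} [TopologicalSpace X] [ChartedSpace C2 X] (F : X → X → C2) : Prop where
  hol : ∀ x, ∀ᶠ y in 𝓝 x,
    DifferentiableAt ℂ (fun z => F x ((chartAt C2 y).symm z)) (chartAt C2 y y)
  det : ∀ x, (fderiv ℂ (fun z => F x ((chartAt C2 x).symm z)) (chartAt C2 x x)).det ≠ 0
  coc : ∀ x, ∀ᶠ y in 𝓝 x, ∀ᶠ y' in 𝓝 y, F x y' - F x y = F y y' - F y y

/-- `X` is the torus `ℂ²/L` and `j` is the map `-1` -/
structure Torus {X : Type} [TopologicalSpace X] [ChartedSpace C2 X] (j : X → X) (l : Fin 4 → C2)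
    (π : C2 → X) : Prop where
  li : LinearIndependent ℝ l
  etale : ∀ z, Etale π z
  surj : Function.Surjective π
  rel : ∀ z z', π z = π z' ↔ z' - z ∈ AddSubgroup.closure (range l)
  neg : ∀ z, j (π z) = π (-z)

/-! ### statements -/

/-- COUSIN: homogeneous coordinates -/
def StCousin : Prop :=
  ∀ (δ : ℝ) (T : Bool → C2 → C2), 0 < δ → TD δ T → ∃ δ' > (0 : ℝ), δ' ≤ δ ∧ ∃ G, NF δ' T G

/-- STD: the standard neighbourhood -/
def StStd : Prop :=
  ∀ (X : Type) [TopologicalSpace X] [ChartedSpace C2 X] [IsManifold 𝓘(ℂ, C2) ω X] [T2Space X]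
    (C : RC X) (δ δ' : ℝ) (τ : Bool → C2 → X) (T G : Bool → C2 → C2), 0 < δ' → δ' ≤ δ →
    Tubes C δ τ T → NF δ' T G → ∃ ε > (0 : ℝ), ∃ ν, IsStd C ε ν

/-- BEZ: a field of transversal directions along a disc -/
def StBez : Prop :=
  ∀ (R R' : ℝ) (ξ : ℂ → C2), 0 < R → R < R' → DifferentiableOn ℂ ξ (ball 0 R') →
    (∀ u ∈ ball (0 : ℂ) R', ξ u ≠ 0) → ∃ η : ℂ → C2, DifferentiableOn ℂ η (ball 0 R) ∧
      ∀ u ∈ ball (0 : ℂ) R, (η u).1 * (ξ u).2 - (η u).2 * (ξ u).1 = 1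

/-- ODD: odd holomorphic maps in the coordinates of the blow up -/
def StOddFn : Prop :=
  ∀ (F : Type) [NormedAddCommGroup F] [NormedSpace ℂ F] [CompleteSpace F] (r : ℝ) (ψ : C2 → F),
    0 < r → DifferentiableOn ℂ ψ (ball 0 r) → (∀ z ∈ ball (0 : C2) r, ψ (-z) = -ψ z) →
    ∃ Ψ : ℂ × C2 → F, DifferentiableOn ℂ Ψ {v | ‖v.1‖ * ‖v.2‖ ^ 2 < r ^ 2} ∧
      ∀ (s : ℂ) (d : C2), ‖s‖ * ‖d‖ < r → ψ (s • d) = s • Ψ (s ^ 2, d)

/-- AFF: compact surfaces with a translation structure are tori -/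
def StAff : Prop :=
  ∀ (X : Type) [TopologicalSpace X] [ChartedSpace C2 X] [IsManifold 𝓘(ℂ, C2) ω X] [T2Space X]
    [CompactSpace X] [ConnectedSpace X] (F : X → X → C2) (j : X → X) (x₀ : X), Tr F →
    Continuous j → j x₀ = x₀ →
    (∀ x, ∀ᶠ y in 𝓝 x, F (j x) (j y) - F (j x) (j x) = -(F x y - F x x)) →
    ∃ l π, Torus j l π ∧ π 0 = x₀ ∧
      ∀ z, ∀ᶠ z' in 𝓝 z, F (π z) (π z') - F (π z) (π z) = z' - z

end Vale.Agent.P290Z.Nk
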