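import Vale.Agent.P290Z.W.Defs
import Vale.Agent.P290Z.Nk.DefsA
import Vale.Agent.P267.H221.Out
import Vale.Agent.P267.H821.Frame

/-!
# P290Z, part III, blocks N1 and N2: even sets of curves and the double cover. Definitions.
-/

set_option linter.unusedVariables false
set_option linter.unusedSectionVars false

open scoped Manifold ContDiff ComplexConjugate Topology
open Set Filter Metric

noncomputable section

namespace Vale.Agent.P290Z.Nk

open Vale.Agent.P290 Vale.Agent.P267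
open Vale.Agent.P290.All (Etale dir Hol)

/-! ### surfaces with a two-form -/

/-- a compact connected surface with a nowhere vanishing holomorphic two-form -/
structure VS where
  X : Type
  [top : TopologicalSpace X]
  [charts : ChartedSpace C2 X]
  [manifold : IsManifold 𝓘(ℂ, C2) ω X]
  [t2 : T2Space X]
  [compact : CompactSpace X]
  [conn : ConnectedSpace X]
  vol : OpenPartialHomeomorph X C2 → C2 → ℂ
  holo : ∀ e ∈ atlas C2 X, DifferentiableOn ℂ (vol e) e.target ∧ ∀ y ∈ e.target, vol e y ≠ 0 ∧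
    ∀ t ∈ atlas C2 X, e.symm y ∈ t.source →
      vol e y = vol t (t (e.symm y)) * (fderiv ℂ (fun z => t (e.symm z)) y).det

attribute [instance] VS.top VS.charts VS.manifold VS.t2 VS.compact VS.conn

namespace VS

variable (V : VS)

instance instFL : ChartedSpace FL.C2 V.X := P290.H445.flCharted V.X

instance instManifoldFL : IsManifold 𝓘(ℂ, FL.C2) ω V.X := P290.H445.flManifold

instance instSecondCountable : SecondCountableTopology V.X :=
  ChartedSpace.secondCountable_of_sigmaCompact FL.C2 V.X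

instance instLocPathConnected : LocallyPathConnectedSpace V.X :=
  ChartedSpace.locallyPathConnectedSpace FL.C2 V.X

/-- the K3 surface, if the first Betti number vanishes -/
def k3 (h : W.B1 V.X) : W.K3 where
  X := V.X
  manifold := V.manifold
  t2 := V.t2
  compact := V.compact
  conn := V.conn
  b1 := h
  vol := V.vol
  holo := V.holo

/-- the coefficient of the two-form in the preferred coordinates -/
def Om (x : V.X) : ℂ := V.vol (chartAt C2 x) (chartAt C2 x x)

/-- the two-form -/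
def omF : FL.TwoF V.X := ⟨V.Om, 0, 0⟩

end VS

/-! ### even sets of curves -/

/-- `n` disjoint smooth rational curves, a line bundle `L` and a section `S` of `L ⊗ L` whose
divisor is the sum of the curves -/
structure Nik (Y : W.K3) (n : ℕ) where
  C : Fin n → RC Y.X
  disj : ∀ i j x, x ∈ (C i).supp → x ∈ (C j).supp → i = j
  ι : Type
  [fin : Fintype ι]
  [dec : DecidableEq ι]
  L : FL.LB Y.X ι
  a : Y.X → Fin 2 → ℂ
  hol : L.IsHol a
  sq : 2 * RR.isec L L = -(n : ℂ)
  S : Y.X → ι → ι → ℂ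
  loc : ∀ x, ∃ (U : Set Y.X) (e : Y.X → EuclideanSpace ℂ ι) (f : Y.X → ℂ), x ∈ U ∧
    H821.HolFrame L a U e ∧ FL.HolOn 0 f U ∧ ∀ y ∈ U, (∀ j k, S y j k = f y * (e y j * e y k)) ∧
      (f y = 0 ↔ ∃ i, y ∈ (C i).supp) ∧
      (f y = 0 → fderiv ℂ (fun z => f ((chartAt C2 y).symm z)) (chartAt C2 y y) ≠ 0)

attribute [instance] Nik.fin Nik.dec

/-- the union of the curves -/
def Nik.br {Y : W.K3} {n : ℕ} (K : Nik Y n) : Set Y.X := {y | ∃ i, y ∈ (K.C i).supp}

/-- `√h E h d` is the square root of `S` which belongs to the point `√h d` -/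
structure IsLift {Y : W.K3} {n : ℕ} (K : Nik Y n) (ε : ℝ) (ν : ℂ → C2 → Y.X)
    (E : ℂ → C2 → EuclideanSpace ℂ K.ι) : Prop where
  hom : ∀ h t d, t ≠ 0 → E h (t • d) = t • E (h * t ^ 2) d
  cont : ∀ h d, SD ε h d → ContinuousAt (fun v : ℂ × C2 => E v.1 v.2) (h, d)
  sq : ∀ h d, SD ε h d → ∀ j k, K.S (ν h d) j k = h * (E h d j * E h d k)
  ne : ∀ h d, SD ε h d → E h d ≠ 0

/-- disjoint standard neighbourhoods of the curves -/
structure Nbhd {Y : W.K3} {n : ℕ} (K : Nik Y n) where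
  ν : Fin n → ℂ → C2 → Y.X
  E : Fin n → ℂ → C2 → EuclideanSpace ℂ K.ι
  std : ∀ i, IsStd (K.C i) 100 (ν i)
  lift : ∀ i, IsLift K 100 (ν i) (E i)
  sep : ∀ i j h d h' d', SD 100 h d → SD 100 h' d' → ν i h d = ν j h' d' → i = j

/-- The double cover branched along the curves, with the preimages of the curves contracted to the
points `q i`. -/
structure DCover {Y : W.K3} {n : ℕ} {K : Nik Y n} (A : Nbhd K) where
  Z : VS
  p : Z.X → Y.X
  j : Z.X ≃ₜ Z.X
  q : Fin n → Z.X
  w : Z.X → EuclideanSpace ℂ K.ι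
  q_inj : Function.Injective q
  j_j : ∀ z, j (j z) = z
  j_fix : ∀ z, j z = z ↔ z ∈ range q
  p_j : ∀ z, z ∉ range q → p (j z) = p z
  fib : ∀ z z', z ∉ range q → z' ∉ range q → p z = p z' → z' = z ∨ z' = j z
  off : ∀ z, z ∉ range q → p z ∉ K.br
  surj : ∀ y, y ∉ K.br → ∃ z, z ∉ range q ∧ p z = y
  p_cont : ∀ z, z ∉ range q → ContinuousAt p z
  chart_p : ∀ z, z ∉ range q → ∀ᶠ z' in 𝓝 z, chartAt C2 z z' = chartAt C2 (p z) (p z')
  om_p : ∀ z, z ∉ range q → Z.Om z = W.H445.Om Y (p z)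
  target_q : ∀ i, (chartAt C2 (q i)).target = ball 0 10
  chart_q : ∀ i, chartAt C2 (q i) (q i) = 0
  off_q : ∀ i, ∀ v ∈ ball (0 : C2) 10, v ≠ 0 → (chartAt C2 (q i)).symm v ∉ range q
  p_q : ∀ i, ∀ v ∈ ball (0 : C2) 10, v ≠ 0 → p ((chartAt C2 (q i)).symm v) = A.ν i 1 v
  w_q : ∀ i, ∀ v ∈ ball (0 : C2) 10, v ≠ 0 → w ((chartAt C2 (q i)).symm v) = A.E i 1 v
  j_q : ∀ i, ∀ v ∈ ball (0 : C2) 10,
    j ((chartAt C2 (q i)).symm v) = (chartAt C2 (q i)).symm (-v)
  w_sq : ∀ z, z ∉ range q → ∀ k m, w z k * w z m = K.S (p z) k m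
  w_j : ∀ z, z ∉ range q → w (j z) = -w z
  w_cont : ∀ z, z ∉ range q → ContinuousAt w z

/-- The chart `c` belongs to the maximal atlas, its inverse is the standard neighbourhood, and `E`
gives a holomorphic frame of `L` on its source. -/
structure IsFrame {Y : W.K3} {n : ℕ} {K : Nik Y n} (A : Nbhd K) (i : Fin n) (b : Bool)
    (c : FL.Ch Y.X) : Prop where
  mem : c ∈ IsManifold.maximalAtlas 𝓘(ℂ, FL.C2) ω Y.X
  target : c.target = {v | SD 100 (v 0) (dir b (v 1))}
  symm : ∀ v ∈ c.target, c.symm v = A.ν i (v 0) (dir b (v 1))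
  frame : H821.HolFrame K.L K.a c.source fun y => A.E i (c y 0) (dir b (c y 1))

end Vale.Agent.P290Z.Nk
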