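import Vale.Agent.P290Z.Nk.Defs

/-!
# P290Z, part III, block N2: neighbourhoods, double cover, torus, Kummer structure. Statements.
Paper proofs: `notes/P290_helper77.md`.
-/

set_option linter.unusedVariables false

open scoped Manifold ContDiff ComplexConjugate Topology
open Set Filter Metric

noncomputable section

namespace Vale.Agent.P290Z.Nk

open Vale.Agent.P290 Vale.Agent.P267
open Vale.Agent.P290.All (Etale dir Hol)

/-- TUBE: two tube charts -/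
def StTubes : Prop :=
  ∀ (Y : W.K3) (C : RC Y.X), ∃ δ > (0 : ℝ), ∃ τ T, Tubes C δ τ T

/-- **A1** -/
def StA1 : Prop := ∀ (Y : W.K3) (C : RC Y.X), ∃ ε > (0 : ℝ), ∃ ν, IsStd C ε ν

/-- LIFT: the square root of `S` on a standard neighbourhood -/
def StLift : Prop :=
  ∀ (Y : W.K3) (n : ℕ) (K : Nik Y n) (i : Fin n) (ε : ℝ) (ν : ℂ → C2 → Y.X), 0 < ε →
    IsStd (K.C i) (4 * ε) ν → (∀ h d, SD (4 * ε) h d → h ≠ 0 → ν h d ∉ K.br) →
    ∃ E, IsLift K ε ν E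

/-- NBHD: disjoint standard neighbourhoods -/
def StNbhd : Prop := ∀ (Y : W.K3) (n : ℕ) (K : Nik Y n), Nonempty (Nbhd K)

/-- **COVER** -/
def StCover : Prop :=
  ∀ (Y : W.K3) (n : ℕ) (K : Nik Y n) (A : Nbhd K), 0 < n → Nonempty (DCover A)

/-- FRAME: the standard neighbourhoods as charts -/
def StFrame : Prop :=
  ∀ (Y : W.K3) (n : ℕ) (K : Nik Y n) (A : Nbhd K) (i : Fin n) (b : Bool), ∃ c, IsFrame A i b c

/-- LOC: the classes in `H¹(L⁻¹)` have representatives which vanish near the curves -/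
def StLoc : Prop :=
  ∀ (Y : W.K3) (n : ℕ) (K : Nik Y n) (A : Nbhd K), ∀ t ∈ RR.Z1 K.L.dual (-K.a) 0,
    ∃ s ∈ RR.A0 K.L.dual 0, ∀ᶠ y in 𝓝ˢ K.br, t y = K.L.dual.db0 (-K.a) 0 s y

/-- the pull back of a form with values in `L⁻¹` -/
def DCover.pull {Y : W.K3} {n : ℕ} {K : Nik Y n} {A : Nbhd K} (D : DCover A)
    (t : Y.X → Fin 2 → EuclideanSpace ℂ K.ι) (z : D.Z.X) (i : Fin 2) : ℂ :=
  open Classical in if z ∈ range D.q then 0 else ∑ k, t (D.p z) i k * D.w z k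

/-- PUSH: if the pull back is exact, so is the form -/
def StPush : Prop :=
  ∀ (Y : W.K3) (n : ℕ) (K : Nik Y n) (A : Nbhd K) (D : DCover A),
    ∀ t ∈ RR.Z1 K.L.dual (-K.a) 0, (∀ᶠ y in 𝓝ˢ K.br, t y = 0) →
      ∀ u : D.Z.X → ℂ, FL.Reg0 ∞ 0 u → FL.dbar0 0 u = D.pull t → t ∈ RR.B1 K.L.dual (-K.a) 0

/-- **TORUS** -/
def StTorus : Prop :=
  ∀ (Y : W.K3) (K : Nik Y 16) (A : Nbhd K) (D : DCover A), ∃ l π, Torus D.j l π

/-- **KUMMER** -/
def StKummer : Prop :=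
  ∀ (Y : W.K3) (n : ℕ) (K : Nik Y n) (A : Nbhd K) (D : DCover A) (l : Fin 4 → C2)
    (π : C2 → D.Z.X), Torus D.j l π →
    ∃ M : All.Kummer (AddSubgroup.closure (range l)) Y.X,
      (∀ a b h u (s : ℂ), All.Dom (AddSubgroup.closure (range l)) a b (h, u) → h ≠ 0 → s ^ 2 = h →
        M.N a b (h, u) = D.p (π (a + s • dir b u))) ∧
      ∀ a b u i, π a = D.q i → M.N a b (0, u) ∈ (K.C i).supp

end Vale.Agent.P290Z.Nk
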