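import Vale.Agent.P290Z.Nk.Defs
import Vale.Agent.P290Z.Spec3
import Vale.Agent.P290Z.Kum
import Vale.Agent.P290Z.Inv.Loc

/-! P290Z, part III: the double cover as a map which preserves the two-forms. -/

open scoped Manifold ContDiff Topology
open Set Filter Metric

noncomputable section

namespace Vale.Agent.P290Z.Nk

open Vale.Agent.P290
open Vale.Agent.P290.All (Etale dir Hol)

namespace TC

theorem dir_ne (b : Bool) (u : ℂ) : dir b u ≠ 0 := by
  cases b <;> simp [dir]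

theorem diff_cs (b : Bool) : Differentiable ℂ (Kum.cs b) := by
  cases b
  · exact differentiable_snd
  · exact differentiable_fst

variable {Y : W.K3} {n : ℕ} {K : Nik Y n} {A : Nbhd K}

theorem not_br (A : Nbhd K) {i : Fin n} {h : ℂ} {d : C2} (hd : SD 100 h d) (h0 : h ≠ 0) :
    A.ν i h d ∉ K.br := by
  rintro ⟨j, b, u, e⟩
  have h1 : SD 100 0 (dir b u) := ⟨dir_ne b u, by simp⟩
  rw [← (A.std j).zero] at e
  obtain rfl := A.sep j i _ _ _ _ h1 hd e
  obtain ⟨t, -, -, h2⟩ := (A.std j).inj _ _ _ _ hd h1 e.symm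
  exact h0 (by simpa using h2)

theorem rep_id (D : DCover A) {z : D.Z.X} (hz : z ∉ range D.q) :
    (fun w => chartAt C2 (D.p z) (D.p ((chartAt C2 z).symm w))) =ᶠ[𝓝 (chartAt C2 z z)] id := by
  have h1 := (chartAt C2 z).continuousAt_symm (mem_chart_target C2 z)
  rw [ContinuousAt, (chartAt C2 z).left_inv (mem_chart_source C2 z)] at h1
  filter_upwards [h1.eventually (D.chart_p z hz),
    (chartAt C2 z).open_target.mem_nhds (mem_chart_target C2 z)] with w a1 a2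
  rw [← a1, (chartAt C2 z).right_inv a2, id]

theorem hol_p (D : DCover A) {z : D.Z.X} (hz : z ∉ range D.q) : Hol D.p z :=
  ⟨D.p_cont z hz, differentiableAt_id.congr_of_eventuallyEq (rep_id D hz)⟩

theorem lift (D : DCover A) (g : ℂ → D.Z.X) (c : ℂ) (h1 : g c ∈ range D.q)
    (h2 : ∀ᶠ c' in 𝓝 c, MD g c') (h3 : ∀ᶠ c' in 𝓝[≠] c, g c' ≠ g c) :
    ∃ y, MD (Function.update (fun c' => D.p (g c')) c y) c := by
  obtain ⟨i, hi⟩ := h1
  have a0 : ∀ᶠ c' in 𝓝 c, g c' ∈ (chartAt C2 (D.q i)).source :=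
    h2.self_of_nhds.continuousAt.eventually (hi ▸ chart_source_mem_nhds C2 _)
  have a1 : AnalyticAt ℂ (fun c' => chartAt C2 (D.q i) (g c')) c :=
    Complex.analyticAt_iff_eventually_differentiableAt.2
      ((h2.and a0).mono fun c' h => Inv.md_chart h.1 h.2)
  have a2 : ∀ᶠ c' in 𝓝[≠] c, chartAt C2 (D.q i) (g c') ≠ 0 := by
    filter_upwards [h3, nhdsWithin_le_nhds a0] with c' b1 b2 b3
    exact b1 (hi ▸ (chartAt C2 (D.q i)).injOn b2 (mem_chart_source _ _) (b3.trans (D.chart_q i).symm))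
  obtain ⟨m, d, d1, d2, d3⟩ := a1.exists_eventuallyEq_pow_smul_nonzero_iff.2 fun h =>
    let ⟨_, b1, b2⟩ := (a2.and (nhdsWithin_le_nhds h)).exists
    b1 b2
  have hm : m ≠ 0 := by
    rintro rfl
    have := d3.self_of_nhds
    rw [← hi, D.chart_q, pow_zero, one_smul] at this
    exact d2 this.symm
  obtain ⟨b, hb, -⟩ := Kum.exists_cs d2
  have e1 : DifferentiableAt ℂ
      (fun c' => ((((c' - c) ^ m) ^ 2 * Kum.cs b (d c') ^ 2, (Kum.ph b (d c')).2) : C2)) c :=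
    (((differentiableAt_id.sub_const c).pow m).pow 2).mul
      (((diff_cs b _).comp c d1.differentiableAt).pow 2) |>.prodMk
      ((Kum.ph_deriv hb).1.comp c d1.differentiableAt).snd
  have e2 := Inv.md_comp (Inv.etale_md ((A.std i).etale b _ ⟨dir_ne _ _, by simp [hm]⟩)) e1
  refine ⟨_, e2.congr_of_eventuallyEq
    (eventuallyEq_nhds_of_eventuallyEq_nhdsNE ?_ (Function.update_self ..))⟩
  filter_upwards [a2, nhdsWithin_le_nhds a0, nhdsWithin_le_nhds d3, self_mem_nhdsWithin,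
    nhdsWithin_le_nhds (((Kum.continuous_cs b).continuousAt.comp d1.continuousAt).eventually_ne hb)]
    with c' b1 b2 b3 b4 b5
  have b6 := D.p_q i _ (D.target_q i ▸ (chartAt C2 (D.q i)).map_source b2) b1
  rw [(chartAt C2 (D.q i)).left_inv b2, b3,
    ← (A.std i).hom _ _ _ (pow_ne_zero m (sub_ne_zero.2 b4)), one_mul] at b6
  rw [Function.update_of_ne b4, b6, (A.std i).hom _ (Kum.cs b (d c')) _ b5]
  exact congrArg _ (Kum.smul_dir b5).symm

theorem cover (D : DCover A) (x : Y.X) : x ∈ D.p '' (range D.q)ᶜ ∨ ∃ (g : ℂ → Y.X) (R : ℝ),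
    1 < R ∧ g 0 = x ∧ (∀ c : ℂ, ‖c‖ < R → MD g c) ∧ ∀ c : ℂ, ‖c‖ = 1 → g c ∈ D.p '' (range D.q)ᶜ := by
  by_cases hx : x ∈ K.br
  · obtain ⟨i, b, u, rfl⟩ := hx
    have h0 : (‖dir b u‖ ^ 2 : ℝ) ≠ 0 := pow_ne_zero _ (norm_ne_zero_iff.2 (dir_ne b u))
    have h1 : ∀ c : ℂ, ‖c‖ < 2 → SD 100 (c / (‖dir b u‖ ^ 2 : ℝ)) (dir b u) := fun c hc =>
      ⟨dir_ne b u, by
        rw [norm_div, Complex.norm_real, Real.norm_of_nonneg (by positivity), div_mul_cancel₀ _ h0]
        linarith⟩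
    refine Or.inr ⟨fun c => A.ν i (c / (‖dir b u‖ ^ 2 : ℝ)) (dir b u), 2, one_lt_two,
      by simp only [zero_div, (A.std i).zero], fun c hc => ?_, fun c hc => D.surj _ ?_⟩
    · exact Inv.md_comp (q := fun c : ℂ => ((c / (‖dir b u‖ ^ 2 : ℝ), u) : C2))
        (Inv.etale_md ((A.std i).etale b _ (h1 c hc))) (by fun_prop)
    · exact not_br A (h1 c (by rw [hc]; exact one_lt_two))
        (div_ne_zero (norm_ne_zero_iff.1 (by rw [hc]; exact one_ne_zero)) (by exact_mod_cast h0))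
  · exact Or.inl (D.surj x hx)

end TC

theorem toCover {Y : W.K3} {n : ℕ} {K : Nik Y n} {A : Nbhd K} (D : DCover A) (h : W.B1 D.Z.X) :
    Nonempty (Top.Cover (D.Z.k3 h) Y) :=
  ⟨⟨D.p, range D.q, finite_range _, fun _ hz => TC.hol_p D hz, fun z hz => by
    have h1 : (ContinuousLinearMap.id ℂ C2).det = 1 := LinearMap.det_id
    have h2 := (TC.rep_id D hz).fderiv_eq (𝕜 := ℂ)
    rw [fderiv_id] at h2
    exact ((congrArg (fun B : C2 →L[ℂ] C2 => _ * B.det) h2).trans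
      (by rw [h1, mul_one])).trans (D.om_p z hz).symm, TC.lift D, TC.cover D⟩⟩

end Vale.Agent.P290Z.Nk
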