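import Vale.Agent.P290Z.Nk.DefsA

/-!
# P290Z, part III: the Bezout identity for holomorphic functions on a disc
-/

set_option linter.unusedVariables false

open scoped Topology
open Set Filter Metric

noncomputable section

namespace Vale.Agent.P290Z.Nk

namespace BEZ

variable {V : Set ℂ} {a a' b : ℂ → ℂ}

/-- `a` and `b` generate the unit ideal on `V` -/
def Cop (V : Set ℂ) (b a : ℂ → ℂ) : Prop :=
  ∃ p q : ℂ → ℂ, DifferentiableOn ℂ p V ∧ DifferentiableOn ℂ q V ∧
    ∀ u ∈ V, p u * a u + q u * b u = 1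

theorem Cop.mul (h : Cop V b a) (h' : Cop V b a') (ha : DifferentiableOn ℂ a V)
    (hb : DifferentiableOn ℂ b V) : Cop V b fun u => a u * a' u := by
  obtain ⟨p, q, hp, hq, e⟩ := h
  obtain ⟨p', q', hp', hq', e'⟩ := h'
  refine ⟨fun u => p u * p' u, fun u => q u + p u * a u * q' u, hp.mul hp',
    hq.add ((hp.mul ha).mul hq'), fun u hu => ?_⟩
  linear_combination e u hu + p u * a u * e' u hu

theorem cop_lin {z : ℂ} (hz : V ∈ 𝓝 z) (hb : DifferentiableOn ℂ b V) (h : b z ≠ 0) :
    Cop V b fun u => u - z := by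
  refine ⟨fun u => -(dslope b z u * (b z)⁻¹), fun _ => (b z)⁻¹,
    (((Complex.differentiableOn_dslope hz).2 hb).mul_const _).neg, differentiableOn_const _,
    fun u _ => ?_⟩
  have e := sub_smul_dslope b z u
  rw [smul_eq_mul] at e
  linear_combination mul_inv_cancel₀ h - (b z)⁻¹ * e

theorem cop_pow {z : ℂ} (hz : V ∈ 𝓝 z) (hb : DifferentiableOn ℂ b V) (h : b z ≠ 0) (n : ℕ) :
    Cop V b fun u => (u - z) ^ n := by
  induction n with
  | zero => exact ⟨fun _ => 1, fun _ => 0, differentiableOn_const _, differentiableOn_const _,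
      fun u _ => by simp⟩
  | succ n ih => simpa only [pow_succ] using ih.mul (cop_lin hz hb h) (by fun_prop) hb

theorem diff_iter {z : ℂ} (hz : V ∈ 𝓝 z) (n : ℕ) (ha : DifferentiableOn ℂ a V) :
    DifferentiableOn ℂ ((Function.swap dslope z)^[n] a) V := by
  induction n with
  | zero => exact ha
  | succ n ih =>
    rw [Function.iterate_succ_apply']
    exact (Complex.differentiableOn_dslope hz).2 ih

theorem cop_fin (hV : IsOpen V) (hb : DifferentiableOn ℂ b V) (s : Finset ℂ) :
    ∀ a : ℂ → ℂ, DifferentiableOn ℂ a V → (∀ u ∈ V, a u = 0 → u ∈ s ∧ b u ≠ 0) → Cop V b a := by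
  classical
  induction s using Finset.induction_on with
  | empty =>
    intro a ha h
    have h0 : ∀ u ∈ V, a u ≠ 0 := fun u hu e => by simpa using (h u hu e).1
    exact ⟨fun u => (a u)⁻¹, fun _ => 0, ha.inv h0, differentiableOn_const _,
      fun u hu => by simp [h0 u hu]⟩
  | insert z s _ ih =>
    intro a ha h
    by_cases hz : z ∈ V ∧ a z = 0
    swap
    · refine ih a ha fun u hu e => ⟨(Finset.mem_insert.1 (h u hu e).1).resolve_left ?_, (h u hu e).2⟩
      rintro rfl
      exact hz ⟨hu, e⟩
    have hN := hV.mem_nhds hz.1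
    obtain ⟨p, hp⟩ := ha.analyticAt hN
    have p0 : p ≠ 0 := fun e => infinite_of_mem_nhds z (inter_mem hN (hp.locally_zero_iff.2 e))
      ((insert z s).finite_toSet.subset fun u hu => (h u hu.1 hu.2).1)
    have e := hp.eq_pow_order_mul_iterate_dslope
    have h1 := ih _ (diff_iter hN p.order ha) fun u hu e' => by
      have := h u hu (by rw [e u, e', smul_zero])
      refine ⟨(Finset.mem_insert.1 this.1).resolve_left ?_, this.2⟩
      rintro rfl
      exact hp.iterate_dslope_fslope_ne_zero p0 e'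
    have := (cop_pow hN hb (h z hz.1 hz.2).2 p.order).mul h1 (by fun_prop) hb
    rwa [show (fun u => (u - z) ^ p.order * (Function.swap dslope z)^[p.order] a u) = a from
      funext fun u => (e u).symm] at this

end BEZ

open BEZ

theorem bez : StBez := by
  intro R R' ξ hR hR' hξ h0
  have sub : ball (0 : ℂ) R ⊆ ball 0 R' := ball_subset_ball hR'.le
  have hb := hξ.snd.mono sub
  have key : Cop (ball 0 R) (fun u => (ξ u).2) fun u => (ξ u).1 := by
    have hne : ∀ u ∈ ball (0 : ℂ) R, (ξ u).1 = 0 → (ξ u).2 ≠ 0 := fun u hu e e' =>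
      h0 u (sub hu) (Prod.ext e e')
    rcases (hξ.fst.analyticOnNhd isOpen_ball).eqOn_zero_or_eventually_ne_zero_of_preconnected
      (convex_ball _ _).isPreconnected with h | h
    · exact ⟨fun _ => 0, fun u => ((ξ u).2)⁻¹, differentiableOn_const _,
        hb.inv fun u hu => hne u hu (h (sub hu)), fun u hu => by
          simp [hne u hu (h (sub hu))]⟩
    · have hf := (isCompact_closedBall (0 : ℂ) R).finite_sdiff_of_mem_codiscreteWithin
        (codiscreteWithin_mono (closedBall_subset_ball hR') h)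
      exact cop_fin isOpen_ball hb hf.toFinset _ (hξ.fst.mono sub) fun u hu e =>
        ⟨hf.mem_toFinset.2 ⟨ball_subset_closedBall hu, fun h => h e⟩, hne u hu e⟩
  obtain ⟨p, q, hp, hq, e⟩ := key
  exact ⟨fun u => (q u, -p u), hq.prodMk hp.neg, fun u hu => by linear_combination e u hu⟩

end Vale.Agent.P290Z.Nk
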