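import Vale.Agent.P290Z.Nk.Lift.Loc

/-!
# P290Z, part III: the square root of `S` on a standard neighbourhood
-/

set_option linter.unusedVariables false

open scoped Manifold ContDiff Topology
open Set Filter Metric

noncomputable section

namespace Vale.Agent.P290Z.Nk

open Vale.Agent.P290 Vale.Agent.P267
open Vale.Agent.P290.All (Etale dir Hol)
open STD (cs ct ph)

namespace LF

/-- the quotient by the first variable -/
def quo (g : ℂ → ℂ) (h : ℂ) : ℂ := open Classical in if h = 0 then deriv g 0 else g h / h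

theorem quo_scale (g : ℂ → ℂ) {t : ℂ} (ht : t ≠ 0) (h : ℂ) :
    quo (fun x => g (x * t ^ 2)) h = t ^ 2 * quo g (h * t ^ 2) := by
  unfold quo
  by_cases h0 : h = 0
  · rw [if_pos h0, if_pos (by simp [h0])]
    simp only [mul_comm _ (t ^ 2), deriv_comp_mul_left, mul_zero, smul_eq_mul]
  · rw [if_neg h0, if_neg (mul_ne_zero h0 (pow_ne_zero 2 ht))]
    field_simp

theorem quo_eq {g a : ℂ → ℂ} {h : ℂ} (ha : ContinuousAt a h) (e : ∀ᶠ x in 𝓝 h, g x = x * a x) :
    quo g h = a h := by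
  unfold quo
  by_cases h0 : h = 0
  · subst h0
    rw [if_pos rfl]
    refine HasDerivAt.deriv (hasDerivAt_iff_tendsto_slope.2 ((ha.tendsto.mono_left
      nhdsWithin_le_nhds).congr' ?_))
    filter_upwards [nhdsWithin_le_nhds e, self_mem_nhdsWithin] with x a1 a2
    rw [slope_def_field, a1, e.self_of_nhds, zero_mul, sub_zero, sub_zero,
      mul_div_cancel_left₀ _ a2]
  · rw [if_neg h0, e.self_of_nhds, mul_div_cancel_left₀ _ h0]

theorem cont_co {ι : Type} [Fintype ι] (j : ι) : Continuous fun v : EuclideanSpace ℂ ι => v j := by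
  fun_prop

theorem dir_ne (b : Bool) (u : ℂ) : dir b u ≠ 0 := by
  cases b <;> simp [dir]

theorem smul_dir {b : Bool} {d : C2} (hd : cs b d ≠ 0) : cs b d • dir b (ct b d / cs b d) = d := by
  cases b
  · exact Prod.ext (mul_div_cancel₀ _ hd) (mul_one _)
  · exact Prod.ext (mul_one _) (mul_div_cancel₀ _ hd)

theorem sd_smul {r : ℝ} {h t : ℂ} {d : C2} (ht : t ≠ 0) : SD r (h * t ^ 2) d ↔ SD r h (t • d) := by
  simp only [SD, ne_eq, smul_eq_zero, ht, false_or, norm_mul, norm_pow, norm_smul, mul_pow,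
    mul_assoc]

/-- the domain of a standard chart -/
def Dm (r : ℝ) (b : Bool) : Set C2 := {w | SD r w.1 (dir b w.2)}

theorem cont_dir (b : Bool) : Continuous (dir b) := by
  cases b
  · exact continuous_id.prodMk continuous_const
  · exact continuous_const.prodMk continuous_id

theorem isOpen_Dm (r : ℝ) (b : Bool) : IsOpen (Dm r b) := by
  have := cont_dir b
  simp only [Dm, SD, ne_eq, dir_ne, not_false_eq_true, true_and]
  exact isOpen_lt (by fun_prop) continuous_const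

theorem star_Dm (r : ℝ) (b : Bool) : StarConvex ℝ 0 (Dm r b) := by
  refine starConvex_zero_iff.2 fun w hw a h0 h1 => ⟨dir_ne _ _, lt_of_le_of_lt ?_ hw.2⟩
  have h2 : ∀ z : ℂ, ‖a • z‖ ≤ ‖z‖ := fun z => by
    rw [norm_smul, Real.norm_of_nonneg h0]
    exact mul_le_of_le_one_left (norm_nonneg _) h1
  rw [STD.norm_dir, STD.norm_dir]
  exact mul_le_mul (h2 _) (pow_le_pow_left₀ (by positivity) (max_le_max_left _ (h2 _)) 2)
    (by positivity) (norm_nonneg _)

theorem ph_mem {r : ℝ} {b : Bool} {h : ℂ} {d : C2} (H : SD r h d) (hd : cs b d ≠ 0) :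
    ph b h d ∈ Dm r b := (sd_smul hd).2 (by rwa [ph, smul_dir hd])

variable {Y : W.K3} {n : ℕ} {K : Nik Y n} {i : Fin n} {r : ℝ} {ν : ℂ → C2 → Y.X}

theorem near (hs : IsStd (K.C i) r ν) (hb : ∀ h d, SD r h d → h ≠ 0 → ν h d ∉ K.br) {b : Bool}
    {p : C2} (hp : p ∈ Dm r b) : ∀ᶠ w in 𝓝 p, Etale (fun w : C2 => ν w.1 (dir b w.2)) w ∧
      (ν w.1 (dir b w.2) ∈ K.br ↔ w.1 = 0) := by
  filter_upwards [(isOpen_Dm r b).mem_nhds hp] with w hw
  refine ⟨hs.etale b w hw, fun h => by_contra fun h' => hb _ _ hw h' h, fun h => ?_⟩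
  rw [h, hs.zero]
  exact ⟨i, b, _, rfl⟩

/-- the square root in one chart -/
theorem chart (hr : 0 < r) (hs : IsStd (K.C i) r ν) (hb : ∀ h d, SD r h d → h ≠ 0 → ν h d ∉ K.br)
    (b : Bool) : ∃ E : C2 → EuclideanSpace ℂ K.ι, ∀ w ∈ Dm r b, ContinuousAt E w ∧ E w ≠ 0 ∧
      (∀ j k, E w j * E w k = quo (fun x => K.S (ν x (dir b w.2)) j k) w.1) ∧
      ∀ j k, K.S (ν w.1 (dir b w.2)) j k = w.1 * (E w j * E w k) := by
  classical
  have h1 : ∀ p ∈ Dm r b, ∃ E : C2 → EuclideanSpace ℂ K.ι, ∀ᶠ w in 𝓝 p, ContinuousAt E w ∧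
      E w ≠ 0 ∧ (∀ j k, E w j * E w k = quo (fun x => K.S (ν x (dir b w.2)) j k) w.1) ∧
      ∀ j k, K.S (ν w.1 (dir b w.2)) j k = w.1 * (E w j * E w k) := fun p hp => by
    obtain ⟨U, e, κ, he, h⟩ := loc K (near hs hb hp)
    refine ⟨fun w => κ w • e (ν w.1 (dir b w.2)), ?_⟩
    filter_upwards [h.eventually_nhds, near hs hb hp] with w a1 a2
    have a3 := a1.self_of_nhds
    have a4 : ContinuousAt (fun w : C2 => κ w • e (ν w.1 (dir b w.2))) w :=
      a3.2.1.continuousAt.smul (ContinuousAt.comp (g := e) (frame_cont he a3.1) a2.1.1)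
    refine ⟨a4, smul_ne_zero a3.2.2.1 (he.ne _ a3.1), fun j k => (quo_eq (a := fun x =>
      (κ (x, w.2) • e (ν x (dir b w.2))) j * (κ (x, w.2) • e (ν x (dir b w.2))) k) ?_ ?_).symm,
      a3.2.2.2⟩
    · have a5 : ContinuousAt (fun x : ℂ => κ (x, w.2) • e (ν x (dir b w.2))) w.1 :=
        ContinuousAt.comp (f := fun x : ℂ => (x, w.2)) (x := w.1) a4 (by fun_prop)
      exact ((cont_co j).continuousAt.comp a5).mul ((cont_co k).continuousAt.comp a5)
    · have a5 : ContinuousAt (fun x : ℂ => (x, w.2)) w.1 := by fun_prop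
      exact (a5.eventually a1).mono fun x hx => hx.2.2.2 j k
  have := (star_Dm r b).contractibleSpace ⟨0, dir_ne _ _, by simpa using hr⟩
  have := (isOpen_Dm r b).locallyPathConnectedSpace
  obtain ⟨E, hE, hE'⟩ := glob (X := Dm r b)
    (fun w j k => quo (fun x => K.S (ν x (dir b w.1.2)) j k) w.1.1) fun p => by
      obtain ⟨E, h⟩ := h1 p p.2
      exact ⟨fun w => E w, (continuousAt_subtype_val.eventually h).mono fun w hw =>
        ⟨hw.1.comp continuousAt_subtype_val, hw.2.1, hw.2.2.1⟩⟩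
  have h2 : ∀ w : Dm r b, Function.extend Subtype.val E 0 w.1 = E w := fun w =>
    Subtype.val_injective.extend_apply _ _ _
  refine ⟨Function.extend Subtype.val E 0, fun w hw => ?_⟩
  have h3 := h2 ⟨w, hw⟩
  refine ⟨(isOpen_Dm r b).isOpenEmbedding_subtypeVal.continuousAt_iff.1
    (show ContinuousAt (Function.extend Subtype.val E 0 ∘ Subtype.val) (⟨w, hw⟩ : Dm r b) from
      hE.continuousAt.congr (Eventually.of_forall fun x => (h2 x).symm)), h3 ▸ (hE' _).1,
    h3 ▸ (hE' _).2, fun j k => ?_⟩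
  obtain ⟨E', h⟩ := h1 w hw
  rw [h.self_of_nhds.2.2.2, h.self_of_nhds.2.2.1, h3, (hE' _).2]

theorem conn (r : ℝ) :
    IsPreconnected {v : ℂ × C2 | SD r v.1 v.2 ∧ v.2.1 ≠ 0 ∧ v.2.2 ≠ 0} := by
  have h0 : IsPreconnected ({0}ᶜ : Set ℂ) :=
    (isConnected_compl_singleton_of_one_lt_rank (by simp) 0).isPreconnected
  have hn : ∀ d : C2, d.1 ≠ 0 → (‖d‖ : ℂ) ≠ 0 := fun d hd => by
    rw [ne_eq, Complex.ofReal_eq_zero, norm_eq_zero]
    rintro rfl
    exact hd rfl
  have h1 := ((convex_ball (0 : ℂ) r).isPreconnected.prod (h0.prod h0)).image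
    (fun v : ℂ × C2 => (v.1 / (‖v.2‖ : ℂ) ^ 2, v.2)) (ContinuousOn.prodMk
      (ContinuousOn.div (by fun_prop) (by fun_prop) fun v hv => pow_ne_zero 2 (hn _ hv.2.1))
      (by fun_prop))
  refine h1.subset_closure ?_ (subset_closure.trans' ?_)
  · rintro _ ⟨v, hv, rfl⟩
    have h2 := hn _ hv.2.1
    refine ⟨⟨fun e => hv.2.1 (congrArg Prod.fst e), ?_⟩, hv.2⟩
    simp only
    rw [norm_div, norm_pow, Complex.norm_real, norm_norm, div_mul_cancel₀ _
      (pow_ne_zero 2 (Complex.ofReal_ne_zero.1 h2))]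
    exact mem_ball_zero_iff.1 hv.1
  · rintro v ⟨h2, h3⟩
    refine ⟨(v.1 * (‖v.2‖ : ℂ) ^ 2, v.2), ⟨mem_ball_zero_iff.2 ?_, h3⟩,
      Prod.ext (mul_div_cancel_right₀ _ (pow_ne_zero 2 (hn _ h3.1))) rfl⟩
    rw [norm_mul, norm_pow, Complex.norm_real, norm_norm]
    exact h2.2

theorem main (hr : 0 < r) (hs : IsStd (K.C i) r ν)
    (hb : ∀ h d, SD r h d → h ≠ 0 → ν h d ∉ K.br) : ∃ E, IsLift K r ν E := by
  classical
  choose E hE using chart hr hs hb
  obtain ⟨G, hG⟩ : ∃ G : Bool → ℂ × C2 → EuclideanSpace ℂ K.ι,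
      ∀ b v, G b v = cs b v.2 • E b (ph b v.1 v.2) := ⟨_, fun _ _ => rfl⟩
  have g1 : ∀ b h t d, t ≠ 0 → G b (h, t • d) = t • G b (h * t ^ 2, d) := fun b h t d ht => by
    rw [hG, hG, STD.ph_smul b h ht, smul_smul]
    cases b <;> rfl
  have g2 : ∀ b (v : ℂ × C2), SD r v.1 v.2 → cs b v.2 ≠ 0 → ContinuousAt (G b) v ∧ G b v ≠ 0 ∧
      (∀ j k, G b v j * G b v k = quo (fun x => K.S (ν x v.2) j k) v.1) ∧
      ∀ j k, K.S (ν v.1 v.2) j k = v.1 * (G b v j * G b v k) := fun b v hv hc => by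
    obtain ⟨a1, a2, a3, a4⟩ := hE b _ (ph_mem hv hc)
    have c1 := (STD.diff_cs b).continuous
    have c2 := (STD.diff_ct b).continuous
    have e : ∀ x, ν x v.2 = ν (x * cs b v.2 ^ 2) (dir b (ph b v.1 v.2).2) := fun x => by
      rw [hs.hom _ _ _ hc, ph, smul_dir hc]
    refine ⟨?_, hG b v ▸ smul_ne_zero hc a2, fun j k => ?_, fun j k => ?_⟩
    · rw [show G b = _ from funext (hG b)]
      refine ContinuousAt.smul (c1.comp continuous_snd).continuousAt (ContinuousAt.comp (g := E b)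
        (f := fun v : ℂ × C2 => ph b v.1 v.2) a1 ?_)
      exact ContinuousAt.prodMk (by fun_prop) (ContinuousAt.div (by fun_prop) (by fun_prop) hc)
    · simp only [e]
      rw [quo_scale (fun x => K.S (ν x (dir b (ph b v.1 v.2).2)) j k) hc, hG, PiLp.smul_apply,
        PiLp.smul_apply, smul_eq_mul, smul_eq_mul]
      have a5 : _ = quo _ (v.1 * cs b v.2 ^ 2) := a3 j k
      linear_combination cs b v.2 ^ 2 * a5
    · rw [e, hG, PiLp.smul_apply, PiLp.smul_apply, smul_eq_mul, smul_eq_mul]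
      have a5 : K.S (ν (v.1 * cs b v.2 ^ 2) _) j k = (v.1 * cs b v.2 ^ 2) * _ := a4 j k
      linear_combination a5
  obtain ⟨c, hc, hc'⟩ : ∃ c : ℂ, c * c = 1 ∧ ∀ v : ℂ × C2, SD r v.1 v.2 → v.2.1 ≠ 0 → v.2.2 ≠ 0 →
      G true v = c • G false v := by
    rcases sign_const (w := G false) (w' := G true) (conn r) (fun v hv => (g2 false v hv.1 hv.2.2).1)
      (fun v hv => (g2 true v hv.1 hv.2.1).1) (fun v hv j k =>
        ((g2 false v hv.1 hv.2.2).2.2.1 j k).trans ((g2 true v hv.1 hv.2.1).2.2.1 j k).symm)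
      fun v hv => (g2 false v hv.1 hv.2.2).2.1 with h | h
    · exact ⟨1, one_mul _, fun v a1 a2 a3 => by rw [h v ⟨a1, a2, a3⟩, one_smul]⟩
    · exact ⟨-1, by simp, fun v a1 a2 a3 => by rw [h v ⟨a1, a2, a3⟩, neg_one_smul]⟩
  have o : IsOpen {v : ℂ × C2 | SD r v.1 v.2} :=
    (isOpen_ne_fun continuous_snd continuous_const).inter
      (isOpen_lt (f := fun v : ℂ × C2 => ‖v.1‖ * ‖v.2‖ ^ 2) (by fun_prop) continuous_const)
  have n2 : ∀ {d : C2}, d ≠ 0 → d.1 = 0 → d.2 ≠ 0 := fun h1 h2 h3 => h1 (Prod.ext h2 h3)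
  refine ⟨fun h d => if d.1 = 0 then c • G false (h, d) else G true (h, d),
    fun h t d ht => ?_, fun h d hd => ?_, fun h d hd j k => ?_, fun h d hd => ?_⟩
  · by_cases h1 : d.1 = 0
    · rw [if_pos h1, if_pos (by simp [h1]), g1 _ _ _ _ ht, smul_comm]
    · rw [if_neg h1, if_neg (by simp [h1, ht]), g1 _ _ _ _ ht]
  · by_cases h1 : d.1 = 0
    · refine ((g2 false (h, d) hd (n2 hd.1 h1)).1.const_smul c).congr ?_
      filter_upwards [o.mem_nhds (x := (h, d)) hd, ContinuousAt.eventually_ne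
        (g := fun v : ℂ × C2 => v.2.2) (x := (h, d)) (by fun_prop) (n2 hd.1 h1)] with v a1 a2
      split_ifs with a3
      · rfl
      · exact (hc' v a1 a3 a2).symm
    · refine (g2 true (h, d) hd h1).1.congr ?_
      filter_upwards [ContinuousAt.eventually_ne
        (g := fun v : ℂ × C2 => v.2.1) (x := (h, d)) (by fun_prop) h1] with v a1
      rw [if_neg a1]
  · split_ifs with h1
    · rw [(g2 false (h, d) hd (n2 hd.1 h1)).2.2.2, PiLp.smul_apply, PiLp.smul_apply, smul_eq_mul,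
        smul_eq_mul]
      linear_combination -h * G false (h, d) j * G false (h, d) k * hc
    · exact (g2 true (h, d) hd h1).2.2.2 j k
  · split_ifs with h1
    · exact smul_ne_zero (left_ne_zero_of_mul_eq_one hc) (g2 false (h, d) hd (n2 hd.1 h1)).2.1
    · exact (g2 true (h, d) hd h1).2.1

end LF

theorem lift : StLift := by
  intro Y n K i ε ν hε hs hb
  obtain ⟨E, hE⟩ := LF.main (by positivity) hs hb
  have h : ∀ {h d}, SD ε h d → SD (4 * ε) h d := fun h => ⟨h.1, by linarith [h.2]⟩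
  exact ⟨E, hE.hom, fun _ _ a => hE.cont _ _ (h a), fun _ _ a => hE.sq _ _ (h a),
    fun _ _ a => hE.ne _ _ (h a)⟩

end Vale.Agent.P290Z.Nk
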