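import Vale.Agent.P290Z.Nk.DefsA
import Vale.Agent.P290Z.Inv.Loc

/-!
# P290Z, part III: the standard neighbourhood of a rational curve
-/

open scoped Manifold ContDiff Topology
open Set Filter Metric

noncomputable section

namespace Vale.Agent.P290Z.Nk

open Vale.Agent.P290
open Vale.Agent.P290.All (Etale dir)

namespace STD

/-! ### maps of `ℂ²` -/

theorem inj_of_left {f g : C2 → C2} {v : C2} (hf : DifferentiableAt ℂ f v)
    (hg : DifferentiableAt ℂ g (f v)) (h : ∀ᶠ w in 𝓝 v, g (f w) = w) :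
    Function.Injective (fderiv ℂ f v) := by
  have h1 := (hg.hasFDerivAt.comp v hf.hasFDerivAt).unique
    ((hasFDerivAt_id v).congr_of_eventuallyEq h)
  exact Function.LeftInverse.injective (g := fderiv ℂ g (f v)) fun a =>
    congrArg (fun A : C2 →L[ℂ] C2 => A a) h1

/-- the inverse function theorem -/
theorem ift {f : C2 → C2} {p : C2} (hd : ∀ᶠ v in 𝓝 p, DifferentiableAt ℂ f v)
    (hi : Function.Injective (fderiv ℂ f p)) :
    ∃ σ : C2 → C2, (∀ᶠ v in 𝓝 p, σ (f v) = v) ∧ (∀ᶠ w in 𝓝 (f p), f (σ w) = w) ∧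
      (∀ᶠ w in 𝓝 (f p), DifferentiableAt ℂ σ w) ∧ Tendsto σ (𝓝 (f p)) (𝓝 p) := by
  let L : C2 ≃L[ℂ] C2 :=
    (LinearEquiv.ofInjectiveEndo (fderiv ℂ f p : C2 →ₗ[ℂ] C2) hi).toContinuousLinearEquiv
  have h1 : ContDiffAt ℂ 1 f p := contDiffAt_of_eventually hd 1
  have h2 : HasFDerivAt f (L : C2 →L[ℂ] C2) p :=
    hd.self_of_nhds.hasFDerivAt.congr_fderiv (by ext <;> rfl)
  have h3 := h1.hasStrictFDerivAt' h2 one_ne_zero
  refine ⟨h1.localInverse h2 one_ne_zero, h3.eventually_left_inverse, h3.eventually_right_inverse,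
    ?_, h3.localInverse_tendsto⟩
  exact ((h1.to_localInverse h2 one_ne_zero).eventually (by simp)).mono fun w hw =>
    hw.differentiableAt one_ne_zero

theorem injOn_of_left {Y Z : Type} [TopologicalSpace Y] {f : Y → Z} {g : Z → Y} {p : Y}
    (h : ∀ᶠ v in 𝓝 p, g (f v) = v) : ∃ U ∈ 𝓝 p, InjOn f U :=
  ⟨_, h, fun a ha b hb e => by rw [← (show g (f a) = a from ha), e]; exact hb⟩

/-- the inverse near a compact set of fixed points -/
theorem exists_inv {f : C2 → C2} {S : Set C2} (hS : IsCompact S) (h0 : ∀ p ∈ S, f p = p)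
    (hd : ∀ p ∈ S, ∀ᶠ v in 𝓝 p, DifferentiableAt ℂ f v)
    (hi : ∀ p ∈ S, Function.Injective (fderiv ℂ f p)) :
    ∃ Φ : C2 → C2, ∀ p ∈ S, (∀ᶠ v in 𝓝 p, Φ (f v) = v) ∧ Tendsto Φ (𝓝 p) (𝓝 p) ∧
      ∀ᶠ w in 𝓝 p, f (Φ w) = w ∧ DifferentiableAt ℂ Φ w ∧ Function.Injective (fderiv ℂ Φ w) := by
  obtain ⟨U, hU, hSU, hin⟩ := Set.InjOn.exists_isOpen_superset (f := f) (s := S)
    (fun a ha b hb e => by rwa [h0 a ha, h0 b hb] at e) hS
    (fun p hp => (hd p hp).self_of_nhds.continuousAt)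
    (fun p hp => by
      obtain ⟨σ, h1, -⟩ := ift (hd p hp) (hi p hp)
      exact injOn_of_left h1)
  refine ⟨Function.invFunOn f U, fun p hp => ?_⟩
  obtain ⟨σ, -, h2, h3, h4⟩ := ift (hd p hp) (hi p hp)
  rw [h0 p hp] at h2 h3 h4
  have hp' : U ∈ 𝓝 p := hU.mem_nhds (hSU hp)
  have e : Function.invFunOn f U =ᶠ[𝓝 p] σ := by
    filter_upwards [h2, h4.eventually hp'] with w a1 a2
    have := hin.leftInvOn_invFunOn a2
    rwa [a1] at this
  refine ⟨Filter.mem_of_superset hp' fun v hv => hin.leftInvOn_invFunOn hv, h4.congr' e.symm, ?_⟩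
  filter_upwards [e.eventuallyEq_nhds, h2.eventually_nhds, h3, h4.eventually (hd p hp)] with
    w a1 a2 a3 a4
  refine ⟨by rw [a1.self_of_nhds, a2.self_of_nhds], a3.congr_of_eventuallyEq a1, ?_⟩
  rw [a1.fderiv_eq]
  exact inj_of_left a3 a4 a2

/-- a triangular derivative -/
theorem inj_tri {f : C2 → C2} {a : C2 → ℂ} {u : ℂ} (hf : DifferentiableAt ℂ f (0, u))
    (ha : DifferentiableAt ℂ a (0, u)) (h1 : a (0, u) = 1) (h2 : ∀ v, (f v).1 = v.1 * a v)
    (h3 : ∀ᶠ z in 𝓝 u, f (0, z) = (0, z)) : Function.Injective (fderiv ℂ f (0, u)) := by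
  have e1 := (hasFDerivAt_fst (𝕜 := ℂ) (p := ((0, u) : C2))).mul ha.hasFDerivAt
  have e2 := hf.hasFDerivAt.fst.unique (e1.congr_of_eventuallyEq (Eventually.of_forall h2))
  have e3 : HasFDerivAt (fun z : ℂ => ((0, z) : C2)) (ContinuousLinearMap.inr ℂ ℂ ℂ) u :=
    hasFDerivAt_prodMk_right _ _
  have e4 := (HasFDerivAt.comp (f := fun z : ℂ => ((0, z) : C2)) u hf.hasFDerivAt e3).unique
    (e3.congr_of_eventuallyEq h3)
  refine (injective_iff_map_eq_zero _).2 ?_
  rintro ⟨ξ, η⟩ h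
  have b1 := congrArg (fun A : C2 →L[ℂ] ℂ => A (ξ, η)) e2
  have b2 := congrArg (fun A : ℂ →L[ℂ] C2 => A η) e4
  simp only [ContinuousLinearMap.comp_apply, h, h1] at b1
  have b3 : ξ = 0 := by simpa using b1.symm
  subst b3
  simp only [ContinuousLinearMap.comp_apply, ContinuousLinearMap.inr_apply, h] at b2
  exact b2.symm

/-- the tube lemma -/
theorem tube {K : Set ℂ} (hK : IsCompact K) {P : C2 → Prop}
    (h : ∀ u ∈ K, ∀ᶠ w in 𝓝 ((0, u) : C2), P w) :
    ∀ᶠ e in 𝓝[>] (0 : ℝ), ∀ w : C2, ‖w.1‖ < e → w.2 ∈ K → P w := by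
  have h1 := hK.eventually_forall_of_forall_eventually (x₀ := (0 : ℂ)) (P := fun a b => P (a, b)) h
  obtain ⟨r, hr, h2⟩ := Metric.eventually_nhds_iff.1 h1
  filter_upwards [Ioo_mem_nhdsGT hr] with e he w a1 a2
  exact h2 (by rw [dist_zero_right]; exact a1.trans he.2) _ a2

/-! ### coordinates -/

/-- the coordinate which is `1` on `dir b u` -/
def cs (b : Bool) (z : C2) : ℂ := cond b z.1 z.2

/-- the other coordinate -/
def ct (b : Bool) (z : C2) : ℂ := cond b z.2 z.1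

/-- the coordinates of the class of `√h d` -/
def ph (b : Bool) (h : ℂ) (d : C2) : C2 := (h * cs b d ^ 2, ct b d / cs b d)

/-- the change of the chart -/
def sw (w : C2) : C2 := (w.1 * w.2 ^ 2, w.2⁻¹)

theorem cs_dir (b : Bool) (u : ℂ) : cs b (dir b u) = 1 := by cases b <;> rfl

theorem ct_dir (b : Bool) (u : ℂ) : ct b (dir b u) = u := by cases b <;> rfl

theorem ph_dir (b : Bool) (w : C2) : ph b w.1 (dir b w.2) = w := by simp [ph, cs_dir, ct_dir]

theorem ph_dir' (b : Bool) (w : C2) : ph (!b) w.1 (dir b w.2) = sw w := by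
  cases b <;> simp [ph, cs, ct, dir, sw]

theorem diff_cs (b : Bool) : Differentiable ℂ (cs b) := by
  cases b
  · exact differentiable_snd
  · exact differentiable_fst

theorem diff_ct (b : Bool) : Differentiable ℂ (ct b) := by
  cases b
  · exact differentiable_fst
  · exact differentiable_snd

theorem ph_smul (b : Bool) (h : ℂ) {t : ℂ} (ht : t ≠ 0) (d : C2) :
    ph b (h * t ^ 2) d = ph b h (t • d) := by
  cases b <;> simp [ph, cs, ct, mul_div_mul_left _ _ ht, mul_pow, mul_assoc]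

theorem ph_not {b : Bool} (h : ℂ) {d : C2} (hd : cs b d ≠ 0) : ph (!b) h d = sw (ph b h d) := by
  cases b
  · have h' : d.2 ≠ 0 := hd
    simp only [ph, cs, ct, sw, Bool.not_false, cond_true, cond_false, inv_div, Prod.mk.injEq,
      and_true]
    field_simp
  · have h' : d.1 ≠ 0 := hd
    simp only [ph, cs, ct, sw, Bool.not_true, cond_true, cond_false, inv_div, Prod.mk.injEq,
      and_true]
    field_simp

theorem ph_inj {b : Bool} {h h' : ℂ} {d d' : C2} (hd : cs b d ≠ 0) (hd' : cs b d' ≠ 0)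
    (e : ph b h d = ph b h' d') : ∃ t : ℂ, t ≠ 0 ∧ d' = t • d ∧ h = h' * t ^ 2 := by
  have e1 : h * cs b d ^ 2 = h' * cs b d' ^ 2 := congrArg Prod.fst e
  have e2 : ct b d / cs b d = ct b d' / cs b d' := congrArg Prod.snd e
  rw [div_eq_div_iff hd hd'] at e2
  have e3 : cs b d' = cs b d' / cs b d * cs b d := by field_simp
  have e4 : ct b d' = cs b d' / cs b d * ct b d := by
    field_simp
    linear_combination -e2
  refine ⟨cs b d' / cs b d, div_ne_zero hd' hd, ?_, ?_⟩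
  · cases b
    · exact Prod.ext e4 e3
    · exact Prod.ext e3 e4
  · field_simp
    linear_combination e1

theorem sw_sw {w : C2} (h : w.2 ≠ 0) : sw (sw w) = w := by
  refine Prod.ext ?_ (inv_inv _)
  simp only [sw]
  field_simp

theorem diff_sw {w : C2} (h : w.2 ≠ 0) : DifferentiableAt ℂ sw w :=
  (differentiableAt_fst.mul (differentiableAt_snd.pow 2)).prodMk (differentiableAt_snd.inv h)

theorem ev_ne {w : C2} (h : w.2 ≠ 0) : ∀ᶠ v in 𝓝 w, v.2 ≠ 0 := continuousAt_snd.eventually_ne h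

theorem inj_sw {w : C2} (h : w.2 ≠ 0) : Function.Injective (fderiv ℂ sw w) :=
  inj_of_left (diff_sw h) (diff_sw (inv_ne_zero h)) ((ev_ne h).mono fun _ => sw_sw)

theorem tendsto_sw {u : ℂ} (h : u ≠ 0) : Tendsto sw (𝓝 (0, u)) (𝓝 (0, u⁻¹)) := by
  have := (diff_sw (w := (0, u)) h).continuousAt.tendsto
  rwa [show sw (0, u) = (0, u⁻¹) by simp [sw]] at this

theorem box_mem {δ R : ℝ} {u : ℂ} (h : 0 < δ) (hu : ‖u‖ < R) : Box δ R ∈ 𝓝 ((0, u) : C2) :=
  ((isOpen_lt continuous_fst.norm continuous_const).inter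
    (isOpen_lt continuous_snd.norm continuous_const)).mem_nhds ⟨by simpa using h, hu⟩

theorem ann_mem {δ R : ℝ} {u : ℂ} (h : 0 < δ) (hu : R⁻¹ < ‖u‖) (hu' : ‖u‖ < R) :
    Ann δ R ∈ 𝓝 ((0, u) : C2) :=
  ((isOpen_lt continuous_fst.norm continuous_const).inter
    ((isOpen_lt continuous_const continuous_snd.norm).inter
      (isOpen_lt continuous_snd.norm continuous_const))).mem_nhds ⟨by simpa using h, hu, hu'⟩

theorem inv_bd {u : ℂ} (h1 : 8 / 9 ≤ ‖u‖) (h2 : ‖u‖ ≤ 9 / 8) :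
    u ≠ 0 ∧ 8 / 9 ≤ ‖u⁻¹‖ ∧ ‖u⁻¹‖ ≤ 9 / 8 := by
  have h0 : 0 < ‖u‖ := by linarith
  rw [norm_inv, le_inv_comm₀ (by norm_num) h0, inv_le_comm₀ h0 (by norm_num)]
  exact ⟨norm_pos_iff.1 h0, by norm_num [h2], by norm_num [h1]⟩

/-! ### etale maps -/

variable {X : Type} [TopologicalSpace X] [ChartedSpace C2 X]

theorem etale_congr {f g : C2 → X} {v : C2} (h : Etale f v) (e : g =ᶠ[𝓝 v] f) : Etale g v := by
  have e0 : g v = f v := e.self_of_nhds
  have e1 : (fun z => chartAt C2 (g v) (g z)) =ᶠ[𝓝 v] fun z => chartAt C2 (f v) (f z) := by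
    filter_upwards [e] with z hz
    rw [hz, e0]
  exact ⟨h.1.congr e.symm, h.2.1.congr_of_eventuallyEq e1, by rw [e1.fderiv_eq]; exact h.2.2⟩

theorem etale_injOn [IsManifold 𝓘(ℂ, C2) ω X] {f : C2 → X} {p : C2}
    (h : ∀ᶠ v in 𝓝 p, Etale f v) : ∃ U ∈ 𝓝 p, InjOn f U := by
  have h0 := h.self_of_nhds
  have hd : ∀ᶠ v in 𝓝 p, DifferentiableAt ℂ (fun z => chartAt C2 (f p) (f z)) v := by
    filter_upwards [h, h0.1.eventually (chart_source_mem_nhds C2 _)] with v a1 a2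
    exact Inv.md_chart (Inv.etale_md a1) a2
  obtain ⟨σ, h1, -⟩ := ift hd (Inv.det_ne_iff.1 h0.2.2)
  exact injOn_of_left (g := fun x => σ (chartAt C2 (f p) x)) h1

/-- two charts in normal form along the curve -/
structure NC (C : RC X) (N : Bool → C2 → X) : Prop where
  etale : ∀ b u, ‖u‖ ≤ 9 / 8 → ∀ᶠ w in 𝓝 ((0, u) : C2), Etale (N b) w
  zero : ∀ b u, ‖u‖ ≤ 9 / 8 → N b (0, u) = C.g b u
  trans : ∀ b u, 8 / 9 ≤ ‖u‖ → ‖u‖ ≤ 9 / 8 → ∀ᶠ w in 𝓝 ((0, u) : C2), N (!b) (sw w) = N b w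

theorem exists_nc {C : RC X} {δ δ' : ℝ} {τ : Bool → C2 → X} {T G : Bool → C2 → C2} (h0 : 0 < δ')
    (h1 : δ' ≤ δ) (hT : Tubes C δ τ T) (hG : NF δ' T G) : ∃ N, NC C N := by
  have h0' : 0 < δ := h0.trans_le h1
  let f : Bool → C2 → C2 := fun b v => ph b v.1 (G b v)
  have hGd : ∀ b u, ‖u‖ < 5 / 4 → ∀ᶠ v in 𝓝 ((0, u) : C2), DifferentiableAt ℂ (G b) v :=
    fun b u hu => (hG.hol b).eventually_differentiableAt (box_mem h0 hu)
  have hcs : ∀ b u, ‖u‖ < 5 / 4 → ∀ᶠ v in 𝓝 ((0, u) : C2), cs b (G b v) ≠ 0 := fun b u hu =>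
    ((diff_cs b _).comp _ (hGd b u hu).self_of_nhds).continuousAt.eventually_ne (by
      simp [hG.zero b u hu, cs_dir])
  have hfd : ∀ b u, ‖u‖ < 5 / 4 → ∀ᶠ v in 𝓝 ((0, u) : C2), DifferentiableAt ℂ (f b) v := by
    intro b u hu
    filter_upwards [hGd b u hu, hcs b u hu] with v a1 a2
    have c1 : DifferentiableAt ℂ (fun z => cs b (G b z)) v := (diff_cs b _).comp v a1
    have c2 : DifferentiableAt ℂ (fun z => ct b (G b z)) v := (diff_ct b _).comp v a1
    exact (differentiableAt_fst.mul (c1.pow 2)).prodMk (c2.mul (c1.inv a2))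
  have hf0 : ∀ b u, ‖u‖ < 5 / 4 → f b (0, u) = (0, u) := fun b u hu => by
    simp only [f, hG.zero b u hu]
    exact ph_dir b (0, u)
  have hfi : ∀ b u, ‖u‖ < 5 / 4 → Function.Injective (fderiv ℂ (f b) (0, u)) := fun b u hu =>
    inj_tri (a := fun v => cs b (G b v) ^ 2) (hfd b u hu).self_of_nhds
      (((diff_cs b _).comp _ (hGd b u hu).self_of_nhds).pow 2)
      (by simp [hG.zero b u hu, cs_dir]) (fun _ => rfl)
      ((continuousAt_id.norm.eventually_lt continuousAt_const hu).mono (hf0 b))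
  have hS : IsCompact ((fun u : ℂ => ((0, u) : C2)) '' closedBall 0 (9 / 8)) :=
    (isCompact_closedBall _ _).image (by fun_prop)
  have hb : ∀ u ∈ closedBall (0 : ℂ) (9 / 8), ‖u‖ < 5 / 4 := fun u hu =>
    (mem_closedBall_zero_iff.1 hu).trans_lt (by norm_num)
  choose Φ hΦ using fun b => exists_inv (f := f b) hS
    (forall_mem_image.2 fun u hu => hf0 b u (hb u hu))
    (forall_mem_image.2 fun u hu => hfd b u (hb u hu))
    (forall_mem_image.2 fun u hu => hfi b u (hb u hu))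
  have hΦ' := fun b (u : ℂ) (hu : ‖u‖ ≤ 9 / 8) =>
    hΦ b (0, u) ⟨u, mem_closedBall_zero_iff.2 hu, rfl⟩
  have key : ∀ u : ℂ, 8 / 9 ≤ ‖u‖ → ‖u‖ ≤ 9 / 8 → ∀ᶠ w in 𝓝 ((0, u) : C2),
      τ false (Φ false (sw w)) = τ true (Φ true w) := by
    intro u u1 u2
    have a9 : Ann δ 9 ∈ 𝓝 ((0, u) : C2) := ann_mem h0' (by linarith) (by linarith)
    have a5 : Ann δ' (5 / 4) ∈ 𝓝 ((0, u) : C2) := ann_mem h0 (by linarith) (by linarith)
    have t1 : Tendsto (T true) (𝓝 (0, u)) (𝓝 (0, u⁻¹)) := by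
      have := ((hT.td.hol true).differentiableAt a9).continuousAt.tendsto
      rwa [hT.td.zero true u (by linarith) (by linarith)] at this
    obtain ⟨-, t2, t3⟩ := hΦ' true u u2
    filter_upwards [t3, t2.eventually a9, t2.eventually a5,
      t2.eventually (t1.eventually (hΦ' false _ (inv_bd u1 u2).2.2).1),
      t2.eventually (hcs true u (by linarith))] with w b1 b2 b3 b4 b5
    obtain ⟨β, c1, c2, c3⟩ := hG.trans _ b3
    have c4 : f false (T true (Φ true w)) = sw w := by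
      simp only [f]
      rw [c2, ph_smul _ _ c1, ← c3]
      exact (ph_not _ b5).trans (congrArg sw b1.1)
    rw [← c4, b4]
    exact hT.trans true _ b2
  refine ⟨fun b w => τ b (Φ b w), fun b u hu => ?_, fun b u hu => ?_, fun b u u1 u2 => ?_⟩
  · obtain ⟨-, t2, t3⟩ := hΦ' b u hu
    filter_upwards [t3, t2.eventually (box_mem (R := 10) h0' (by linarith))] with w a1 a2
    exact Inv.etale_comp (hT.etale b _ a2) a1.2.1 a1.2.2
  · have := (hΦ' b u hu).1.self_of_nhds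
    rw [hf0 b u (by linarith)] at this
    simp only [this]
    exact hT.zero b u (by linarith)
  · cases b
    · obtain ⟨c0, c1, c2⟩ := inv_bd u1 u2
      filter_upwards [(tendsto_sw c0).eventually (key _ c1 c2), ev_ne (w := (0, u)) c0] with
        w a1 a2
      rw [sw_sw a2] at a1
      exact a1.symm
    · exact key u u1 u2

theorem g_eq (C : RC X) {b : Bool} {u u' : ℂ} (h : C.g b u = C.g (!b) u') :
    u ≠ 0 ∧ u' = u⁻¹ := by
  have h0 : u ≠ 0 := by
    rintro rfl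
    cases b
    · exact C.ne u' h.symm
    · by_cases h' : u' = 0
      · exact C.ne 0 (h' ▸ h)
      · exact inv_ne_zero h' (C.inj true ((C.glue false u' h').trans h.symm))
  exact ⟨h0, C.inj _ (h.symm.trans (C.glue b u h0).symm)⟩

variable [IsManifold 𝓘(ℂ, C2) ω X] [T2Space X] {C : RC X} {N : Bool → C2 → X}

/-- two points with the same image -/
def Rel (b b' : Bool) (w w' : C2) : Prop :=
  (b' = b ∧ w' = w) ∨ (b' = !b ∧ w.2 ≠ 0 ∧ w' = sw w)

theorem NC.inj_loc (H : NC C N) (b b' : Bool) {u u' : ℂ} (hu : ‖u‖ ≤ 1) (hu' : ‖u'‖ ≤ 1) :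
    ∀ᶠ z : C2 × C2 in 𝓝 ((0, u), (0, u')), N b z.1 = N b' z.2 → Rel b b' z.1 z.2 := by
  have k : ‖u‖ ≤ 9 / 8 := by linarith
  have k' : ‖u'‖ ≤ 9 / 8 := by linarith
  have t1 : Tendsto (Prod.fst : C2 × C2 → C2) (𝓝 ((0, u), (0, u'))) (𝓝 (0, u)) :=
    continuous_fst.tendsto _
  have t2 : Tendsto (Prod.snd : C2 × C2 → C2) (𝓝 ((0, u), (0, u'))) (𝓝 (0, u')) :=
    continuous_snd.tendsto _
  obtain ⟨U, hU, hi⟩ := etale_injOn (H.etale b' u' k')
  by_cases e : C.g b u = C.g b' u'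
  · by_cases hb : b' = b
    · subst hb
      obtain rfl := C.inj _ e
      filter_upwards [t1.eventually hU, t2.eventually hU] with z a1 a2 a3
      exact Or.inl ⟨rfl, hi a2 a1 a3.symm⟩
    · obtain rfl : b' = !b := Bool.eq_not.2 hb
      obtain ⟨c0, rfl⟩ := g_eq C e
      have c1 : 8 / 9 ≤ ‖u‖ := by
        rw [norm_inv, inv_le_one₀ (norm_pos_iff.2 c0)] at hu'
        linarith
      filter_upwards [t1.eventually ((tendsto_sw c0).eventually hU), t2.eventually hU,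
        t1.eventually (H.trans b u c1 k), t1.eventually (ev_ne (w := (0, u)) c0)] with
        z a1 a2 a3 a4 a5
      exact Or.inr ⟨rfl, a4, hi a2 a1 (a5.symm.trans a3.symm)⟩
  · rw [← H.zero b u k, ← H.zero b' u' k'] at e
    obtain ⟨A, B, hA, hB, a, a', hAB⟩ := t2_separation e
    filter_upwards [t1.eventually ((H.etale b u k).self_of_nhds.1.eventually (hA.mem_nhds a)),
      t2.eventually ((H.etale b' u' k').self_of_nhds.1.eventually (hB.mem_nhds a'))] with
      z a1 a2 a3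
    exact absurd (a3 ▸ a1) (disjoint_right.1 hAB a2)

theorem NC.inj (H : NC C N) (b b' : Bool) : ∀ᶠ e in 𝓝[>] (0 : ℝ), ∀ w w' : C2, ‖w.1‖ < e →
    ‖w'.1‖ < e → ‖w.2‖ ≤ 1 → ‖w'.2‖ ≤ 1 → N b w = N b' w' → Rel b b' w w' := by
  have h1 := ((isCompact_closedBall (0 : ℂ) 1).prod
    (isCompact_closedBall (0 : ℂ) 1)).eventually_forall_of_forall_eventually (x₀ := (0 : C2))
    (P := fun x y => N b (x.1, y.1) = N b' (x.2, y.2) → Rel b b' (x.1, y.1) (x.2, y.2))
    (fun y hy => by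
      have c : Continuous fun z : C2 × C2 => (((z.1.1, z.2.1), (z.1.2, z.2.2)) : C2 × C2) := by
        fun_prop
      exact (c.tendsto (0, y)).eventually (H.inj_loc b b' (mem_closedBall_zero_iff.1 hy.1)
        (mem_closedBall_zero_iff.1 hy.2)))
  obtain ⟨r, hr, h2⟩ := Metric.eventually_nhds_iff.1 h1
  filter_upwards [Ioo_mem_nhdsGT hr] with e he w w' a1 a2 a3 a4
  refine h2 (y := (w.1, w'.1)) ?_ (w.2, w'.2)
    ⟨mem_closedBall_zero_iff.2 a3, mem_closedBall_zero_iff.2 a4⟩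
  rw [dist_zero_right, Prod.norm_def]
  exact (max_lt a1 a2).trans he.2

/-- the chart in which the direction `d` has a coordinate of norm at most one -/
def side (d : C2) : Bool := decide (‖d.2‖ ≤ ‖d.1‖)

theorem side_smul {t : ℂ} (ht : t ≠ 0) (d : C2) : side (t • d) = side d := by
  simp [side, norm_pos_iff.2 ht]

theorem norm_cs (d : C2) : ‖cs (side d) d‖ = ‖d‖ := by
  rw [Prod.norm_def]
  by_cases h : ‖d.2‖ ≤ ‖d.1‖
  · simp [side, cs, h]
  · simp [side, cs, h, (not_le.1 h).le]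

theorem norm_ct (b : Bool) (d : C2) : ‖ct b d‖ ≤ ‖d‖ := by
  cases b
  · exact norm_fst_le d
  · exact norm_snd_le d

theorem sd_ph {ε : ℝ} {h : ℂ} {d : C2} (H : SD ε h d) : cs (side d) d ≠ 0 ∧
    ‖(ph (side d) h d).1‖ < ε ∧ ‖(ph (side d) h d).2‖ ≤ 1 := by
  refine ⟨by rw [← norm_ne_zero_iff, norm_cs, norm_ne_zero_iff]; exact H.1, ?_, ?_⟩
  · simp only [ph, norm_mul, norm_pow, norm_cs]
    exact H.2
  · simp only [ph, norm_div, norm_cs]
    exact div_le_one_of_le₀ (norm_ct _ d) (norm_nonneg _)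

theorem side_dir (b : Bool) (u : ℂ) :
    (side (dir b u) = b ∧ ‖u‖ ≤ 1) ∨ (side (dir b u) = !b ∧ 1 ≤ ‖u‖) := by
  cases b
  · by_cases h : 1 ≤ ‖u‖
    · exact Or.inr ⟨by simp [side, dir, h], h⟩
    · exact Or.inl ⟨by simp [side, dir, not_le.1 h], (not_le.1 h).le⟩
  · by_cases h : ‖u‖ ≤ 1
    · exact Or.inl ⟨by simp [side, dir, h], h⟩
    · exact Or.inr ⟨by simp [side, dir, not_le.1 h], (not_le.1 h).le⟩

theorem norm_dir (b : Bool) (u : ℂ) : ‖dir b u‖ = max 1 ‖u‖ := by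
  cases b <;> simp [dir, Prod.norm_def, max_comm]

theorem NC.std (H : NC C N) : ∃ ε > (0 : ℝ), ∃ ν, IsStd C ε ν := by
  have K1 : IsCompact (closedBall (0 : ℂ) (9 / 8)) := isCompact_closedBall _ _
  have K2 : IsCompact (closedBall (0 : ℂ) (9 / 8) ∩ {u | 1 ≤ ‖u‖}) :=
    K1.inter_right (isClosed_le continuous_const continuous_norm)
  have h1 := eventually_all.2 fun b => tube K1 fun u hu =>
    H.etale b u (mem_closedBall_zero_iff.1 hu)
  have h2 := eventually_all.2 fun b => tube K2 fun u hu =>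
    H.trans b u (le_trans (by norm_num) hu.2) (mem_closedBall_zero_iff.1 hu.1)
  have h3 := eventually_all.2 fun b => eventually_all.2 fun b' => H.inj b b'
  obtain ⟨ε, ⟨e1, e2, e3⟩, e0⟩ := ((h1.and (h2.and h3)).and self_mem_nhdsWithin).exists
  refine ⟨ε, e0, fun h d => N (side d) (ph (side d) h d), fun h t d ht => ?_, fun b v hv => ?_,
    fun h d h' d' hd hd' e => ?_, fun b u => ?_⟩
  · simp only [side_smul ht, ph_smul _ _ ht]
  · have a0 := hv.2
    rw [norm_dir] at a0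
    rcases le_or_gt ‖v.2‖ 1 with hu | hu
    · rw [max_eq_left hu, one_pow, mul_one] at a0
      refine etale_congr (e1 b v a0 (mem_closedBall_zero_iff.2 (by linarith))) ?_
      filter_upwards [continuousAt_fst.norm.eventually_lt continuousAt_const a0,
        continuousAt_snd.norm.eventually_lt (continuousAt_const (y := (9 / 8 : ℝ)))
          (by linarith)] with w a1 a2
      rcases side_dir b w.2 with ⟨c1, -⟩ | ⟨c1, c2⟩
      · rw [c1, ph_dir]
      · rw [c1, ph_dir']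
        exact e2 b w a1 ⟨mem_closedBall_zero_iff.2 a2.le, c2⟩
    · have a1 : v.2 ≠ 0 := norm_pos_iff.1 (by linarith)
      rw [max_eq_right hu.le] at a0
      refine etale_congr (Inv.etale_comp (e1 (!b) (sw v) (by simpa [sw] using a0)
        (mem_closedBall_zero_iff.2 ?_)) (diff_sw a1) (inj_sw a1)) ?_
      · have : ‖v.2⁻¹‖ ≤ 1 := by
          rw [norm_inv]
          exact inv_le_one_of_one_le₀ hu.le
        exact this.trans (by norm_num)
      · filter_upwards [continuousAt_const.eventually_lt continuousAt_snd.norm hu] with w a2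
        rcases side_dir b w.2 with ⟨-, c1⟩ | ⟨c1, -⟩
        · exact absurd c1 (not_le.2 a2)
        · rw [c1, ph_dir']
  · obtain ⟨a1, a2, a3⟩ := sd_ph hd
    obtain ⟨b1, b2, b3⟩ := sd_ph hd'
    rcases e3 _ _ _ _ a2 b2 a3 b3 e with ⟨c1, c2⟩ | ⟨c1, c2, c3⟩
    · rw [c1] at b1 c2
      exact ph_inj a1 b1 c2.symm
    · rw [c1] at b1 c3
      rw [← ph_not h a1] at c3
      refine ph_inj ?_ b1 c3.symm
      have : ct (side d) d ≠ 0 := (div_ne_zero_iff.1 c2).1
      revert this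
      cases side d <;> exact id
  · rcases side_dir b u with ⟨c1, c2⟩ | ⟨c1, c2⟩
    · rw [c1, ph_dir b (0, u)]
      exact H.zero b u (by linarith)
    · have a1 : u ≠ 0 := norm_pos_iff.1 (by linarith)
      have a2 : ‖u⁻¹‖ ≤ 1 := by
        rw [norm_inv]
        exact inv_le_one_of_one_le₀ c2
      rw [c1, ph_dir' b (0, u), show sw (0, u) = (0, u⁻¹) by simp [sw],
        H.zero _ _ (by linarith)]
      exact C.glue b u a1

end STD

/-- STD -/
theorem std : StStd := by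
  intro X _ _ _ _ C δ δ' τ T G h0 h1 hT hG
  obtain ⟨N, H⟩ := STD.exists_nc h0 h1 hT hG
  exact H.std

end Vale.Agent.P290Z.Nk
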