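import Vale.Agent.P290Z.Nk.Defs
import Vale.Agent.P290Z.Nk.Std

/-! P290Z Nk: basic facts on standard neighbourhoods, Jacobians and surfaces with a two-form. -/

set_option linter.unusedVariables false
set_option linter.unusedSectionVars false

open scoped Manifold ContDiff ComplexConjugate Topology
open Set Filter Metric

noncomputable section

namespace Vale.Agent.P290Z.Nk

open Vale.Agent.P290 Vale.Agent.P267
open Vale.Agent.P290.All (Etale dir Hol)

section std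

variable {X : Type} [TopologicalSpace X] [ChartedSpace C2 X] [IsManifold 𝓘(ℂ, C2) ω X]
  {C : RC X} {ε : ℝ} {ν : ℂ → C2 → X}

theorem etale_ev_diff {f : C2 → X} {v : C2} (hf : ∀ᶠ z in 𝓝 v, Etale f z) :
    ∀ᶠ z in 𝓝 v, DifferentiableAt ℂ (fun w => chartAt C2 (f v) (f w)) z := by
  filter_upwards [hf, hf.self_of_nhds.1.eventually (chart_source_mem_nhds C2 _)] with z a1 a2
  exact Inv.md_chart (Inv.etale_md a1) a2

theorem etale_strict {f : C2 → X} {v : C2} (hf : ∀ᶠ z in 𝓝 v, Etale f z) :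
    ∃ L : C2 ≃L[ℂ] C2, HasStrictFDerivAt (fun w => chartAt C2 (f v) (f w)) (L : C2 →L[ℂ] C2) v :=
  ⟨(LinearEquiv.ofInjectiveEndo (fderiv ℂ (fun w => chartAt C2 (f v) (f w)) v : C2 →ₗ[ℂ] C2)
    (Inv.det_ne_iff.1 hf.self_of_nhds.2.2)).toContinuousLinearEquiv,
    ((contDiffAt_of_eventually (etale_ev_diff hf) 1).hasStrictFDerivAt one_ne_zero).congr_fderiv
      (by ext <;> rfl)⟩

theorem etale_map_nhds {f : C2 → X} {v : C2} (hf : ∀ᶠ z in 𝓝 v, Etale f z) :
    map f (𝓝 v) = 𝓝 (f v) := by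
  obtain ⟨L, hL⟩ := etale_strict hf
  have h1 : f =ᶠ[𝓝 v] (chartAt C2 (f v)).symm ∘ fun w => chartAt C2 (f v) (f w) := by
    filter_upwards [hf.self_of_nhds.1.eventually (chart_source_mem_nhds C2 _)] with z hz
    exact ((chartAt C2 (f v)).left_inv hz).symm
  rw [map_congr h1, ← map_map, hL.map_nhds_eq_of_equiv,
    (chartAt C2 (f v)).symm_map_nhds_eq (mem_chart_source C2 _)]

/-- an injective local biholomorphism is the inverse of a holomorphic chart -/
theorem exists_inv {f : C2 → X} {U : Set C2} (hU : IsOpen U) (hf : ∀ v ∈ U, Etale f v)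
    (hi : InjOn f U) : ∃ e : OpenPartialHomeomorph X C2, e.target = U ∧ e.source = f '' U ∧
      (∀ v, e.symm v = f v) ∧ ∀ x ∈ e.source,
        DifferentiableAt ℂ (fun z => e ((chartAt C2 x).symm z)) (chartAt C2 x x) := by
  have he : ∀ v ∈ U, ∀ᶠ z in 𝓝 v, Etale f z := fun v hv => mem_of_superset (hU.mem_nhds hv) hf
  let e := OpenPartialHomeomorph.ofContinuousOpenRestrict (hi.toPartialEquiv f U)
    (fun v hv => (hf v hv).1.continuousWithinAt)
    (IsOpenMap.of_nhds_le fun v => by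
      change 𝓝 (f v) ≤ map (f ∘ Subtype.val) (𝓝 v)
      rw [← map_map, map_nhds_subtype_val]
      exact ((congrArg (map f) (hU.nhdsWithin_eq v.2)).trans (etale_map_nhds (he v v.2))).ge) hU
  refine ⟨e.symm, rfl, rfl, fun _ => rfl, ?_⟩
  rintro _ ⟨v, hv, rfl⟩
  obtain ⟨L, hL⟩ := etale_strict (he v hv)
  refine (hL.to_local_left_inverse ?_).hasFDerivAt.differentiableAt
  filter_upwards [hU.mem_nhds hv, (hf v hv).1.eventually (chart_source_mem_nhds C2 _)]
    with z a1 a2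
  rw [(chartAt C2 (f v)).left_inv a2]
  exact e.left_inv a1

theorem RC.cont (C : RC X) (b : Bool) : Continuous (C.g b) :=
  continuous_iff_continuousAt.2 fun u => MDifferentiableAt.continuousAt (C.hol b u)

theorem RC.isCompact_supp (C : RC X) : IsCompact C.supp := by
  have h : C.supp = ⋃ b, C.g b '' closedBall 0 1 := by
    refine Subset.antisymm ?_ (iUnion_subset fun b => by rintro _ ⟨u, -, rfl⟩; exact ⟨b, u, rfl⟩)
    rintro _ ⟨b, u, rfl⟩
    rcases le_total ‖u‖ 1 with h | h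
    · exact mem_iUnion.2 ⟨b, u, mem_closedBall_zero_iff.2 h, rfl⟩
    · refine mem_iUnion.2 ⟨!b, u⁻¹, mem_closedBall_zero_iff.2 ?_, C.glue b u ?_⟩
      · rw [norm_inv]
        exact inv_le_one_of_one_le₀ h
      · exact norm_pos_iff.1 (one_pos.trans_le h)
  rw [h]
  exact isCompact_iUnion fun b => (isCompact_closedBall 0 1).image (C.cont b)

theorem isOpen_SD (ε : ℝ) : IsOpen {v : ℂ × C2 | SD ε v.1 v.2} :=
  (isOpen_ne.preimage continuous_snd).inter
    (isOpen_lt (continuous_fst.norm.mul (continuous_snd.norm.pow 2)) continuous_const)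

theorem SD.mono {k : ℂ} {d : C2} (h : SD ε k d) {ε' : ℝ} (hle : ε ≤ ε') : SD ε' k d :=
  ⟨h.1, h.2.trans_le hle⟩

theorem SD.pos {k : ℂ} {d : C2} (h : SD ε k d) : 0 < ε := lt_of_le_of_lt (by positivity) h.2

theorem IsStd.mono (h : IsStd C ε ν) {ε' : ℝ} (hle : ε' ≤ ε) : IsStd C ε' ν :=
  ⟨h.hom, fun b v hv => h.etale b v (hv.mono hle),
    fun k d k' d' a a' => h.inj k d k' d' (a.mono hle) (a'.mono hle), h.zero⟩

theorem SD.scale {c : ℝ} (hc : 0 < c) {k : ℂ} {d : C2} (h : SD (ε / c) k d) : SD ε (c * k) d :=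
  ⟨h.1, by
    rw [norm_mul, Complex.norm_real, Real.norm_of_nonneg hc.le, mul_assoc]
    exact (lt_div_iff₀' hc).1 h.2⟩

theorem IsStd.scale (h : IsStd C ε ν) {c : ℝ} (hc : 0 < c) :
    IsStd C (ε / c) fun k d => ν (c * k) d := by
  have hc' : (c : ℂ) ≠ 0 := Complex.ofReal_ne_zero.2 hc.ne'
  refine ⟨fun k t d ht => by rw [← mul_assoc, h.hom _ _ _ ht], fun b v hv => ?_,
    fun k d k' d' a a' e => ?_, fun b u => by rw [mul_zero, h.zero]⟩
  · refine Inv.etale_comp (f := fun w : C2 => ν w.1 (dir b w.2))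
      (q := fun w : C2 => ((c * w.1, w.2) : C2)) (h.etale b _ (hv.scale hc)) (by fun_prop) ?_
    exact STD.inj_of_left (g := fun w : C2 => (((c : ℂ)⁻¹ * w.1, w.2) : C2)) (by fun_prop)
      (by fun_prop) (Eventually.of_forall fun w => by simp [hc'])
  · obtain ⟨t, h1, h2, h3⟩ := h.inj _ _ _ _ (a.scale hc) (a'.scale hc) e
    exact ⟨t, h1, h2, mul_left_cancel₀ hc' (h3.trans (mul_assoc _ _ _))⟩

theorem smul_dir {b : Bool} (k : ℂ) {d : C2} (h : STD.cs b d ≠ 0) :
    STD.cs b d • dir b (STD.ph b k d).2 = d := by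
  cases b
  · have h' : d.2 ≠ 0 := h
    exact Prod.ext (mul_div_cancel₀ _ h') (mul_one _)
  · have h' : d.1 ≠ 0 := h
    exact Prod.ext (mul_one _) (mul_div_cancel₀ _ h')

theorem dir_ne (b : Bool) (u : ℂ) : dir b u ≠ 0 := by
  cases b <;> simp [dir]

theorem continuous_dir (b : Bool) : Continuous (dir b) := by
  cases b
  · exact continuous_id.prodMk continuous_const
  · exact continuous_const.prodMk continuous_id

theorem norm_ph {b : Bool} (k : ℂ) {d : C2} (h : STD.cs b d ≠ 0) :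
    ‖(STD.ph b k d).1‖ * ‖dir b (STD.ph b k d).2‖ ^ 2 = ‖k‖ * ‖d‖ ^ 2 := by
  conv_rhs => rw [← smul_dir k h, norm_smul, mul_pow, ← mul_assoc, ← norm_pow, ← norm_mul]
  rfl

theorem SD.ph {b : Bool} {k : ℂ} {d : C2} (hv : SD ε k d) (h : STD.cs b d ≠ 0) :
    SD ε (STD.ph b k d).1 (dir b (STD.ph b k d).2) :=
  ⟨dir_ne _ _, (norm_ph k h).trans_lt hv.2⟩

/-- the standard neighbourhood in an affine chart -/
theorem IsStd.eq_ph (h : IsStd C ε ν) {b : Bool} (k : ℂ) {d : C2} (hd : STD.cs b d ≠ 0) :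
    ν k d = ν (STD.ph b k d).1 (dir b (STD.ph b k d).2) :=
  ((h.hom k _ _ hd).trans (congrArg (ν k) (smul_dir k hd))).symm

theorem diff_ph {b : Bool} {v : ℂ × C2} (hd : STD.cs b v.2 ≠ 0) :
    DifferentiableAt ℂ (fun v : ℂ × C2 => STD.ph b v.1 v.2) v := by
  have h1 : DifferentiableAt ℂ (fun v : ℂ × C2 => STD.cs b v.2) v :=
    (STD.diff_cs b _).comp v differentiableAt_snd
  have h2 : DifferentiableAt ℂ (fun v : ℂ × C2 => STD.ct b v.2) v :=
    (STD.diff_ct b _).comp v differentiableAt_snd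
  simp only [STD.ph, div_eq_mul_inv]
  exact (differentiableAt_fst.mul (h1.pow 2)).prodMk (h2.mul (h1.inv hd))

theorem IsStd.md (h : IsStd C ε ν) {k : ℂ} {d : C2} (hv : SD ε k d) :
    MDifferentiableAt 𝓘(ℂ, ℂ × C2) 𝓘(ℂ, C2) (fun v : ℂ × C2 => ν v.1 v.2) (k, d) := by
  have hd := (STD.sd_ph hv).1
  refine (Inv.md_comp (q := fun v : ℂ × C2 => STD.ph (STD.side d) v.1 v.2) (w := (k, d))
    (Inv.etale_md (h.etale (STD.side d) _ (hv.ph hd))) (diff_ph hd)).congr_of_eventuallyEq ?_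
  filter_upwards [((STD.diff_cs (STD.side d)).continuous.comp
    continuous_snd).continuousAt.eventually_ne (x := ((k, d) : ℂ × C2)) hd] with v a
  exact h.eq_ph _ a

theorem IsStd.cont (h : IsStd C ε ν) {k : ℂ} {d : C2} (hv : SD ε k d) :
    ContinuousAt (fun v : ℂ × C2 => ν v.1 v.2) (k, d) := (h.md hv).continuousAt

theorem IsStd.diff (h : IsStd C ε ν) {k : ℂ} {d : C2} (hv : SD ε k d) :
    DifferentiableAt ℂ (fun v : ℂ × C2 => chartAt C2 (ν k d) (ν v.1 v.2)) (k, d) :=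
  (Inv.md_iff.1 (h.md hv)).2

theorem IsStd.zero_mem (h : IsStd C ε ν) {d : C2} (hd : d ≠ 0) : ν 0 d ∈ C.supp := by
  have hv : SD 1 0 d := ⟨hd, by simp⟩
  refine ⟨STD.side d, (STD.ph (STD.side d) 0 d).2,
    ((h.eq_ph 0 (STD.sd_ph hv).1).trans ?_).symm⟩
  rw [show (STD.ph (STD.side d) 0 d).1 = 0 from zero_mul _, h.zero]

theorem IsStd.mem_supp (h : IsStd C ε ν) {k : ℂ} {d : C2} (hv : SD ε k d) :
    ν k d ∈ C.supp ↔ k = 0 := by
  refine ⟨fun ⟨b, u, e⟩ => ?_, fun e => e ▸ h.zero_mem hv.1⟩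
  obtain ⟨t, -, -, h1⟩ := h.inj k d 0 (dir b u) hv ⟨dir_ne b u, by simpa using hv.pos⟩
    (e.symm.trans (h.zero b u).symm)
  rw [h1, zero_mul]

theorem inj_ph {b : Bool} {d : C2} (hd : STD.cs b d ≠ 0) :
    Function.Injective (fderiv ℂ (STD.ph b 1) d) := by
  have f1 : HasFDerivAt (Prod.fst : C2 → ℂ) (ContinuousLinearMap.fst ℂ ℂ ℂ) d := hasFDerivAt_fst
  have f2 : HasFDerivAt (Prod.snd : C2 → ℂ) (ContinuousLinearMap.snd ℂ ℂ ℂ) d := hasFDerivAt_snd
  refine (injective_iff_map_eq_zero _).2 ?_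
  rintro ⟨ξ, η⟩ e
  cases b
  · have h' : d.2 ≠ 0 := hd
    have h1 : HasFDerivAt (STD.ph false 1) _ d :=
      ((f2.pow 2).prodMk (f1.mul
        ((hasDerivAt_inv h').comp_hasFDerivAt d f2))).congr_of_eventuallyEq
        (Eventually.of_forall fun y => by simp [STD.ph, STD.cs, STD.ct, div_eq_mul_inv])
    rw [h1.fderiv] at e
    have e1 : η = 0 := by simpa [h'] using congrArg Prod.fst e
    have e2 : ξ = 0 := by simpa [h', e1] using congrArg Prod.snd e
    rw [e1, e2, Prod.mk_zero_zero]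
  · have h' : d.1 ≠ 0 := hd
    have h1 : HasFDerivAt (STD.ph true 1) _ d :=
      ((f1.pow 2).prodMk (f2.mul
        ((hasDerivAt_inv h').comp_hasFDerivAt d f1))).congr_of_eventuallyEq
        (Eventually.of_forall fun y => by simp [STD.ph, STD.cs, STD.ct, div_eq_mul_inv])
    rw [h1.fderiv] at e
    have e1 : ξ = 0 := by simpa [h'] using congrArg Prod.fst e
    have e2 : η = 0 := by simpa [h', e1] using congrArg Prod.snd e
    rw [e1, e2, Prod.mk_zero_zero]

theorem IsStd.etale_one (h : IsStd C ε ν) {d : C2} (hv : SD ε 1 d) : Etale (ν 1) d := by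
  have hd := (STD.sd_ph hv).1
  refine STD.etale_congr (Inv.etale_comp (f := fun w : C2 => ν w.1 (dir (STD.side d) w.2))
    (q := STD.ph (STD.side d) 1) (h.etale _ _ (hv.ph hd)) ?_ (inj_ph hd))
    (((STD.diff_cs _).continuous.continuousAt.eventually_ne hd).mono fun z a => h.eq_ph 1 a)
  exact (diff_ph (v := (1, d)) hd).comp d (f := fun z : C2 => ((1 : ℂ), z)) (by fun_prop)

theorem IsStd.isOpen_image (h : IsStd C ε ν) {ε' : ℝ} (hle : ε' ≤ ε) :
    IsOpen {x | ∃ k d, SD ε' k d ∧ ν k d = x} := by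
  refine isOpen_iff_mem_nhds.2 ?_
  rintro _ ⟨k, d, hv, rfl⟩
  have hd := (STD.sd_ph hv).1
  have h1 : ∀ᶠ w : C2 in 𝓝 (STD.ph (STD.side d) k d), SD ε' w.1 (dir (STD.side d) w.2) :=
    ((isOpen_SD ε').preimage (continuous_fst.prodMk
      ((continuous_dir _).comp continuous_snd))).mem_nhds (hv.ph hd)
  rw [h.eq_ph k hd, ← etale_map_nhds (h1.mono fun w a => h.etale _ w (a.mono hle))]
  exact h1.mono fun w a => ⟨_, _, a, rfl⟩

theorem IsStd.small (h : IsStd C ε ν) (hε : 0 < ε) {O : Set X} (hO : IsOpen O) (hC : C.supp ⊆ O) :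
    ∃ ε' > (0 : ℝ), ∀ k d, SD ε' k d → ν k d ∈ O := by
  have h1 : ∀ b, ∀ᶠ e in 𝓝[>] (0 : ℝ), ∀ w : C2, ‖w.1‖ < e → w.2 ∈ closedBall (0 : ℂ) 1 →
      ν w.1 (dir b w.2) ∈ O := fun b => STD.tube (isCompact_closedBall 0 1) fun u _ =>
    (h.etale b (0, u) ⟨dir_ne b u, by simpa using hε⟩).1.eventually
      (hO.mem_nhds (hC (h.zero_mem (dir_ne b u))))
  obtain ⟨e, h2, h3⟩ := ((eventually_all.2 h1).and self_mem_nhdsWithin).exists
  refine ⟨e, h3, fun k d hv => ?_⟩
  obtain ⟨a1, a2, a3⟩ := STD.sd_ph hv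
  rw [h.eq_ph k a1]
  exact h2 _ _ a2 (mem_closedBall_zero_iff.2 a3)

theorem IsStd.isCompact_image (h : IsStd C ε ν) {ε' : ℝ} (hlt : ε' < ε) :
    IsCompact {x | ∃ k d, d ≠ 0 ∧ ‖k‖ * ‖d‖ ^ 2 ≤ ε' ∧ ν k d = x} := by
  have h0 : ∀ b, ∀ w ∈ closedBall (0 : ℂ) ε' ×ˢ closedBall (0 : ℂ) 1,
      ‖w.1‖ * ‖dir b w.2‖ ^ 2 ≤ ε' := fun b w hw => by
    rw [STD.norm_dir, max_eq_left (mem_closedBall_zero_iff.1 hw.2), one_pow, mul_one]
    exact mem_closedBall_zero_iff.1 hw.1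
  have h1 : {x | ∃ k d, d ≠ 0 ∧ ‖k‖ * ‖d‖ ^ 2 ≤ ε' ∧ ν k d = x} =
      ⋃ b, (fun w : C2 => ν w.1 (dir b w.2)) '' (closedBall 0 ε' ×ˢ closedBall 0 1) := by
    refine Subset.antisymm ?_ (iUnion_subset fun b => by
      rintro _ ⟨w, hw, rfl⟩
      exact ⟨_, _, dir_ne _ _, h0 b w hw, rfl⟩)
    rintro _ ⟨k, d, a1, a2, rfl⟩
    obtain ⟨a3, -, a4⟩ := STD.sd_ph (show SD ε k d from ⟨a1, a2.trans_lt hlt⟩)
    refine mem_iUnion.2 ⟨_, _, ⟨mem_closedBall_zero_iff.2 ?_, mem_closedBall_zero_iff.2 a4⟩,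
      (h.eq_ph k a3).symm⟩
    simpa only [STD.ph, norm_mul, norm_pow, STD.norm_cs] using a2
  rw [h1]
  exact isCompact_iUnion fun b =>
    ((isCompact_closedBall _ _).prod (isCompact_closedBall _ _)).image_of_continuousOn
      fun w hw => (h.etale b w ⟨dir_ne _ _, (h0 b w hw).trans_lt hlt⟩).1.continuousWithinAt

end std

/-- a K3 surface is a surface with a two-form -/
def toVS (Y : W.K3) : VS where
  X := Y.X
  manifold := Y.manifold
  t2 := Y.t2
  compact := Y.compact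
  conn := Y.conn
  vol := Y.vol
  holo := Y.holo

/-- the coefficient of the pull back of the two-form -/
def jac (V : VS) (f : C2 → V.X) (v : C2) : ℂ :=
  V.Om (f v) * (fderiv ℂ (fun z => chartAt C2 (f v) (f z)) v).det

variable {V : VS}

theorem VS.Om_ne_zero (V : VS) (x : V.X) : V.Om x ≠ 0 :=
  (V.holo _ (chart_mem_atlas _ x)).2 _ (mem_chart_target _ x) |>.1

section FL

open Vale.Agent.P290.H445 (φ toFL φ_apply φ_symm_apply toFL_source toFL_target
  toFL_apply toFL_symm_apply)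

theorem VS.mem_atlas_toFL (V : VS) {e : OpenPartialHomeomorph V.X C2} (he : e ∈ atlas C2 V.X) :
    toFL e ∈ atlas FL.C2 V.X := mem_image_of_mem _ he

theorem VS.mem_atlas_iff (V : VS) {e' : FL.Ch V.X} :
    e' ∈ atlas FL.C2 V.X ↔ ∃ e ∈ atlas C2 V.X, toFL e = e' := Iff.rfl

@[simp] theorem VS.chartAt_FL (V : VS) (x : V.X) : chartAt FL.C2 x = toFL (chartAt C2 x) := rfl

theorem VS.jacM_det (V : VS) {e e' : OpenPartialHomeomorph V.X C2} (he : e ∈ atlas C2 V.X)
    (he' : e' ∈ atlas C2 V.X) {x : V.X} (hx : x ∈ e.source) (hx' : x ∈ e'.source) :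
    (FL.jacM (toFL e) (toFL e') x).det = (fderiv ℂ (fun z => e' (e.symm z)) (e x)).det := by
  have h0 := FL.trans_differentiableAt (V.mem_atlas_toFL he) (V.mem_atlas_toFL he') (x := x) hx hx'
  have h1 : (fun z => e' (e.symm z)) =
      φ.symm ∘ (fun z => toFL e' ((toFL e).symm z)) ∘ φ := by
    funext z
    simp
  have h2 : fderiv ℂ (fun z => e' (e.symm z)) (e x) =
      (φ.symm : FL.C2 →L[ℂ] ℂ × ℂ).comp
        ((fderiv ℂ (fun z => toFL e' ((toFL e).symm z)) (toFL e x)).comp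
          (φ : ℂ × ℂ →L[ℂ] FL.C2)) := by
    rw [h1]
    refine HasFDerivAt.fderiv ?_
    refine (φ.symm : FL.C2 →L[ℂ] ℂ × ℂ).hasFDerivAt.comp _ ?_
    exact HasFDerivAt.comp (e x) h0.hasFDerivAt (φ : ℂ × ℂ →L[ℂ] FL.C2).hasFDerivAt
  have h3 : (FL.jacM (toFL e) (toFL e') x).toLin' =
      (fderiv ℂ (fun z => toFL e' ((toFL e).symm z)) (toFL e x) : FL.C2 →ₗ[ℂ] FL.C2) := by
    ext1 v
    ext1
    rw [LinearMap.comp_apply, LinearMap.comp_apply, Matrix.toLin'_apply,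
      FL.jacM_mulVec (V.mem_atlas_toFL he) (V.mem_atlas_toFL he') hx hx']
    rfl
  rw [h2, ← LinearMap.det_toLin', h3, ContinuousLinearMap.det]
  symm
  exact LinearMap.det_conj _ φ.symm.toLinearEquiv

theorem VS.loc_Om (V : VS) {e : OpenPartialHomeomorph V.X C2} (he : e ∈ atlas C2 V.X) {z : FL.C2}
    (hz : z ∈ (toFL e).target) : FL.loc0 1 (toFL e) V.Om z = V.vol e (φ.symm z) := by
  have hz' : φ.symm z ∈ e.target := hz
  have h := ((V.holo e he).2 _ hz').2 (chartAt C2 (e.symm (φ.symm z))) (chart_mem_atlas _ _)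
    (mem_chart_source _ _)
  have h2 := V.jacM_det he (chart_mem_atlas _ (e.symm (φ.symm z))) (e.map_target hz')
    (mem_chart_source _ _)
  rw [e.right_inv hz'] at h2
  rw [FL.loc0, zpow_one, toFL_symm_apply, FL.jac, V.chartAt_FL, h2, h, smul_eq_mul, mul_comm]
  rfl

theorem VS.HolOn_Om (V : VS) : FL.HolOn 1 V.Om univ := by
  rintro _ ⟨e, he, rfl⟩
  have h := (V.holo e he).1.comp (φ.symm : FL.C2 →L[ℂ] ℂ × ℂ).differentiableOn
    (s := (toFL e).target) (fun z hz => hz)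
  rw [preimage_univ, inter_univ]
  exact h.congr fun z hz => V.loc_Om he hz

theorem VS.Reg0_Om (V : VS) : FL.Reg0 ∞ 1 V.Om := by
  intro e he
  have h := V.HolOn_Om e he
  rw [preimage_univ, inter_univ] at h
  exact (contDiffOn_infty.2
    (Vale.Agent.P268.contDiffOn_of_differentiableOn e.open_target h)).restrict_scalars ℝ

/-- `FL.HolOn 0` in terms of the charts in `ℂ × ℂ` -/
theorem VS.holOn_zero_iff (V : VS) {F : Type*} [NormedAddCommGroup F] [NormedSpace ℂ F]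
    {f : V.X → F} {U : Set V.X} : FL.HolOn 0 f U ↔ ∀ e ∈ atlas C2 V.X,
      DifferentiableOn ℂ (f ∘ e.symm) (e.target ∩ e.symm ⁻¹' U) := by
  constructor
  · intro h e he
    have h1 := h _ (V.mem_atlas_toFL he)
    rw [FL.LB.loc0_zero] at h1
    exact (h1.comp (φ : ℂ × ℂ →L[ℂ] FL.C2).differentiableOn
      (s := e.target ∩ e.symm ⁻¹' U) (fun z hz => hz))
  · rintro h _ ⟨e, he, rfl⟩
    rw [FL.LB.loc0_zero]
    exact ((h e he).comp (φ.symm : FL.C2 →L[ℂ] ℂ × ℂ).differentiableOn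
      (s := (toFL e).target ∩ (toFL e).symm ⁻¹' U) (fun z hz => hz))

theorem VS.const_of_hol (V : VS) {f : V.X → ℂ} (hf : FL.HolOn 0 f univ) (x y : V.X) :
    f x = f y := by
  have n1 : IsManifold 𝓘(ℂ, FL.C2) 1 V.X := IsManifold.of_le (n := ω) le_top
  have h1 : MDifferentiable 𝓘(ℂ, FL.C2) 𝓘(ℂ, ℂ) f := by
    intro x
    have h := hf (chartAt FL.C2 x) (chart_mem_atlas _ x)
    rw [preimage_univ, inter_univ] at h
    have h2 : DifferentiableAt ℂ (FL.loc0 0 (chartAt FL.C2 x) f) (chartAt FL.C2 x x) :=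
      h.differentiableAt ((chartAt FL.C2 x).open_target.mem_nhds (mem_chart_target _ x))
    rw [FL.LB.loc0_zero] at h2
    rw [mdifferentiableAt_iff]
    constructor
    · have h3 := h2.continuousAt
      have h4 : ContinuousAt ((f ∘ (chartAt FL.C2 x).symm) ∘ chartAt FL.C2 x) x :=
        ContinuousAt.comp (g := f ∘ (chartAt FL.C2 x).symm) h3
          ((chartAt FL.C2 x).continuousAt (mem_chart_source _ x))
      refine h4.congr ?_
      filter_upwards [(chartAt FL.C2 x).open_source.mem_nhds (mem_chart_source _ x)] with y hy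
      simp only [Function.comp_apply]
      rw [(chartAt FL.C2 x).left_inv hy]
    · exact h2.differentiableWithinAt
  obtain ⟨c, hc⟩ := h1.exists_eq_const_of_compactSpace
  exact (congrFun hc x).trans (congrFun hc y).symm

end FL

theorem jac_ne_zero {f : C2 → V.X} {v : C2} (hf : Etale f v) : jac V f v ≠ 0 :=
  mul_ne_zero (V.Om_ne_zero _) hf.2.2

theorem jac_eq {f : C2 → V.X} {v : C2} (hf : Etale f v) {x : V.X}
    (hx : f v ∈ (chartAt C2 x).source) : jac V f v = V.vol (chartAt C2 x) (chartAt C2 x (f v)) *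
      (fderiv ℂ (fun z => chartAt C2 x (f z)) v).det := by
  have hs := mem_chart_source C2 (f v)
  have ht := (chartAt C2 (f v)).map_source hs
  have hl := (chartAt C2 (f v)).left_inv hs
  have h0 := ((V.holo _ (chart_mem_atlas C2 (f v))).2 _ ht).2 _ (chart_mem_atlas C2 x)
    (by rw [hl]; exact hx)
  have h1 : DifferentiableAt ℂ (fun w => chartAt C2 x ((chartAt C2 (f v)).symm w))
      (chartAt C2 (f v) (f v)) :=
    (Inv.trans_contDiffAt ht (by rw [hl]; exact hx)).differentiableAt (by simp)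
  have h2 : (fun w => chartAt C2 x (f w)) =ᶠ[𝓝 v]
      (fun w => chartAt C2 x ((chartAt C2 (f v)).symm w)) ∘ fun w => chartAt C2 (f v) (f w) := by
    filter_upwards [hf.1.eventually (chart_source_mem_nhds C2 _)] with w hw
    simp only [Function.comp, (chartAt C2 (f v)).left_inv hw]
  rw [hl] at h0
  rw [h2.fderiv_eq, fderiv_comp v h1 hf.2.1, R2.H514.det_comp', ← mul_assoc, ← h0]
  rfl

theorem jac_comp {f : C2 → V.X} {φ : C2 → C2} {v : C2} (hf : Etale f (φ v))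
    (hφ : DifferentiableAt ℂ φ v) :
    jac V (fun z => f (φ z)) v = jac V f (φ v) * (fderiv ℂ φ v).det := by
  have h := fderiv_comp (g := fun w => chartAt C2 (f (φ v)) (f w)) (f := φ) v hf.2.1 hφ
  rw [jac, jac, mul_assoc, ← R2.H514.det_comp', ← h]
  rfl

theorem jac_diff {f : C2 → V.X} {v : C2} (hf : ∀ᶠ z in 𝓝 v, Etale f z) :
    DifferentiableAt ℂ (jac V f) v := by
  have hd := etale_ev_diff hf
  have h1 : DifferentiableAt ℂ (fderiv ℂ fun z => chartAt C2 (f v) (f z)) v :=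
    ((contDiffAt_of_eventually hd 2).fderiv_right (m := 1) (by norm_num)).differentiableAt
      one_ne_zero
  have h2 : DifferentiableAt ℂ (V.vol (chartAt C2 (f v))) (chartAt C2 (f v) (f v)) :=
    (V.holo _ (chart_mem_atlas C2 (f v))).1.differentiableAt
      ((chartAt C2 (f v)).open_target.mem_nhds (mem_chart_target C2 _))
  refine ((DifferentiableAt.comp (f := fun z => chartAt C2 (f v) (f z)) v h2 hd.self_of_nhds).mul
    ((R2.H236.det_differentiable _).comp v h1)).congr_of_eventuallyEq ?_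
  filter_upwards [hf, hf.self_of_nhds.1.eventually (chart_source_mem_nhds C2 _)] with z a1 a2
  exact jac_eq a1 a2

end Vale.Agent.P290Z.Nk
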