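import Vale.Agent.P290Z.Nk.SpecB
import Vale.Agent.P290Z.Nk.Basic

/-! P290Z Nk: disjoint standard neighbourhoods of the curves. -/

open scoped Manifold ContDiff Topology
open Set Filter Metric

noncomputable section

namespace Vale.Agent.P290Z.Nk

open Vale.Agent.P290 Vale.Agent.P267
open Vale.Agent.P290.All (Etale dir Hol)

theorem nbhd (hA : StA1) (hL : StLift) : StNbhd := by
  intro Y n K
  have hd : Pairwise (Function.onFun Disjoint fun i => 𝓝ˢ (K.C i).supp) := fun i j hij =>
    (SeparatedNhds.of_isCompact_isCompact (K.C i).isCompact_supp (K.C j).isCompact_supp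
      (Set.disjoint_left.2 fun x a b => hij (K.disj i j x a b))).disjoint_nhdsSet
  obtain ⟨O, h1, h2⟩ := hd.exists_mem_filter_of_disjoint
  have key : ∀ i, ∃ ν, IsStd (K.C i) (4 * 100) ν ∧ ∀ k d, SD (4 * 100) k d → ν k d ∈ O i := by
    intro i
    obtain ⟨ε, hε, ν, hν⟩ := hA Y (K.C i)
    obtain ⟨ε', hε', h3⟩ := hν.small hε isOpen_interior (subset_interior_iff_mem_nhdsSet.2 (h1 i))
    have h4 : 0 < min ε ε' := lt_min hε hε'
    have h5 : 0 < min ε ε' / 400 := by positivity
    have h6 : (4 * 100 : ℝ) = min ε ε' / (min ε ε' / 400) := by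
      field_simp
      norm_num
    rw [h6]
    exact ⟨_, (hν.mono (min_le_left _ _)).scale h5, fun k d h =>
      interior_subset (h3 _ _ ((h.scale h5).mono (min_le_right _ _)))⟩
  choose ν h3 h4 using key
  have sep : ∀ i j x, x ∈ O i → x ∈ O j → i = j := fun i j x a b =>
    by_contra fun h => Set.disjoint_left.1 (h2 h) a b
  choose E h5 using fun i => hL Y n K i 100 (ν i) (by norm_num) (h3 i) fun k d h hk ⟨j, hj⟩ => by
    obtain rfl := sep i j _ (h4 i k d h) (subset_of_mem_nhdsSet (h1 j) hj)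
    exact hk (((h3 i).mem_supp h).1 hj)
  exact ⟨⟨ν, E, fun i => (h3 i).mono (by norm_num), h5, fun i j k d k' d' a a' e =>
    sep i j _ (h4 i k d (a.mono (by norm_num))) (e ▸ h4 j k' d' (a'.mono (by norm_num)))⟩⟩

end Vale.Agent.P290Z.Nk
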