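import Vale.Agent.P290Z.Nk.SpecB
import Vale.Agent.P290Z.Nk.Std
import Vale.Agent.P290Z.Spr

/-!
# P290Z, part III: two tube charts along a rational curve
-/

open scoped Manifold ContDiff Topology
open Set Filter Metric

noncomputable section

namespace Vale.Agent.P290Z.Nk

open Vale.Agent.P290
open Vale.Agent.P290.All (Etale dir)

namespace TUBE

/-- the determinant of two vectors -/
def dt (x y : C2) : ℂ := x.1 * y.2 - x.2 * y.1

theorem det_eq (A : C2 →L[ℂ] C2) : A.det = dt (A (1, 0)) (A (0, 1)) := by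
  have h := LinearMap.det_toMatrix (Module.Basis.finTwoProd ℂ) (A : C2 →ₗ[ℂ] C2)
  have h2 : A.det = LinearMap.det (A : C2 →ₗ[ℂ] C2) := rfl
  rw [h2, ← h, Matrix.det_fin_two]
  simp [LinearMap.toMatrix_apply, dt, mul_comm]

theorem dec (x : C2) : x = x.1 • ((1, 0) : C2) + x.2 • ((0, 1) : C2) := by simp

theorem dt_map (A : C2 →L[ℂ] C2) (x y : C2) : dt (A x) (A y) = A.det * dt x y := by
  have e : ∀ x : C2, A x = x.1 • A (1, 0) + x.2 • A (0, 1) := fun x => by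
    rw [← map_smul, ← map_smul, ← map_add, ← dec]
  rw [det_eq, e x, e y]
  simp only [dt, Prod.fst_add, Prod.snd_add, Prod.smul_fst, Prod.smul_snd, smul_eq_mul]
  ring

variable {Y : W.K3} {V V' : Type} [NormedAddCommGroup V] [NormedSpace ℂ V]
  [NormedAddCommGroup V'] [NormedSpace ℂ V']

/-- the derivative in the preferred chart -/
def dm (f : V → Y.X) (z : V) : V →L[ℂ] C2 := fderiv ℂ (fun w => chartAt C2 (f z) (f w)) z

/-- the pull back of the two-form -/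
def om (f : V → Y.X) (z a b : V) : ℂ := W.H445.Om Y (f z) * dt (dm f z a) (dm f z b)

theorem om_chart {f : V → Y.X} {z : V} (h : MD f z) {x : Y.X} (hx : f z ∈ (chartAt C2 x).source)
    (a b : V) : om f z a b = Y.vol (chartAt C2 x) (chartAt C2 x (f z)) *
      dt (fderiv ℂ (fun w => chartAt C2 x (f w)) z a)
        (fderiv ℂ (fun w => chartAt C2 x (f w)) z b) := by
  have h0 : (chartAt C2 (f z)).symm (chartAt C2 (f z) (f z)) = f z :=
    (chartAt C2 (f z)).left_inv (mem_chart_source C2 _)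
  have h1 : DifferentiableAt ℂ (fun w => chartAt C2 x ((chartAt C2 (f z)).symm w))
      (chartAt C2 (f z) (f z)) :=
    (Inv.trans_contDiffAt (mem_chart_target C2 _) (by rw [h0]; exact hx)).differentiableAt (by simp)
  have h2 : (fun w => chartAt C2 x (f w)) =ᶠ[𝓝 z]
      (fun w => chartAt C2 x ((chartAt C2 (f z)).symm w)) ∘ fun w => chartAt C2 (f z) (f w) := by
    filter_upwards [h.continuousAt.eventually (chart_source_mem_nhds C2 (f z))] with w hw
    simp only [Function.comp, (chartAt C2 (f z)).left_inv hw]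
  have h3 := ((Y.holo _ (chart_mem_atlas _ (f z))).2 _ (mem_chart_target _ (f z))).2 _
    (chart_mem_atlas _ x) (by rw [h0]; exact hx)
  rw [h0] at h3
  rw [h2.fderiv_eq, fderiv_comp z h1 (Inv.md_iff.1 h).2, ContinuousLinearMap.comp_apply,
    ContinuousLinearMap.comp_apply, dt_map, ← mul_assoc, ← h3]
  rfl

theorem om_diff [FiniteDimensional ℂ V] {f : V → Y.X} {z : V} (h : ∀ᶠ w in 𝓝 z, MD f w)
    (a b : V) : DifferentiableAt ℂ (fun w => om f w a b) z := by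
  have hs : ∀ᶠ w in 𝓝 z, f w ∈ (chartAt C2 (f z)).source :=
    h.self_of_nhds.continuousAt.eventually (chart_source_mem_nhds C2 _)
  have hd : ∀ᶠ w in 𝓝 z, DifferentiableAt ℂ (fun w => chartAt C2 (f z) (f w)) w := by
    filter_upwards [h, hs] with w h1 h2 using Inv.md_chart h1 h2
  have h1 : DifferentiableAt ℂ (fderiv ℂ fun w => chartAt C2 (f z) (f w)) z :=
    ((contDiffAt_of_eventually hd 2).fderiv_right (m := 1) (by norm_num)).differentiableAt
      one_ne_zero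
  have h2 : ∀ a : V, DifferentiableAt ℂ
      (fun w => fderiv ℂ (fun w => chartAt C2 (f z) (f w)) w a) z := fun a =>
    h1.clm_apply (differentiableAt_const a)
  have h3 : DifferentiableAt ℂ (Y.vol (chartAt C2 (f z))) (chartAt C2 (f z) (f z)) :=
    (Y.holo _ (chart_mem_atlas _ (f z))).1.differentiableAt (chart_target_mem_nhds C2 _)
  refine (((h3.comp z hd.self_of_nhds).mul (((h2 a).fst.mul (h2 b).snd).sub
    ((h2 a).snd.mul (h2 b).fst)))).congr_of_eventuallyEq ?_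
  filter_upwards [h, hs] with w a1 a2
  exact om_chart a1 a2 a b

theorem dm_comp {f : V → Y.X} {q : V' → V} {w : V'} {q' : V' →L[ℂ] V} (h : MD f (q w))
    (hq : HasFDerivAt q q' w) : dm (fun u => f (q u)) w = (dm f (q w)).comp q' :=
  (HasFDerivAt.comp (g := fun z => chartAt C2 (f (q w)) (f z)) (f := q) w
    (Inv.md_iff.1 h).2.hasFDerivAt hq).fderiv

theorem om_comp {f : V → Y.X} {q : V' → V} {w : V'} {q' : V' →L[ℂ] V} (h : MD f (q w))
    (hq : HasFDerivAt q q' w) (a b : V') :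
    om (fun u => f (q u)) w a b = om f (q w) (q' a) (q' b) := by
  rw [om, dm_comp h hq]
  rfl

theorem dm_congr {f g : V → Y.X} {z : V} (h : f =ᶠ[𝓝 z] g) : dm f z = dm g z := by
  have h1 : (fun w => chartAt C2 (g z) (f w)) =ᶠ[𝓝 z] fun w => chartAt C2 (g z) (g w) :=
    h.mono fun w hw => by simp only [hw]
  rw [dm, dm, h.self_of_nhds, h1.fderiv_eq]

theorem om_congr {f g : V → Y.X} {z : V} (h : f =ᶠ[𝓝 z] g) (a b : V) :
    om f z a b = om g z a b := by rw [om, om, dm_congr h, h.self_of_nhds]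

theorem om_det (f : C2 → Y.X) (z a b : C2) : om f z a b = om f z (1, 0) (0, 1) * dt a b := by
  rw [om, om, dt_map, ← det_eq, mul_assoc]

theorem etale_of_om {f : C2 → Y.X} {z : C2} (h : MD f z) (h0 : om f z (1, 0) (0, 1) ≠ 0) :
    Etale f z := by
  refine ⟨h.continuousAt, (Inv.md_iff.1 h).2, ?_⟩
  rw [det_eq]
  exact right_ne_zero_of_mul h0

theorem spray (g : ℂ → Y.X) (hg : ∀ u, MD g u) :
    ∃ F : ℂ × C2 → Y.X, ∀ u ∈ closedBall (0 : ℂ) 13, (∀ᶠ z in 𝓝 (u, (0 : C2)), MD F z) ∧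
      (∀ᶠ x in 𝓝 u, F (x, 0) = g x) ∧ Etale (fun s => F (u, s)) 0 := by
  have : SecondCountableTopology Y.X := ChartedSpace.secondCountable_of_sigmaCompact C2 Y.X
  let _ : MetricSpace Y.X := TopologicalSpace.metrizableSpaceMetric Y.X
  obtain ⟨F, f1, f2, f3⟩ := spr' ℂ Y.X (closedBall 0 13)
    ⟨isCompact_closedBall _ _, convex_closedBall _ _⟩ g (Eventually.of_forall hg)
  exact ⟨F, fun u hu => ⟨eventually_nhdsSet_iff_forall.1 f1 (u, 0) ⟨hu, rfl⟩,
    eventually_nhdsSet_iff_forall.1 f2 u hu, f3 u hu⟩⟩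

/-- one tube -/
theorem one (hB : StBez) (g : ℂ → Y.X) (hg : ∀ u, MD g u)
    (hi : ∀ u, deriv (fun z => chartAt C2 (g u) (g z)) u ≠ 0) {σ : ℂ} (hσ : σ ≠ 0) :
    ∃ τ : C2 → Y.X, ∀ u ∈ closedBall (0 : ℂ) 11, (∀ᶠ v in 𝓝 ((0, u) : C2), Etale τ v) ∧
      τ (0, u) = g u ∧ om τ (0, u) (1, 0) (0, 1) = σ := by
  obtain ⟨F, hF⟩ := spray g hg
  let α : C2 → ℂ → ℂ := fun s u => om F (u, 0) (0, s) (1, 0)
  have a1 : ∀ s, DifferentiableOn ℂ (α s) (ball 0 13) := fun s u hu =>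
    (DifferentiableAt.comp (g := fun w => om F w (0, s) (1, 0))
      (f := fun u : ℂ => ((u, 0) : ℂ × C2)) u
      (om_diff (hF u (ball_subset_closedBall hu)).1 _ _) (by fun_prop)).differentiableWithinAt
  have a2 : ∀ s u, α s u = s.1 * α (1, 0) u + s.2 * α (0, 1) u := fun s u => by
    have e : ((0, s) : ℂ × C2) = s.1 • ((0, (1, 0)) : ℂ × C2) + s.2 • ((0, (0, 1)) : ℂ × C2) := by
      simp
    simp only [α, om]
    rw [e, map_add, map_smul, map_smul]
    simp only [dt, Prod.fst_add, Prod.snd_add, Prod.smul_fst, Prod.smul_snd, smul_eq_mul]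
    ring
  obtain ⟨η, e1, e2⟩ := hB 12 13 (fun u => (-α (0, 1) u, α (1, 0) u)) (by norm_num) (by norm_num)
    ((a1 _).neg.prodMk (a1 _)) fun u hu h0 => by
      obtain ⟨f1, f2, f3⟩ := hF u (ball_subset_closedBall hu)
      have b1 : α (0, 1) u = 0 := neg_eq_zero.1 (congrArg Prod.fst h0)
      have b2 : α (1, 0) u = 0 := congrArg Prod.snd h0
      have b3 : ∀ s, dt (dm F (u, 0) (0, s)) (dm F (u, 0) (1, 0)) = 0 := fun s => by
        have := a2 s u
        rw [b1, b2, mul_zero, mul_zero, add_zero] at this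
        exact (mul_eq_zero.1 this).resolve_left (W.H445.Om_ne_zero Y _)
      have b4 : Function.Injective (dm (fun s => F (u, s)) 0) := Inv.det_ne_iff.1 f3.2.2
      rw [dm_comp (q := fun s : C2 => ((u, s) : ℂ × C2)) f1.self_of_nhds
        (hasFDerivAt_prodMk_right _ _)] at b4
      have b5 := LinearMap.injective_iff_surjective.1
        (show Function.Injective (((dm F (u, 0)).comp
          (ContinuousLinearMap.inr ℂ ℂ C2) : C2 →L[ℂ] C2) : C2 →ₗ[ℂ] C2) from b4)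
      have b6 : ∀ y, dt y (dm F (u, 0) (1, 0)) = 0 := fun y => by
        obtain ⟨s, rfl⟩ := b5 y
        exact b3 s
      have b7 : dm F (u, 0) (1, 0) = dm g u 1 := by
        rw [← dm_congr f2, dm_comp (q := fun x : ℂ => ((x, 0) : ℂ × C2)) f1.self_of_nhds
          (hasFDerivAt_prodMk_left _ _)]
        rfl
      refine hi u (b7.symm.trans (Prod.ext ?_ ?_))
      · simpa [dt] using b6 (0, 1)
      · simpa [dt] using b6 (1, 0)
  let q : C2 → ℂ × C2 := fun v => (v.2, (σ * v.1) • η v.2)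
  refine ⟨fun v => F (q v), fun u hu => ?_⟩
  have hu' : u ∈ ball (0 : ℂ) 12 := closedBall_subset_ball (by norm_num) hu
  obtain ⟨f1, f2, -⟩ := hF u (closedBall_subset_closedBall (by norm_num) hu)
  have q0 : q (0, u) = (u, 0) := by simp [q]
  have q1 : ∀ᶠ v in 𝓝 ((0, u) : C2), DifferentiableAt ℂ q v := by
    filter_upwards [continuousAt_snd.eventually (isOpen_ball.mem_nhds hu')] with v hv
    exact differentiableAt_snd.prodMk (((differentiableAt_const σ).mul differentiableAt_fst).smul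
      ((e1.differentiableAt (isOpen_ball.mem_nhds hv)).comp v differentiableAt_snd))
  have q2 : ∀ᶠ v in 𝓝 ((0, u) : C2), MD (fun v => F (q v)) v := by
    filter_upwards [q1, q1.self_of_nhds.continuousAt.eventually (q0 ▸ f1)] with v c1 c2
    exact Inv.md_comp c2 c1
  have q3 : HasFDerivAt q _ ((0, u) : C2) :=
    hasFDerivAt_snd.prodMk ((hasFDerivAt_fst.const_mul σ).smul
      (HasFDerivAt.comp (f := Prod.snd) ((0, u) : C2)
        (e1.differentiableAt (isOpen_ball.mem_nhds hu')).hasFDerivAt hasFDerivAt_snd))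
  have q4 : om (fun v => F (q v)) (0, u) (1, 0) (0, 1) = σ := by
    rw [om_comp (q0 ▸ f1.self_of_nhds) q3, q0]
    have c1 := e2 u hu'
    have c2 := a2 (σ • η u) u
    simp only [Prod.smul_fst, Prod.smul_snd, smul_eq_mul] at c1 c2
    refine Eq.trans (congrArg₂ (om F (u, 0)) ?_ ?_) (c2.trans (by linear_combination σ * c1))
    · simp
    · simp
  refine ⟨?_, (congrArg F q0).trans f2.self_of_nhds, q4⟩
  filter_upwards [q2, (om_diff q2 (1, 0) (0, 1)).continuousAt.eventually_ne (q4 ▸ hσ)] with v c1 c2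
  exact etale_of_om c1 c2

/-- the inverse of an injective etale map -/
theorem loc_inv {f k : C2 → Y.X} {U : Set C2} (hU : IsOpen U) (hf : ∀ v ∈ U, Etale f v)
    (hi : InjOn f U) {w : C2} (hk : MD k w) (hw : k w ∈ f '' U) :
    (∀ᶠ z in 𝓝 w, k z ∈ f '' U) ∧
      DifferentiableAt ℂ (fun z => Function.invFunOn f U (k z)) w := by
  obtain ⟨p, hp, e⟩ := hw
  have h0 := hf p hp
  have hs : ∀ᶠ v in 𝓝 p, f v ∈ (chartAt C2 (f p)).source :=
    h0.1.eventually (chart_source_mem_nhds C2 _)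
  have hd : ∀ᶠ v in 𝓝 p, DifferentiableAt ℂ (fun z => chartAt C2 (f p) (f z)) v := by
    filter_upwards [hU.mem_nhds hp, hs] with v a1 a2
    exact Inv.md_chart (Inv.etale_md (hf v a1)) a2
  obtain ⟨σ, -, h2, h3, h4⟩ := STD.ift hd (Inv.det_ne_iff.1 h0.2.2)
  have k1 : DifferentiableAt ℂ (fun z => chartAt C2 (f p) (k z)) w :=
    Inv.md_chart hk (e ▸ mem_chart_source C2 _)
  have k2 : Tendsto (fun z => chartAt C2 (f p) (k z)) (𝓝 w) (𝓝 (chartAt C2 (f p) (f p))) := by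
    have := k1.continuousAt.tendsto
    rwa [← e] at this
  have k3 : ∀ᶠ z in 𝓝 w, σ (chartAt C2 (f p) (k z)) ∈ U ∧
      f (σ (chartAt C2 (f p) (k z))) = k z := by
    filter_upwards [k2.eventually h2, (h4.comp k2).eventually (hU.mem_nhds hp),
      (h4.comp k2).eventually hs,
      hk.continuousAt.eventually ((chartAt C2 (f p)).open_source.mem_nhds
        (e ▸ mem_chart_source C2 (f p)))] with z a1 a2 a3 a4
    exact ⟨a2, (chartAt C2 (f p)).injOn a3 a4 a1⟩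
  refine ⟨k3.mono fun z hz => ⟨_, hz.1, hz.2⟩, ?_⟩
  have k4 : DifferentiableAt ℂ σ (chartAt C2 (f p) (k w)) := e ▸ h3.self_of_nhds
  refine (k4.comp w k1).congr_of_eventuallyEq (k3.mono fun z hz => ?_)
  have := hi.leftInvOn_invFunOn hz.1
  rw [hz.2] at this
  exact this

end TUBE

open TUBE

theorem tubes (hB : StBez) : StTubes := by
  intro Y C
  let σ : Bool → ℂ := fun b => cond b 1 (-1)
  have s1 : ∀ b, σ b ≠ 0 := fun b => by cases b <;> simp [σ]
  have s2 : ∀ b, σ (!b) = -σ b := fun b => by cases b <;> simp [σ]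
  choose τ hτ using fun b => one hB (C.g b) (C.hol b) (C.imm b) (s1 b)
  have hU : ∀ b, ∃ U : Set C2, IsOpen U ∧ (∀ u ∈ closedBall (0 : ℂ) 11, ((0, u) : C2) ∈ U) ∧
      (∀ v ∈ U, Etale (τ b) v) ∧ InjOn (τ b) U := fun b => by
    obtain ⟨U, u1, u2, u3⟩ := Set.InjOn.exists_isOpen_superset (f := τ b)
      (s := ({0} : Set ℂ) ×ˢ closedBall (0 : ℂ) 11)
      (by
        rintro ⟨_, u⟩ ⟨rfl, hu⟩ ⟨_, u'⟩ ⟨rfl, hu'⟩ e
        rw [(hτ b u hu).2.1, (hτ b u' hu').2.1] at e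
        rw [C.inj b e])
      (isCompact_singleton.prod (isCompact_closedBall _ _))
      (by rintro ⟨_, u⟩ ⟨rfl, hu⟩; exact (hτ b u hu).1.self_of_nhds.1)
      (by rintro ⟨_, u⟩ ⟨rfl, hu⟩; exact STD.etale_injOn (hτ b u hu).1)
    exact ⟨U ∩ interior {v | Etale (τ b) v}, u1.inter isOpen_interior,
      fun u hu => ⟨u2 ⟨rfl, hu⟩, mem_interior_iff_mem_nhds.2 (hτ b u hu).1⟩,
      fun v hv => interior_subset (s := {v | Etale (τ b) v}) hv.2, u3.mono inter_subset_left⟩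
  choose U u1 u2 u3 u4 using hU
  let T : Bool → C2 → C2 := fun b v => Function.invFunOn (τ (!b)) (U (!b)) (τ b v)
  let K : Set ℂ := closedBall 0 9 \ ball 0 9⁻¹
  have k1 : ∀ u ∈ K, u ∈ closedBall (0 : ℂ) 11 ∧ u⁻¹ ∈ closedBall (0 : ℂ) 11 ∧ u ≠ 0 := by
    rintro u ⟨h1, h2⟩
    rw [mem_ball_zero_iff, not_lt] at h2
    have h3 : 0 < ‖u‖ := lt_of_lt_of_le (by norm_num) h2
    refine ⟨closedBall_subset_closedBall (by norm_num) h1, ?_, norm_pos_iff.1 h3⟩
    rw [mem_closedBall_zero_iff, norm_inv]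
    exact ((inv_le_comm₀ (by norm_num) h3).1 h2).trans (by norm_num)
  have k2 : ∀ u : ℂ, 9⁻¹ < ‖u‖ → ‖u‖ < 9 → u ∈ K := fun u h1 h2 =>
    ⟨mem_closedBall_zero_iff.2 h2.le, fun h => h1.not_gt (mem_ball_zero_iff.1 h)⟩
  have k3 : ∀ b, ∀ u ∈ K, τ (!b) (0, u⁻¹) = τ b (0, u) := fun b u hu => by
    rw [(hτ b u (k1 u hu).1).2.1, (hτ _ _ (k1 u hu).2.1).2.1, C.glue b u (k1 u hu).2.2]
  have k4 : ∀ b, ∀ u ∈ K, ∀ᶠ w in 𝓝 ((0, u) : C2), τ b w ∈ τ (!b) '' U (!b) := fun b u hu =>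
    (loc_inv (u1 _) (u3 _) (u4 _) (Inv.etale_md (hτ b u (k1 u hu).1).1.self_of_nhds)
      ⟨_, u2 _ _ (k1 u hu).2.1, k3 b u hu⟩).1
  have t1 : ∀ b, ∀ᶠ e in 𝓝[>] (0 : ℝ), (∀ w : C2, ‖w.1‖ < e → w.2 ∈ closedBall (0 : ℂ) 11 →
      w ∈ U b) ∧ ∀ w : C2, ‖w.1‖ < e → w.2 ∈ K → τ b w ∈ τ (!b) '' U (!b) := fun b =>
    (STD.tube (isCompact_closedBall _ _) fun u hu => (u1 b).mem_nhds (u2 b u hu)).and
      (STD.tube ((isCompact_closedBall _ _).diff isOpen_ball) (k4 b))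
  obtain ⟨δ, t2, hδ⟩ := ((eventually_all.2 t1).and self_mem_nhdsWithin).exists
  have a1 : ∀ b, ∀ v ∈ Ann δ 9, v ∈ U b ∧ τ b v ∈ τ (!b) '' U (!b) := fun b v hv =>
    ⟨(t2 b).1 v hv.1 (k1 _ (k2 _ hv.2.1 hv.2.2)).1, (t2 b).2 v hv.1 (k2 _ hv.2.1 hv.2.2)⟩
  have a2 : ∀ b, ∀ v ∈ Ann δ 9, DifferentiableAt ℂ (T b) v := fun b v hv =>
    (loc_inv (u1 _) (u3 _) (u4 _) (Inv.etale_md (u3 b v (a1 b v hv).1)) (a1 b v hv).2).2
  have a3 : ∀ b, ∀ v ∈ Ann δ 9, τ (!b) (T b v) = τ b v := fun b v hv =>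
    Function.invFunOn_eq (a1 b v hv).2
  have a4 : ∀ b, ∀ u ∈ K, T b (0, u) = (0, u⁻¹) := fun b u hu => by
    have := (u4 (!b)).leftInvOn_invFunOn (u2 _ _ (k1 u hu).2.1)
    rw [k3 b u hu] at this
    exact this
  refine ⟨δ, hδ, τ, T, ⟨fun b v hv => (a2 b v hv).differentiableWithinAt,
    fun b u h1 h2 => a4 b u (k2 u h1 h2), fun b u h1 h2 => ?_, fun b v hv _ => ?_⟩,
    fun b v hv => u3 b v ((t2 b).1 v hv.1 (mem_closedBall_zero_iff.2 (hv.2.le.trans (by norm_num)))),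
    fun b u hu => (hτ b u (mem_closedBall_zero_iff.2 (hu.le.trans (by norm_num)))).2.1, a3⟩
  · obtain ⟨c1, c2, c3⟩ := k1 u (k2 u h1 h2)
    have hA := STD.ann_mem (δ := δ) hδ h1 h2
    have d1 := (a2 b _ (mem_of_mem_nhds hA)).hasFDerivAt
    have d2 : HasFDerivAt (fun z : ℂ => ((0, z) : C2)) (ContinuousLinearMap.inr ℂ ℂ ℂ) u :=
      hasFDerivAt_prodMk_right _ _
    have d3 : HasDerivAt (fun z : ℂ => ((0, z⁻¹) : C2)) (0, -(u ^ 2)⁻¹) u :=
      (hasDerivAt_const u (0 : ℂ)).prodMk (hasDerivAt_inv c3)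
    have d4 : fderiv ℂ (T b) (0, u) (0, 1) = (0, -(u ^ 2)⁻¹) := by
      refine (HasFDerivAt.comp (f := fun z : ℂ => ((0, z) : C2)) u d1 d2).hasDerivAt.unique
        (d3.congr_of_eventuallyEq ?_)
      filter_upwards [d2.continuousAt.eventually hA] with z hz
      exact a4 b z (k2 z hz.2.1 hz.2.2)
    have d5 := om_comp (f := τ (!b)) (q := T b) (w := (0, u))
      (by rw [a4 b u (k2 u h1 h2)]; exact Inv.etale_md (hτ _ _ c2).1.self_of_nhds) d1 (1, 0) (0, 1)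
    rw [om_congr (g := τ b) (Filter.mem_of_superset hA fun v hv => a3 b v hv), (hτ b u c1).2.2,
      a4 b u (k2 u h1 h2), om_det, (hτ _ _ c2).2.2, s2, d4, dt] at d5
    have d6 : (fderiv ℂ (T b) (0, u) (1, 0)).1 = u ^ 2 := by
      have := s1 b
      simp only [mul_zero, sub_zero] at d5
      field_simp at d5
      exact d5.symm
    have d7 : HasFDerivAt (fun h : ℂ => ((h, u) : C2)) (ContinuousLinearMap.inl ℂ ℂ ℂ) 0 :=
      hasFDerivAt_prodMk_left _ _
    exact d6 ▸ (HasFDerivAt.comp (f := fun h : ℂ => ((h, u) : C2)) 0 d1 d7).fst.hasDerivAt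
  · change Function.invFunOn (τ (!!b)) (U (!!b)) (τ (!b) (T b v)) = v
    rw [a3 b v hv, Bool.not_not]
    exact (u4 b).leftInvOn_invFunOn (a1 b v hv).1

end Vale.Agent.P290Z.Nk
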