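import Vale.Agent.P290Z.Nk.Cousin
import Vale.Agent.P290Z.Nk.Bez
import Vale.Agent.P290Z.Nk.Tube
import Vale.Agent.P290Z.Nk.Nbhd
import Vale.Agent.P290Z.Nk.Lift

/-! P290Z Nk: standard neighbourhoods of rational curves on K3 surfaces. -/

namespace Vale.Agent.P290Z.Nk

theorem a1 : StA1 := fun Y C => by
  obtain ⟨δ, hδ, τ, T, h⟩ := tubes bez Y C
  obtain ⟨δ', h1, h2, G, hG⟩ := cousin δ T hδ h.td
  exact std Y.X C δ δ' τ T G h1 h2 h hG

theorem nbhd' : StNbhd := nbhd a1 lift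

end Vale.Agent.P290Z.Nk
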