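import Vale.Agent.P290Z.Nk.DefsA
import Vale.Agent.P290Z.Inv.Loc
import Vale.Agent.P211.HK.LocSys

/-!
# P290Z, part III, block N2: compact surfaces with a translation structure are tori
-/

set_option linter.unusedSectionVars false

open scoped Manifold ContDiff Topology
open Set Filter Metric

noncomputable section

namespace Vale.Agent.P290Z.Nk

open Vale.Agent.P290
open Vale.Agent.P290.All (Etale)

namespace AFF

/-- a discrete subgroup with bounded quotient has a basis -/
theorem exists_basis (L : Submodule ℤ C2) (hd : ∀ᶠ z in 𝓝 (0 : C2), z ∈ L → z = 0) {R : ℝ}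
    (hR : ∀ z : C2, ∃ l ∈ L, ‖z - l‖ ≤ R) : ∃ l : Fin 4 → C2, LinearIndependent ℝ l ∧
      ∀ z, z ∈ L ↔ z ∈ AddSubgroup.closure (range l) := by
  have : DiscreteTopology L := by
    refine discreteTopology_of_isOpen_singleton_zero ?_
    obtain ⟨U, hU, hUo, hU0⟩ := _root_.eventually_nhds_iff.1 hd
    have h1 : ({0} : Set L) = Subtype.val ⁻¹' U := by
      ext z
      refine ⟨fun h => ?_, fun h => Subtype.ext (hU _ h z.2)⟩
      rw [mem_singleton_iff.1 h]
      exact hU0
    rw [h1]
    exact hUo.preimage continuous_subtype_val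
  have : IsZLattice ℝ L := by
    refine ⟨eq_top_iff.2 fun z _ => ?_⟩
    have hc : IsClosed (Submodule.span ℝ (L : Set C2) : Set C2) :=
      Submodule.closed_of_finiteDimensional _
    refine hc.mem_of_tendsto (b := atTop) (f := fun n : ℕ =>
      ((n : ℝ) + 1)⁻¹ • (hR (((n : ℝ) + 1) • z)).choose) ?_ (Eventually.of_forall fun n =>
        Submodule.smul_mem _ _ (Submodule.subset_span (hR _).choose_spec.1))
    rw [tendsto_iff_norm_sub_tendsto_zero]
    have h1 : Tendsto (fun n : ℕ => ((n : ℝ) + 1)⁻¹ * R) atTop (𝓝 0) := by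
      have h2 := (tendsto_one_div_add_atTop_nhds_zero_nat (𝕜 := ℝ)).mul_const R
      simpa using h2
    refine squeeze_zero (fun _ => norm_nonneg _) (fun n => ?_) h1
    have h2 := (hR (((n : ℝ) + 1) • z)).choose_spec.2
    have h3 : (0 : ℝ) < (n : ℝ) + 1 := by positivity
    have h4 : ((n : ℝ) + 1)⁻¹ • (hR (((n : ℝ) + 1) • z)).choose - z =
        -(((n : ℝ) + 1)⁻¹ • (((n : ℝ) + 1) • z - (hR (((n : ℝ) + 1) • z)).choose)) := by
      rw [smul_sub, smul_smul, inv_mul_cancel₀ h3.ne', one_smul, neg_sub]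
    rw [h4, norm_neg, norm_smul, Real.norm_of_nonneg (inv_nonneg.2 h3.le)]
    exact mul_le_mul_of_nonneg_left h2 (inv_nonneg.2 h3.le)
  have hr : Module.finrank ℤ L = 4 := by
    rw [ZLattice.rank ℝ L, Module.finrank_prod, Complex.finrank_real_complex]
  let b := Module.finBasisOfFinrankEq ℤ L hr
  refine ⟨b.ofZLatticeBasis ℝ L, (b.ofZLatticeBasis ℝ L).linearIndependent, fun z => ?_⟩
  rw [← Submodule.span_int_eq_addSubgroupClosure, b.ofZLatticeBasis_span ℝ L]
  rfl

variable {X : Type} [TopologicalSpace X] [ChartedSpace C2 X] [IsManifold 𝓘(ℂ, C2) ω X]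
  {F : X → X → C2}

/-- the functions `F x` are charts -/
theorem exists_chart (h : Tr F) (x : X) : ∃ φ : OpenPartialHomeomorph X C2, x ∈ φ.source ∧
    ∀ y ∈ φ.source, φ y = F x y ∧ ∀ᶠ y' in 𝓝 y, F x y' - F x y = F y y' - F y y := by
  set c := chartAt C2 x with hc
  have hx : x ∈ c.source := mem_chart_source C2 x
  have h1 : ∀ᶠ z in 𝓝 (c x), DifferentiableAt ℂ (fun z => F x (c.symm z)) z := by
    have h2 : ContinuousAt c.symm (c x) := c.continuousAt_symm (c.map_source hx)
    have h3 : Tendsto c.symm (𝓝 (c x)) (𝓝 x) := by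
      have h4 := h2.tendsto
      rwa [c.left_inv hx] at h4
    filter_upwards [h3.eventually (h.hol x), c.open_target.mem_nhds (c.map_source hx)] with z h4 h5
    have h6 := (Inv.trans_contDiffAt (x := x) (x' := c.symm z) h5
      (mem_chart_source C2 _)).differentiableAt (by simp)
    refine (DifferentiableAt.comp (g := fun w => F x ((chartAt C2 (c.symm z)).symm w)) z
      h4 h6).congr_of_eventuallyEq ?_
    filter_upwards [(c.continuousAt_symm h5).eventually
      ((chartAt C2 (c.symm z)).open_source.mem_nhds (mem_chart_source C2 _))] with w hw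
    show F x (c.symm w) = F x ((chartAt C2 (c.symm z)).symm (chartAt C2 (c.symm z) (c.symm w)))
    rw [(chartAt C2 (c.symm z)).left_inv hw]
  have h2 : ContDiffAt ℂ (1 : ℕ) (fun z => F x (c.symm z)) (c x) := contDiffAt_of_eventually h1 1
  have h3 : HasFDerivAt (fun z => F x (c.symm z))
      (((fderiv ℂ (fun z => F x (c.symm z)) (c x)).toContinuousLinearEquivOfDetNeZero (h.det x) :
        C2 ≃L[ℂ] C2) : C2 →L[ℂ] C2) (c x) := by
    rw [ContinuousLinearMap.coe_toContinuousLinearEquivOfDetNeZero]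
    exact h1.self_of_nhds.hasFDerivAt
  obtain ⟨O, hO, hOo, hOx⟩ := _root_.eventually_nhds_iff.1 (h.coc x)
  refine ⟨(c.trans (h2.toOpenPartialHomeomorph _ h3 (by simp))).restrOpen O hOo,
    ⟨⟨hx, h2.mem_toOpenPartialHomeomorph_source h3 (by simp)⟩, hOx⟩, fun y hy => ⟨?_, hO y hy.2⟩⟩
  show F x (c.symm (c y)) = F x y
  rw [c.left_inv hy.1.1]

/-- `s` is a local section of the translation structure at `p` -/
def Par (F : X → X → C2) (p : C2) (s : C2 → X) : Prop :=
  ContinuousAt s p ∧ ∀ᶠ z in 𝓝 p, F (s p) (s z) - F (s p) (s p) = z - p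

theorem Par.eq {p : C2} {s : C2 → X} (hs : Par F p s) {φ : OpenPartialHomeomorph X C2}
    (hx : s p ∈ φ.source) (hφ : ∀ y ∈ φ.source, φ y = F (s p) y) :
    ∀ᶠ z in 𝓝 p, s z = φ.symm (φ (s p) + (z - p)) := by
  filter_upwards [hs.2, hs.1.eventually (φ.open_source.mem_nhds hx)] with z h1 h2
  rw [← h1, ← hφ _ hx, ← hφ _ h2, add_sub_cancel, φ.left_inv h2]

theorem par_symm {x : X} {φ : OpenPartialHomeomorph X C2}
    (hφ : ∀ y ∈ φ.source, φ y = F x y ∧ ∀ᶠ y' in 𝓝 y, F x y' - F x y = F y y' - F y y)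
    (a : C2) {q : C2} (hq : a + q ∈ φ.target) : Par F q fun z => φ.symm (a + z) := by
  have h1 : ContinuousAt (fun z : C2 => a + z) q := by fun_prop
  have h2 : ContinuousAt (fun z => φ.symm (a + z)) q :=
    ContinuousAt.comp (g := φ.symm) (φ.continuousAt_symm hq) h1
  refine ⟨h2, ?_⟩
  filter_upwards [h2.eventually (hφ _ (φ.map_target hq)).2,
    h1.eventually (φ.open_target.mem_nhds hq)] with z h3 h4
  rw [← h3, ← (hφ _ (φ.map_target hq)).1, ← (hφ _ (φ.map_target h4)).1, φ.right_inv hq,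
    φ.right_inv h4, add_sub_add_left_eq_sub]

theorem Par.congr {p : C2} {s s' : C2 → X} (hs : Par F p s) (h : ∀ᶠ q in 𝓝 p, s q = s' q) :
    Par F p s' := by
  refine ⟨hs.1.congr h, ?_⟩
  filter_upwards [hs.2, h] with z h1 h2
  rw [← h2, ← h.self_of_nhds, h1]

theorem Par.shift {p w : C2} {s : C2 → X} (hs : Par F (p + w) s) : Par F p fun z => s (z + w) := by
  have h1 : ContinuousAt (fun z : C2 => z + w) p := by fun_prop
  refine ⟨ContinuousAt.comp (g := s) hs.1 h1, ?_⟩
  filter_upwards [h1.eventually hs.2] with z hz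
  rw [hz, add_sub_add_right_eq_sub]

theorem locSys [T2Space X] [CompactSpace X] (h : Tr F) :
    P211.HK.LocSys (X := C2) (F := fun _ => X) (Par F) := by
  choose φ hx hφ using exists_chart h
  refine ⟨fun p s hs => ?_, fun p s s' hs hs' he => ?_, fun p s s' hs hs' hf => ?_,
    fun p s s' hs he => hs.congr he, fun p => ?_⟩
  · have h1 := hs.eq (hx _) fun y hy => (hφ _ y hy).1
    have h2 : ContinuousAt (fun z : C2 => φ (s p) (s p) - p + z) p := by fun_prop
    have h3 : ∀ᶠ z in 𝓝 p, φ (s p) (s p) - p + z ∈ (φ (s p)).target := by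
      refine h2.eventually ((φ (s p)).open_target.mem_nhds ?_)
      show φ (s p) (s p) - p + p ∈ _
      rw [sub_add_cancel]
      exact (φ _).map_source (hx _)
    filter_upwards [h1.eventually_nhds, h3] with q h4 h5
    refine (par_symm (hφ (s p)) _ h5).congr ?_
    filter_upwards [h4] with z hz
    rw [hz]
    congr 1
    abel
  · have h1 := hs.eq (hx _) fun y hy => (hφ _ y hy).1
    have h2 := hs'.eq (hx _) fun y hy => (hφ _ y hy).1
    filter_upwards [h1, h2] with z h3 h4
    rw [h3, h4, he]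
  · exact tendsto_nhds_unique_of_frequently_eq hs.1.tendsto hs'.1.tendsto hf
  · have h1 : ∀ᶠ ε in 𝓝 (0 : ℝ), ∀ v ∈ (univ : Set X),
        ∃ x, v ∈ (φ x).source ∧ ball (φ x v) ε ⊆ (φ x).target := by
      refine isCompact_univ.eventually_forall_of_forall_eventually fun x _ => ?_
      obtain ⟨r, hr, hb⟩ := Metric.isOpen_iff.1 (φ x).open_target _ ((φ x).map_source (hx x))
      have h2 : ∀ᶠ v in 𝓝 x, v ∈ (φ x).source ∧ φ x v ∈ ball (φ x x) (r / 2) :=
        ((φ x).open_source.eventually_mem (hx x)).and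
          (((φ x).continuousAt (hx x)).eventually (ball_mem_nhds _ (half_pos hr)))
      filter_upwards [prod_mem_nhds (gt_mem_nhds (half_pos hr)) h2] with q hq
      refine ⟨x, hq.2.1, Subset.trans (ball_subset ?_) hb⟩
      have h3 : q.1 < r / 2 := hq.1
      have h4 : dist (φ x q.2) (φ x x) < r / 2 := hq.2.2
      linarith
    have h0 : ∀ᶠ ε in 𝓝[>] (0 : ℝ), 0 < ε := self_mem_nhdsWithin
    obtain ⟨ε, hε', h2⟩ := (h0.and (h1.filter_mono nhdsWithin_le_nhds)).exists
    refine ⟨ball p (ε / 2), ball_mem_nhds _ (half_pos hε'), fun q hq v => ?_⟩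
    obtain ⟨x, h3, h4⟩ := h2 v (mem_univ v)
    refine ⟨fun z => (φ x).symm (φ x v - q + z), ?_, fun q' hq' => par_symm (hφ x) _ (h4 ?_)⟩
    · show (φ x).symm (φ x v - q + q) = v
      rw [sub_add_cancel, (φ x).left_inv h3]
    · have h5 : φ x v - q + q' - φ x v = q' - q := by abel
      rw [mem_ball, dist_eq_norm, h5, ← dist_eq_norm]
      have h6 := dist_triangle_right q' q p
      have h7 : dist q p < ε / 2 := hq
      have h8 : dist q' p < ε / 2 := hq'
      linarith

theorem Par.range_mem (h : Tr F) {p : C2} {s : C2 → X} (hs : Par F p s) {U : Set C2}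
    (hU : U ∈ 𝓝 p) : s '' U ∈ 𝓝 (s p) := by
  obtain ⟨φ, hx, hφ⟩ := exists_chart h (s p)
  have h1 := hs.eq hx fun y hy => (hφ y hy).1
  have h2 : ContinuousAt (fun y => φ y - φ (s p) + p) (s p) :=
    ((φ.continuousAt hx).sub continuousAt_const).add continuousAt_const
  have h3 : Tendsto (fun y => φ y - φ (s p) + p) (𝓝 (s p)) (𝓝 p) := by
    have h4 := h2.tendsto
    rwa [sub_self, zero_add] at h4
  filter_upwards [h3.eventually h1, h3.eventually hU, φ.open_source.mem_nhds hx] with y h4 h5 h6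
  refine ⟨_, h5, ?_⟩
  rw [h4, add_sub_cancel_right, add_sub_cancel, φ.left_inv h6]

theorem Par.etale (h : Tr F) {p : C2} {s : C2 → X} (hs : Par F p s) : Etale s p := by
  set c := chartAt C2 (s p) with hc
  have hx : s p ∈ c.source := mem_chart_source C2 _
  set A := (fderiv ℂ (fun z => F (s p) (c.symm z)) (c (s p))).toContinuousLinearEquivOfDetNeZero
    (h.det _) with hA
  have h1 : HasFDerivAt (fun z => F (s p) (c.symm z) - F (s p) (s p) + p) (A : C2 →L[ℂ] C2)
      (c (s p)) := by
    rw [hA, ContinuousLinearMap.coe_toContinuousLinearEquivOfDetNeZero]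
    exact ((h.hol (s p)).self_of_nhds.hasFDerivAt.sub_const _).add_const _
  have h2 : HasFDerivAt (fun z => c (s z)) (A.symm : C2 →L[ℂ] C2) p := by
    refine HasFDerivAt.of_local_left_inverse (g := fun z => c (s z))
      (ContinuousAt.comp (g := c) (c.continuousAt hx) hs.1) h1 ?_
    filter_upwards [hs.2, hs.1.eventually (c.open_source.mem_nhds hx)] with z h3 h4
    rw [c.left_inv h4, h3, sub_add_cancel]
  refine ⟨hs.1, h2.differentiableAt, ?_⟩
  rw [h2.fderiv]
  exact Inv.det_ne_iff.2 A.symm.injective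

end AFF

open AFF

theorem aff : StAff := by
  intro X _ _ _ _ _ _ F j x₀ h hj hj0 hjF
  have H := locSys h
  have hex : ∀ v : X, ∃ s : C2 → X, s 0 = v ∧ ∀ q, Par F q s :=
    fun v => (H.existsUnique 0 v).exists
  have huq : ∀ {s s' : C2 → X}, (∀ q, Par F q s) → (∀ q, Par F q s') → ∀ a b, s a = s' b →
      ∀ z, s (z + a) = s' (z + b) := fun {s s'} hs hs' a b hab z =>
    H.eqOn isPreconnected_univ (s := fun z => s (z + a)) (s' := fun z => s' (z + b))
      (fun q _ => (hs _).shift) (fun q _ => (hs' _).shift) (mem_univ 0)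
      (by simpa using hab) z (mem_univ z)
  obtain ⟨u, hu0, hu⟩ := hex x₀
  have hsurj : Function.Surjective u := by
    have h1 : IsClopen (range u) := by
      refine ⟨isClosed_of_closure_subset fun v hv => ?_, isOpen_iff_mem_nhds.2 ?_⟩
      · obtain ⟨s, hs0, hs⟩ := hex v
        have h2 := (hs 0).range_mem h univ_mem
        rw [hs0] at h2
        obtain ⟨_, ⟨a, -, rfl⟩, b, hb⟩ := mem_closure_iff_nhds.1 hv _ h2
        refine ⟨-a + b, ?_⟩
        rw [huq hu hs b a hb, neg_add_cancel, hs0]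
      · rintro _ ⟨w, rfl⟩
        have h2 := (hu w).range_mem h univ_mem
        rwa [image_univ] at h2
    exact range_eq_univ.1 (h1.eq_univ (range_nonempty u))
  let L : Submodule ℤ C2 := AddSubgroup.toIntSubmodule
    { carrier := {w | u w = u 0}
      zero_mem' := rfl
      add_mem' := fun {a b} ha hb => by
        have h1 := huq hu hu b 0 hb a
        rw [add_zero] at h1
        exact h1.trans ha
      neg_mem' := fun {a} ha => by
        have h1 := huq hu hu a 0 ha (-a)
        rw [add_zero, neg_add_cancel] at h1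
        exact h1.symm }
  have hL : ∀ w, w ∈ L ↔ u w = u 0 := fun w => Iff.rfl
  have hrel : ∀ z z', u z = u z' ↔ z' - z ∈ L := by
    intro z z'
    rw [hL]
    constructor
    · intro h1
      have h2 := huq hu hu z z' h1 (-z)
      rw [neg_add_cancel, neg_add_eq_sub] at h2
      exact h2.symm
    · intro h1
      have h2 := huq hu hu _ _ h1 z
      rw [add_zero, add_sub_cancel] at h2
      exact h2.symm
  obtain ⟨R, hR⟩ : ∃ R : ℝ, ∀ z : C2, ∃ l ∈ L, ‖z - l‖ ≤ R := by
    have h1 : ∀ᶠ R in (atTop : Filter ℝ), ∀ v ∈ (univ : Set X), v ∈ u '' ball 0 R := by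
      refine isCompact_univ.induction_on (p := fun K => ∀ᶠ R in (atTop : Filter ℝ),
        ∀ v ∈ K, v ∈ u '' ball 0 R) (by simp) (fun s t hst ht => ht.mono fun R hR v hv =>
          hR v (hst hv)) (fun s t hs ht => (hs.and ht).mono fun R hR v hv =>
          hv.elim (hR.1 v) (hR.2 v)) fun x _ => ?_
      obtain ⟨w, rfl⟩ := hsurj x
      refine ⟨u '' ball 0 (‖w‖ + 1), mem_nhdsWithin_of_mem_nhds ((hu w).range_mem h
        (isOpen_ball.mem_nhds (by simp))), ?_⟩
      filter_upwards [eventually_ge_atTop (‖w‖ + 1)] with R hR v hv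
      exact image_mono (ball_subset_ball hR) hv
    obtain ⟨R, hR⟩ := h1.exists
    refine ⟨R, fun z => ?_⟩
    obtain ⟨b, hb, h2⟩ := hR (u z) (mem_univ _)
    refine ⟨z - b, (hrel _ _).1 h2, ?_⟩
    rw [sub_sub_cancel]
    exact (mem_ball_zero_iff.1 hb).le
  obtain ⟨l, hl, hlL⟩ := exists_basis L (by
    filter_upwards [(hu 0).2] with z h1 h2
    rw [(hL z).1 h2, sub_self, sub_zero] at h1
    exact h1.symm) hR
  refine ⟨l, u, ⟨hl, fun z => (hu z).etale h, hsurj, fun z z' => (hrel z z').trans (hlL _),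
    fun z => ?_⟩, hu0, fun z => (hu z).2⟩
  have h1 : ∀ q, Par F q fun z => j (u (-z)) := by
    intro q
    have h2 : ContinuousAt (fun z : C2 => -z) q := by fun_prop
    have h3 : ContinuousAt (fun z => u (-z)) q := ContinuousAt.comp (g := u) (hu _).1 h2
    refine ⟨ContinuousAt.comp (g := j) hj.continuousAt h3, ?_⟩
    filter_upwards [h3.eventually (hjF _), h2.eventually (hu _).2] with z h4 h5
    rw [h4, h5]
    abel
  have h2 := huq h1 hu 0 0 (by simp only [neg_zero, hu0, hj0]) (-z)
  simpa using h2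

end Vale.Agent.P290Z.Nk
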