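import Vale.Agent.P290Z.Nk.Cousin.B

/-! P290Z Nk, COUSIN: homogeneous coordinates near a rational curve of square `-2`. -/

set_option linter.unusedVariables false

open scoped Topology Real
open Set Filter Metric Complex

noncomputable section

namespace Vale.Agent.P290Z.Nk

open Vale.Agent.P290
open Vale.Agent.P290.All (dir)

namespace CO

theorem isOpen_Ann (δ R : ℝ) : IsOpen (Ann δ R) := by
  refine IsOpen.and (isOpen_lt ?_ ?_) (IsOpen.and (isOpen_lt ?_ ?_) (isOpen_lt ?_ ?_)) <;>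
    fun_prop

theorem diffAt_dslope {g : ℂ × ℂ → ℂ} {δ : ℝ} (hg : DifferentiableOn ℂ g (Ann δ 9)) {v : ℂ × ℂ}
    (hv : v ∈ Ann (δ / 2) 9) :
    DifferentiableAt ℂ (fun w : ℂ × ℂ => dslope (fun h => g (h, w.2)) 0 w.1) v := by
  have h0 : 0 < δ / 2 := (norm_nonneg _).trans_lt hv.1
  have h1 : DifferentiableAt ℂ (fun w : ℂ × ℂ => (2 * π * I : ℂ)⁻¹ •
      ∮ t in C(0, δ / 2), (t - w.1)⁻¹ • (t⁻¹ * (g (t, w.2) - g (0, w.2)))) v := by
    refine DifferentiableAt.const_smul (R := ℂ) ?_ _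
    refine diffAt_circle
      (G := fun p => (p.2 - p.1.1)⁻¹ • (p.2⁻¹ * (g (p.2, p.1.2) - g (0, p.1.2))))
      (O := ({p | p.2 - p.1.1 ≠ 0} ∩ {p | p.2 ≠ 0}) ∩ ((fun p => (p.2, p.1.2)) ⁻¹' Ann δ 9 ∩
        (fun p => ((0 : ℂ), p.1.2)) ⁻¹' Ann δ 9))
      (((isOpen_ne_fun (by fun_prop) continuous_const).inter
        (isOpen_ne_fun (by fun_prop) continuous_const)).inter
        (((isOpen_Ann δ 9).preimage (by fun_prop)).inter
          ((isOpen_Ann δ 9).preimage (by fun_prop)))) ?_ h0.le fun t ht => ?_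
    · simp only [smul_eq_mul]
      refine DifferentiableOn.mul (DifferentiableOn.fun_inv ?_ fun p hp => ?_)
        (DifferentiableOn.mul (DifferentiableOn.fun_inv ?_ fun p hp => ?_)
          (DifferentiableOn.sub ?_ ?_))
      · fun_prop
      · exact hp.1.1
      · fun_prop
      · exact hp.1.2
      · exact hg.comp (by fun_prop) fun p hp => hp.2.1
      · exact hg.comp (by fun_prop) fun p hp => hp.2.2
    · rw [mem_sphere_zero_iff_norm] at ht
      refine ⟨⟨fun h => ?_, fun h => ?_⟩, ⟨?_, hv.2⟩, ⟨?_, hv.2⟩⟩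
      · have : t = v.1 := sub_eq_zero.1 h
        exact hv.1.ne (this ▸ ht)
      · have : t = 0 := h
        rw [this, norm_zero] at ht
        exact h0.ne ht
      · show ‖t‖ < δ
        linarith
      · show ‖(0 : ℂ)‖ < δ
        rw [norm_zero]
        linarith
  refine h1.congr_of_eventuallyEq ?_
  filter_upwards [(isOpen_Ann (δ / 2) 9).mem_nhds hv] with w hw
  have h2 : DifferentiableOn ℂ (fun h => g (h, w.2)) (ball 0 δ) :=
    hg.comp (by fun_prop) fun p hp => ⟨by simpa using hp, hw.2⟩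
  have h3 := (((differentiableOn_dslope (ball_mem_nhds 0 (by linarith))).2 h2).mono
    (closedBall_subset_ball (by linarith : δ / 2 < δ))).circleIntegral_sub_inv_smul
      (w := w.1) (by simpa using hw.1)
  rw [circleIntegral.integral_congr h0.le (g := fun t => (t - w.1)⁻¹ •
    dslope (fun h => g (h, w.2)) 0 t) fun t ht => ?_, h3, smul_smul,
    inv_mul_cancel₀ two_pi_I_ne_zero, one_smul]
  have : t ≠ 0 := fun h => by
    rw [h, mem_sphere_zero_iff_norm, norm_zero] at ht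
    exact h0.ne ht
  simp only [dslope_of_ne _ this, slope_def_module, sub_zero, smul_eq_mul]

variable {δ : ℝ} {T : Bool → ℂ × ℂ → ℂ × ℂ}

/-- the quotient of the first coordinates -/
def Q (T : Bool → ℂ × ℂ → ℂ × ℂ) (b : Bool) (v : ℂ × ℂ) : ℂ :=
  dslope (fun h => (T b (h, v.2)).1) 0 v.1

/-- its square root -/
def be (T : Bool → ℂ × ℂ → ℂ × ℂ) (b : Bool) (v : ℂ × ℂ) : ℂ :=
  v.2 * (Q T b v * (v.2 ^ 2)⁻¹) ^ (2⁻¹ : ℂ)

theorem be_sq (b : Bool) {v : ℂ × ℂ} (hv : v.2 ≠ 0) : be T b v ^ 2 = Q T b v := by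
  rw [be, mul_pow, cpow_ofNat_inv_pow]
  field_simp

theorem fst_eq (h : TD δ T) (b : Bool) {v : ℂ × ℂ} (h1 : 9⁻¹ < ‖v.2‖) (h2 : ‖v.2‖ < 9) :
    (T b v).1 = v.1 * be T b v ^ 2 := by
  have := sub_smul_dslope (fun h => (T b (h, v.2)).1) 0 v.1
  simp only [h.zero b v.2 h1 h2, sub_zero, smul_eq_mul] at this
  rw [be_sq b (norm_pos_iff.1 (lt_trans (by norm_num) h1)), Q, this]

theorem Q_zero (h : TD δ T) (b : Bool) {u : ℂ} (h1 : 9⁻¹ < ‖u‖) (h2 : ‖u‖ < 9) :
    Q T b (0, u) * (u ^ 2)⁻¹ = 1 := by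
  have h0 : u ≠ 0 := norm_pos_iff.1 (lt_trans (by norm_num) h1)
  rw [Q, dslope_same, (h.der b u h1 h2).deriv]
  field_simp

theorem be_zero (h : TD δ T) (b : Bool) {u : ℂ} (h1 : 9⁻¹ < ‖u‖) (h2 : ‖u‖ < 9) :
    be T b (0, u) = u := by
  rw [be, Q_zero h b h1 h2, one_cpow, mul_one]

theorem be_diff (hδ : 0 < δ) (h : TD δ T) (b : Bool) {u : ℂ} (h1 : 9⁻¹ < ‖u‖) (h2 : ‖u‖ < 9) :
    ∀ᶠ v in 𝓝 ((0 : ℂ), u), DifferentiableAt ℂ (be T b) v := by
  have hm : ((0 : ℂ), u) ∈ Ann (δ / 2) 9 := ⟨by simpa using hδ, h1, h2⟩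
  have hd : ∀ v ∈ Ann (δ / 2) 9, DifferentiableAt ℂ (fun w => Q T b w * (w.2 ^ 2)⁻¹) v :=
    fun v hv => (diffAt_dslope (g := fun w => (T b w).1) (h.hol b).fst hv).mul
      (DifferentiableAt.inv (by fun_prop)
        (pow_ne_zero 2 (norm_pos_iff.1 (lt_trans (by norm_num) hv.2.1))))
  have hs := (hd _ hm).continuousAt.eventually_mem (isOpen_slitPlane.mem_nhds
    (by simp only [Q_zero h b h1 h2]; exact one_mem_slitPlane))
  filter_upwards [(isOpen_Ann _ _).mem_nhds hm, hs] with v hv hv'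
  exact differentiableAt_snd.mul ((hd v hv).cpow_const hv')

theorem diff_dir (b : Bool) : Differentiable ℂ (dir b) := by
  cases b
  · show Differentiable ℂ fun u : ℂ => (u, (1 : ℂ))
    fun_prop
  · show Differentiable ℂ fun u : ℂ => ((1 : ℂ), u)
    fun_prop

theorem unif {P : ℂ × ℂ → Prop} {a c : ℝ}
    (h : ∀ u : ℂ, a ≤ ‖u‖ → ‖u‖ ≤ c → ∀ᶠ v in 𝓝 ((0 : ℂ), u), P v) :
    ∃ r > (0 : ℝ), ∀ v : ℂ × ℂ, ‖v.1‖ < r → a ≤ ‖v.2‖ → ‖v.2‖ ≤ c → P v := by
  have hK : IsCompact (closedBall (0 : ℂ) c \ ball 0 a) := (isCompact_closedBall _ _).diff isOpen_ball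
  obtain ⟨r, hr, H⟩ := Metric.eventually_nhds_iff.1
    (hK.eventually_forall_of_forall_eventually (x₀ := (0 : ℂ)) (P := fun x y => P (x, y))
      fun u hu => h u (by simpa using hu.2) (by simpa using hu.1))
  exact ⟨r, hr, fun v h1 h2 h3 => H (by simpa using h1) v.2 ⟨by simpa using h3, by simpa using h2⟩⟩

/-- the first error -/
def e0 (T : Bool → ℂ × ℂ → ℂ × ℂ) (b : Bool) (v : ℂ × ℂ) : ℂ × ℂ :=
  cond b (dir true v.2 - be T true v • dir false (T true v).2) 0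

theorem e0_zero (h : TD δ T) (b : Bool) {u : ℂ} (h1 : 9⁻¹ < ‖u‖) (h2 : ‖u‖ < 9) :
    e0 T b (0, u) = 0 := by
  have h0 : u ≠ 0 := norm_pos_iff.1 (lt_trans (by norm_num) h1)
  cases b
  · rfl
  · simp [e0, be_zero h true h1 h2, h.zero true u h1 h2, dir, h0]

theorem e0_diff (b : Bool) {v : ℂ × ℂ} (h1 : DifferentiableAt ℂ (be T b) v)
    (h2 : DifferentiableAt ℂ (T b) v) : DifferentiableAt ℂ (e0 T b) v := by
  cases b
  · exact differentiableAt_const _
  · exact ((diff_dir true _).comp v differentiableAt_snd).sub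
      (h1.smul ((diff_dir false _).comp v h2.snd))

theorem good (hδ : 0 < δ) (h : TD δ T) : ∃ η > (0 : ℝ), ∀ b,
    Pt η (fun v => be T b v * (T b v).2) (fun v => ((T b v).1 * (T b v).2 ^ 2, (T b v).2⁻¹)) ∧
      Cls (Om η) 1 (e0 T b) := by
  have key : ∀ b, ∀ u : ℂ, 8⁻¹ ≤ ‖u‖ → ‖u‖ ≤ 2 → ∀ᶠ v in 𝓝 ((0 : ℂ), u),
      DifferentiableAt ℂ (be T b) v ∧ DifferentiableAt ℂ (T b) v ∧ (T b v).2 ≠ 0 ∧
      ‖be T b v * (T b v).2 - 1‖ ≤ 1 / 4000 ∧ ‖(T b v).2⁻¹ - v.2‖ ≤ 1 / 4000 ∧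
      ‖e0 T b v‖ ≤ 1 := by
    intro b u a c
    have h1 : 9⁻¹ < ‖u‖ := lt_of_lt_of_le (by norm_num) a
    have h2 : ‖u‖ < 9 := by linarith
    have h0 : u ≠ 0 := norm_pos_iff.1 (lt_trans (by norm_num) h1)
    have hm : ((0 : ℂ), u) ∈ Ann δ 9 := ⟨by simpa using hδ, h1, h2⟩
    have d1 := be_diff hδ h b h1 h2
    have d2 : ∀ᶠ v in 𝓝 ((0 : ℂ), u), DifferentiableAt ℂ (T b) v :=
      (h.hol b).eventually_differentiableAt ((isOpen_Ann _ _).mem_nhds hm)
    have c1 := d1.self_of_nhds.continuousAt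
    have c2 := d2.self_of_nhds.continuousAt.snd
    have n2 : (T b (0, u)).2 ≠ 0 := by simpa [h.zero b u h1 h2] using h0
    refine d1.and (d2.and ((c2.eventually_ne n2).and (Eventually.and ?_ (Eventually.and ?_ ?_))))
    · refine ((c1.mul c2).sub continuousAt_const).norm.eventually_le_const ?_
      simp [be_zero h b h1 h2, h.zero b u h1 h2, h0]
    · refine ((c2.inv₀ n2).sub continuousAt_snd).norm.eventually_le_const ?_
      simp [h.zero b u h1 h2]
    · refine (e0_diff b d1.self_of_nhds d2.self_of_nhds).continuousAt.norm.eventually_le_const ?_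
      simp [e0_zero h b h1 h2]
  obtain ⟨r, hr, H⟩ := unif fun u a c => eventually_all.2 fun b => key b u a c
  have H' : ∀ v ∈ Om (r / 64), ∀ b, _ := fun v hv => H v (by
    obtain ⟨h1, h2, h3⟩ := hv
    have : 1 / 64 ≤ ‖v.2‖ ^ 2 := by nlinarith
    nlinarith [norm_nonneg v.1]) hv.1.le hv.2.1.le
  have b1 : ∀ v ∈ Om (r / 64), 9⁻¹ < ‖v.2‖ := fun v hv => lt_trans (by norm_num) hv.1
  have b2 : ∀ v ∈ Om (r / 64), ‖v.2‖ < 9 := fun v hv => lt_trans hv.2.1 (by norm_num)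
  refine ⟨r / 64, by positivity, fun b => ⟨⟨fun v hv => ?_, fun v hv => ?_,
    fun v hv => (H' v hv b).2.2.2.1, fun v hv => ?_, fun v hv => (H' v hv b).2.2.2.2.1⟩,
    fun v hv => (e0_diff b (H' v hv b).1 (H' v hv b).2.1).differentiableWithinAt,
    fun v hv => (H' v hv b).2.2.2.2.2, fun v hv h0 => ?_⟩⟩
  · exact ((H' v hv b).1.mul (H' v hv b).2.1.snd).differentiableWithinAt
  · have := (H' v hv b).2.1
    exact ((this.fst.mul (this.snd.pow 2)).prodMk
      (this.snd.inv (H' v hv b).2.2.1)).differentiableWithinAt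
  · simp only [fst_eq h b (b1 v hv) (b2 v hv)]
    ring
  · have : v = (0, v.2) := Prod.ext h0 rfl
    rw [this]
    exact e0_zero h b (b1 v hv) (b2 v hv)

end CO

open CO in
theorem cousin : StCousin := by
  intro δ T hδ h
  obtain ⟨η, hη, H⟩ := good hδ h
  obtain ⟨S, hS, hS0, hS1⟩ := solve (fun b => (H b).1) fun b => (H b).2
  have key : ∀ u : ℂ, 4 / 5 ≤ ‖u‖ → ‖u‖ ≤ 5 / 4 → ∀ᶠ v in 𝓝 ((0 : ℂ), u),
      v ∈ Wd η ∩ CO.Om η ∩ Ann δ 9 ∧ T true v ∈ Wd η ∩ CO.Om η ∩ Ann δ 9 ∩ {w | 1 / 4 < ‖w.2‖} ∧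
        ‖be T true v * be T false (T true v) - 1‖ < 1 := by
    have hO : IsOpen (Wd η ∩ CO.Om η ∩ Ann δ 9) :=
      ((isOpen_Wd η).inter (isOpen_Om η)).inter (isOpen_Ann δ 9)
    have hm : ∀ u : ℂ, 4 / 5 ≤ ‖u‖ → ‖u‖ ≤ 5 / 4 → ((0 : ℂ), u) ∈ Wd η ∩ CO.Om η ∩ Ann δ 9 := by
      intro u a c
      refine ⟨⟨⟨by simpa using hη, ?_⟩, ?_, ?_, by simpa using hη⟩, by simpa using hδ, ?_, ?_⟩ <;>
        · show _ < _
          simp only
          linarith
    intro u a c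
    have h0 : 0 < ‖u‖ := by linarith
    have a' : 4 / 5 ≤ ‖u⁻¹‖ := by
      rw [norm_inv]
      exact le_inv_of_le_inv₀ h0 (by linarith)
    have c' : ‖u⁻¹‖ ≤ 5 / 4 := by
      rw [norm_inv]
      exact inv_le_of_inv_le₀ (by norm_num) (by linarith)
    have m := (hm u a c).2
    have m' := (hm _ a' c').2
    have e := h.zero true u m.2.1 m.2.2
    have c2 := ((h.hol true).differentiableAt ((isOpen_Ann _ _).mem_nhds m)).continuousAt
    have c1 := (be_diff hδ h true m.2.1 m.2.2).self_of_nhds.continuousAt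
    have c3 := (be_diff hδ h false m'.2.1 m'.2.2).self_of_nhds.continuousAt
    refine Eventually.and (hO.mem_nhds (hm u a c)) (Eventually.and (c2.eventually_mem
      ((hO.inter (isOpen_lt continuous_const (by fun_prop))).mem_nhds ?_)) ?_)
    · rw [e]
      exact ⟨hm _ a' c', lt_of_lt_of_le (by norm_num) a'⟩
    · refine ((c1.mul (c3.comp_of_eq c2 e)).sub continuousAt_const).norm.eventually_lt_const ?_
      simp [e, be_zero h true m.2.1 m.2.2, be_zero h false m'.2.1 m'.2.2, norm_pos_iff.1 h0]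
  obtain ⟨r, hr, R⟩ := unif key
  have sub : Box (min r (min (η / 4) δ)) (5 / 4) ⊆ Wd η := fun v hv =>
    ⟨hv.1.trans_le ((min_le_right _ _).trans (min_le_left _ _)), hv.2.trans (by norm_num)⟩
  refine ⟨min r (min (η / 4) δ), by positivity, (min_le_right _ _).trans (min_le_right _ _),
    fun b v => dir b v.2 - S b v, fun b => ?_, fun b u hu => ?_, fun v hv => ?_⟩
  · exact ((diff_dir b).comp differentiable_snd).differentiableOn.sub ((hS b).mono sub)
  · rw [hS0 b (0, u) (sub ⟨by simp only [norm_zero]; positivity, hu⟩) rfl, sub_zero]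
  · have a : 4 / 5 ≤ ‖v.2‖ := le_trans (by norm_num) hv.2.1.le
    obtain ⟨⟨⟨v1, v2⟩, v3⟩, ⟨⟨⟨w1, w2⟩, w3⟩, w4⟩, hx⟩ :=
      R v (hv.1.trans_le (min_le_left _ _)) a hv.2.2.le
    have hi : T false (T true v) = v := h.inv true v v3 w3
    have f1 := fst_eq h true v3.2.1 v3.2.2
    have f2 := fst_eq h false w3.2.1 w3.2.2
    have one : be T true v * be T false (T true v) = 1 := by
      by_cases h0 : v.1 = 0
      · have e : v = (0, v.2) := Prod.ext h0 rfl
        have e' := h.zero true v.2 v3.2.1 v3.2.2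
        rw [← e] at e'
        rw [e'] at w3
        rw [e', be_zero h false w3.2.1 w3.2.2, e, be_zero h true v3.2.1 v3.2.2]
        exact mul_inv_cancel₀ (norm_pos_iff.1 (by linarith))
      · rw [hi, f1] at f2
        have : (be T true v * be T false (T true v)) ^ 2 = 1 :=
          mul_left_cancel₀ h0 (by linear_combination -f2)
        rcases sq_eq_one_iff.1 this with h1 | h1
        · exact h1
        · rw [h1] at hx
          norm_num at hx
    refine ⟨be T true v, left_ne_zero_of_mul_eq_one one, f1, ?_⟩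
    have := hS1 v (T true v) (be T true v) v1 w1 v2 w2 (by linarith) w4 rfl (by simp only [hi]) rfl
      (by rw [← mul_assoc, one, hi, one_mul])
    simp only [e0, cond_true, cond_false, smul_zero, sub_zero] at this
    rw [smul_sub]
    linear_combination (exp := 1) this

end Vale.Agent.P290Z.Nk
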