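import Vale.Agent.P290Z.Nk.Cover.Sp

/-!
# P290Z, COVER: the double cover branched along an even set of curves
-/

open scoped Manifold ContDiff Topology
open Set Filter Metric

noncomputable section

namespace Vale.Agent.P290Z.Nk

open Vale.Agent.P290 Vale.Agent.P267
open Vale.Agent.P290.All (Etale dir)

namespace Cv

variable {Y : W.K3} {n : ℕ} {K : Nik Y n} (A : Nbhd K)

theorem ev_punct {v : C2} (hv : v ∈ ball (0 : C2) 10) (h : v ≠ 0) :
    ∀ᶠ u in 𝓝 v, u ∈ ball (0 : C2) 10 ∧ u ≠ 0 :=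
  (isOpen_ball.eventually_mem hv).and (eventually_ne_nhds h)

theorem exists_c (i : Fin n) :
    ∃ c ≠ 0, DifferentiableAt ℂ (Function.update (Jc Y (A.ν i 1)) 0 c) 0 := by
  refine hart ?_
  filter_upwards [self_mem_nhdsWithin, mem_nhdsWithin_of_mem_nhds ball_mem] with v a1 a2
  exact ⟨Jc_diff ((ev_punct a2 a1).mono fun u a => (rg_nu A i a.1 a.2).et),
    Jc_ne (rg_nu A i a2 a1).et⟩

/-- the coefficient of the two-form at the fixed points -/
def cc (z : Zc A) : ℂ := Function.extend (qZ A) (fun i => (exists_c A i).choose) 0 z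

theorem cc_q (i : Fin n) : cc A (qZ A i) = (exists_c A i).choose :=
  Function.Injective.extend_apply (f := qZ A) qq_inj _ _ i

open Classical in
/-- the two-form -/
def volZ (e : OpenPartialHomeomorph (Zc A) C2) (v : C2) : ℂ :=
  if wZ (e.symm v) = 0 then cc A (e.symm v) else Jc Y (fun u => pZ (e.symm u)) v

variable {A}

theorem vol_eq {z : Zc A} {v : C2} (hv : v ∈ (pat A z).U) (h : (pat A z).F v ≠ 0) :
    volZ A ((pa A).chart z) v = Jc Y (pat A z).P v :=
  (if_neg fun e => h ((w_gS z hv).symm.trans e)).trans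
    (Jc_congr (((pat A z).open_U.eventually_mem hv).mono fun _ hu => p_gS z hu))

theorem vol_q (i : Fin n) : volZ A ((pa A).chart (qZ A i)) =ᶠ[𝓝 0]
    Function.update (Jc Y (A.ν i 1)) 0 (exists_c A i).choose := by
  filter_upwards [ball_mem] with v hv
  by_cases h : v = 0
  · have h1 : ((pa A).chart (qZ A i)).symm 0 = qZ A i := gS_q i
    rw [h, Function.update_self, volZ, h1, if_pos (w_qZ i), cc_q]
  · rw [Function.update_of_ne h]
    exact (if_neg (w_q_ne i hv h)).trans
      (Jc_congr ((ev_punct hv h).mono fun u a => p_q i a.1 a.2))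

theorem special {z : Zc A} {v : C2} (hv : v ∈ (pat A z).U) (h : (pat A z).F v = 0) :
    (∃ i, qZ A i = z) ∧ v = 0 ∧ (pa A).gS z v = z := by
  have h1 := (pat A z).eq_b hv h
  obtain ⟨i, rfl⟩ := w_zero.1 (by rw [← F_b, ← h1, h] : wZ z = 0)
  exact ⟨⟨i, rfl⟩, h1.trans (b_q i), by rw [h1, gS_b]⟩

theorem vol_hol {z : Zc A} {v : C2} (hv : v ∈ (pat A z).U) :
    DifferentiableAt ℂ (volZ A ((pa A).chart z)) v ∧ volZ A ((pa A).chart z) v ≠ 0 := by
  by_cases h : (pat A z).F v = 0
  · obtain ⟨⟨i, rfl⟩, rfl, -⟩ := special hv h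
    refine ⟨(exists_c A i).choose_spec.2.congr_of_eventuallyEq (vol_q i), ?_⟩
    rw [(vol_q i).self_of_nhds, Function.update_self]
    exact (exists_c A i).choose_spec.1
  · have h1 := (pat A z).ev_reg hv h
    refine ⟨(Jc_diff (h1.mono fun _ a => a.2.et)).congr_of_eventuallyEq
      (h1.mono fun _ a => vol_eq a.1 a.2.ne), ?_⟩
    rw [vol_eq hv h]
    exact Jc_ne h1.self_of_nhds.2.et

theorem vol_trans {z z' : Zc A} {v : C2} (hv : v ∈ (pat A z).U)
    (hs : (pa A).gS z v ∈ ((pa A).chart z').source) :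
    volZ A ((pa A).chart z) v = volZ A ((pa A).chart z') ((pa A).chart z' ((pa A).gS z v)) *
      (fderiv ℂ (fun u => (pa A).chart z' ((pa A).gS z u)) v).det := by
  have key : ∀ x ∈ ((pa A).chart z').source, (pa A).chart z' x ∈ (pat A z').U ∧
      (pa A).gS z' ((pa A).chart z' x) = x := fun x hx =>
    ⟨((pa A).chart z').map_source hx, ((pa A).chart z').left_inv hx⟩
  have h1 : (pat A z').F ((pa A).chart z' ((pa A).gS z v)) = (pat A z).F v := by
    rw [← w_gS z' (key _ hs).1, (key _ hs).2, w_gS z hv]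
  by_cases h : (pat A z).F v = 0
  · have h2 : z' = z := by
      rw [← (special (key _ hs).1 (h1.trans h)).2.2, (key _ hs).2, (special hv h).2.2]
    subst h2
    rw [(pa A).chart_gS z' hv, det_id (((pat A z').open_U.eventually_mem hv).mono fun u hu =>
      (pa A).chart_gS z' hu), mul_one]
  · have h2 := h1.trans_ne h
    rw [vol_eq hv h, vol_eq (key _ hs).1 h2, ← Jc_comp
      (φ := fun u => (pa A).chart z' ((pa A).gS z u))
      ((pat A z').ev_reg (key _ hs).1 h2).self_of_nhds.2.et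
      ((pa A).trans_chart z z' hv hs).self_of_nhds]
    refine Jc_congr ?_
    filter_upwards [(pat A z).open_U.mem_nhds hv, ((pa A).continuousAt_gS z hv).eventually
      (((pa A).chart z').open_source.mem_nhds hs)] with u a1 a2
    rw [← p_gS z' (key _ a2).1, (key _ a2).2, p_gS z a1]

variable (A) in
/-- the double cover with its two-form -/
def vs (i : Fin n) : VS where
  X := Zc A
  manifold := inferInstance
  t2 := t2Z
  compact := dbl.compact
  conn := dbl.connected (j_qZ i)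
  vol := volZ A
  holo := by
    rintro _ ⟨z, rfl⟩
    refine ⟨fun v hv => (vol_hol hv).1.differentiableWithinAt, fun v hv => ⟨(vol_hol hv).2, ?_⟩⟩
    rintro _ ⟨z', rfl⟩ hs
    exact vol_trans hv hs

theorem chart_p {z : Zc A} (h : wZ z ≠ 0) :
    ∀ᶠ z' in 𝓝 z, (pa A).chart z z' = chartAt C2 (pZ z) (pZ z') := by
  obtain ⟨h1, h2, -⟩ := (pat A z).off h
  filter_upwards [chart_source_mem_nhds C2 z]
  rintro _ ⟨v, hv, rfl⟩
  rw [(pa A).chart_gS z hv, p_gS z hv, h1]
  exact ((chartAt C2 (pZ z)).right_inv (h2 hv)).symm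

theorem om_p {z : Zc A} (h : wZ z ≠ 0) :
    volZ A ((pa A).chart z) ((pa A).chart z z) = W.H445.Om Y (pZ z) := by
  obtain ⟨h1, h2, h3⟩ := (pat A z).off h
  rw [(pa A).chart_self, show (pa A).b z = (pat A z).b from rfl,
    vol_eq (pat A z).b_mem (by rwa [F_b]), h1, Jc_symm (h2 (pat A z).b_mem), h3]
  rfl

theorem j_fix (z : Zc A) : jZ z = z ↔ z ∈ range (qZ A) := by
  refine ⟨fun h => w_zero.1 ?_, fun ⟨i, e⟩ => e ▸ j_qZ i⟩
  have h1 : -wZ z = wZ z := congrArg wZ h
  rw [neg_eq_iff_add_eq_zero, ← two_smul ℂ] at h1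
  exact (smul_eq_zero.1 h1).resolve_left two_ne_zero

end Cv

open Cv

/-- **COVER** -/
theorem cover : StCover := fun _ _ _ A hn =>
  have hw : ∀ z : Zc A, z ∉ range (qZ A) → wZ z ≠ 0 := fun _ h => mt w_zero.1 h
  ⟨{ Z := vs A ⟨0, hn⟩
     p := pZ
     j := ⟨⟨jZ, jZ, j_jZ, j_jZ⟩, j_cont, j_cont⟩
     q := qZ A
     w := wZ
     q_inj := qq_inj
     j_j := j_jZ
     j_fix := j_fix (A := A)
     p_j := fun _ _ => rfl
     fib := fun _ _ _ _ => fibZ
     off := fun z h => mt (sqZ z).zero_iff.2 (hw z h)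
     surj := fun _ h => (surjZ h).imp fun _ a => ⟨mt w_zero.2 a.1, a.2⟩
     p_cont := fun z h => p_cont (hw z h)
     chart_p := fun z h => chart_p (hw z h)
     om_p := fun z h => om_p (hw z h)
     target_q := U_q
     chart_q := fun i => ((pa A).chart_self _).trans (b_q i)
     off_q := fun i _ hv h => mt w_zero.2 (w_q_ne i hv h)
     p_q := fun i _ => p_q i
     w_q := fun i _ => w_q i
     j_q := fun i _ => j_q i
     w_sq := fun z _ => sqZ z
     w_j := fun _ _ => rfl
     w_cont := fun _ _ => w_cont.continuousAt }⟩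

end Vale.Agent.P290Z.Nk
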