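import Vale.Agent.P290Z.Nk.Lift
import Vale.Agent.P290Z.Nk.Basic

/-!
# P290Z, part III: the standard neighbourhoods as charts
-/

set_option linter.unusedVariables false

open scoped Manifold ContDiff Topology
open Set Filter Metric

noncomputable section

namespace Vale.Agent.P290Z.Nk

open Vale.Agent.P290 Vale.Agent.P267
open Vale.Agent.P290.All (Etale dir Hol)
open Vale.Agent.P290.H445 (φ toFL)

namespace LF

theorem cancel {a b : C2 → ℂ} {w : C2} (ha : ContinuousAt a w) (hb : ContinuousAt b w)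
    (h : ∀ᶠ v in 𝓝 w, v.1 * a v = v.1 * b v) : a w = b w := by
  have c : ContinuousAt (fun x : ℂ => (x, w.2)) w.1 := by fun_prop
  exact (quo_eq (g := fun x => x * a (x, w.2)) (ContinuousAt.comp (g := a) ha c)
    (Eventually.of_forall fun _ => rfl)).symm.trans
      (quo_eq (ContinuousAt.comp (g := b) hb c) (c.eventually h))

variable {Y : W.K3} {n : ℕ} {K : Nik Y n}

theorem ana {V : Type} [NormedAddCommGroup V] [NormedSpace ℂ V] [CompleteSpace V] {g : Y.X → V}
    {c : FL.Ch Y.X} (hc : c ∈ atlas FL.C2 Y.X) {z : FL.C2} (hz : z ∈ c.target)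
    (hg : ∀ᶠ y in 𝓝 (c.symm z),
      DifferentiableAt ℂ (fun w => g ((chartAt C2 y).symm w)) (chartAt C2 y y)) :
    AnalyticAt ℂ (fun w => g (c.symm w)) z := by
  obtain ⟨U, hU, hUo, hx⟩ := _root_.eventually_nhds_iff.1 hg
  refine P268.analyticAt_of_differentiableOn (c.isOpen_inter_preimage_symm hUo)
    (fun v hv => DifferentiableAt.differentiableWithinAt ?_) ⟨hz, hx⟩
  have h1 := FL.trans_differentiableAt hc (chart_mem_atlas FL.C2 (c.symm v)) (c.map_target hv.1)
    (mem_chart_source FL.C2 _)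
  rw [c.right_inv hv.1] at h1
  refine (DifferentiableAt.comp (g := fun w => g ((chartAt C2 (c.symm v)).symm w))
    (f := fun w => φ.symm (chartAt FL.C2 (c.symm v) (c.symm w))) v (hU _ hv.2)
    (φ.symm.differentiableAt.comp v h1)).congr_of_eventuallyEq ?_
  filter_upwards [(c.continuousAt_symm hv.1).eventually (chart_source_mem_nhds C2 (c.symm v))]
    with w hw
  exact congrArg g ((chartAt C2 (c.symm v)).left_inv hw).symm

theorem off (A : Nbhd K) (i : Fin n) (h : ℂ) (d : C2) (hd : SD 100 h d) (h0 : h ≠ 0) :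
    A.ν i h d ∉ K.br := by
  rintro ⟨j, b, u, e⟩
  have h1 : SD 100 0 (dir b u) := ⟨dir_ne b u, by simp⟩
  rw [← (A.std j).zero] at e
  obtain rfl := A.sep j i _ _ _ _ h1 hd e
  obtain ⟨t, -, -, h2⟩ := (A.std j).inj _ _ _ _ hd h1 e.symm
  exact h0 (by simpa using h2)

/-- `E` is a holomorphic multiple of a holomorphic frame -/
theorem coef (A : Nbhd K) (i : Fin n) (b : Bool) {p : C2} (hp : p ∈ Dm 100 b) :
    ∃ (U : Set Y.X) (e : Y.X → EuclideanSpace ℂ K.ι) (κ : C2 → ℂ), H821.HolFrame K.L K.a U e ∧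
      ∀ᶠ w in 𝓝 p, A.ν i w.1 (dir b w.2) ∈ U ∧ DifferentiableAt ℂ κ w ∧
        A.E i w.1 (dir b w.2) = κ w • e (A.ν i w.1 (dir b w.2)) := by
  have hn := near (A.std i) (off A i) hp
  obtain ⟨U, e, κ, he, h⟩ := loc K hn
  have hD := (isOpen_Dm 100 b).mem_nhds hp
  have c0 := cont_dir b
  have c1 : ∀ᶠ w in 𝓝 p, ContinuousAt (fun w : C2 => A.E i w.1 (dir b w.2)) w := by
    filter_upwards [hD] with w hw
    exact ContinuousAt.comp (f := fun w : C2 => (w.1, dir b w.2)) ((A.lift i).cont _ _ hw)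
      (by fun_prop)
  have c2 : ∀ᶠ w in 𝓝 p, ContinuousAt (fun w : C2 => κ w • e (A.ν i w.1 (dir b w.2))) w := by
    filter_upwards [h, hn] with w a1 a2
    exact a1.2.1.continuousAt.smul (ContinuousAt.comp (g := e) (frame_cont he a1.1) a2.1.1)
  have h1 : ∀ᶠ w in 𝓝 p, ∀ j k, (κ w • e (A.ν i w.1 (dir b w.2))) j *
      (κ w • e (A.ν i w.1 (dir b w.2))) k = A.E i w.1 (dir b w.2) j * A.E i w.1 (dir b w.2) k := by
    filter_upwards [c1, c2, h.eventually_nhds, eventually_mem_nhds_iff.2 hD] with w a1 a2 a3 a4 j k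
    refine cancel (((cont_co j).continuousAt.comp a2).mul ((cont_co k).continuousAt.comp a2))
      (((cont_co j).continuousAt.comp a1).mul ((cont_co k).continuousAt.comp a1)) ?_
    filter_upwards [a3, a4] with v b1 b2
    exact (b1.2.2.2 j k).symm.trans ((A.lift i).sq _ _ b2 j k)
  have h0 := smul_ne_zero h.self_of_nhds.2.2.1 (he.ne _ h.self_of_nhds.1)
  rcases pm h1.self_of_nhds with e1 | e1
  · refine ⟨U, e, κ, he, ?_⟩
    filter_upwards [h, sign_loc c2.self_of_nhds c1.self_of_nhds h1 h0 e1] with w a1 a2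
    exact ⟨a1.1, a1.2.1, a2⟩
  · refine ⟨U, e, fun w => -κ w, he, ?_⟩
    filter_upwards [h, sign_loc c2.self_of_nhds.neg c1.self_of_nhds (h1.mono fun w hw j k => by
      rw [← hw, Pi.neg_apply, PiLp.neg_apply, PiLp.neg_apply, neg_mul_neg]) (neg_ne_zero.2 h0) e1]
      with w a1 a2
    exact ⟨a1.1, a1.2.1.neg, by rw [a2, neg_smul, Pi.neg_apply]⟩

end LF

open LF

theorem frame : StFrame := by
  intro Y n K A i b
  obtain ⟨e, e1, e2, e3, e4⟩ := exists_inv (f := fun w : C2 => A.ν i w.1 (dir b w.2))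
    (isOpen_Dm 100 b) ((A.std i).etale b) fun w hw w' hw' h => by
      obtain ⟨t, -, h1, h2⟩ := (A.std i).inj _ _ _ _ hw hw' h
      have h3 : t = 1 := by cases b <;> simp [dir] at h1 <;> simp [h1]
      rw [h3, one_smul] at h1
      rw [h3, one_pow, mul_one] at h2
      exact Prod.ext h2 (by rw [← STD.ct_dir b w.2, ← h1, STD.ct_dir])
  have key : ∀ x ∈ e.source, ∃ (U : Set Y.X) (f : Y.X → EuclideanSpace ℂ K.ι) (g : Y.X → ℂ),
      H821.HolFrame K.L K.a U f ∧ ∀ᶠ y in 𝓝 x, y ∈ U ∧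
        DifferentiableAt ℂ (fun w => g ((chartAt C2 y).symm w)) (chartAt C2 y y) ∧
        A.E i (e y).1 (dir b (e y).2) = g y • f y := fun x hx => by
    obtain ⟨U, f, κ, hf, h⟩ := coef A i b (e1 ▸ e.map_source hx)
    refine ⟨U, f, fun y => κ (e y), hf, ?_⟩
    filter_upwards [(e.continuousAt hx).eventually h, e.open_source.mem_nhds hx] with y a1 a2
    rw [← e3, e.left_inv a2] at a1
    refine ⟨a1.1, DifferentiableAt.comp (g := κ) _ ?_ (e4 y a2), a1.2.2⟩
    rw [(chartAt C2 y).left_inv (mem_chart_source C2 y)]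
    exact a1.2.1
  refine ⟨toFL e, OpenPartialHomeomorph.mem_maximalAtlas_of_contMDiffOn _ (fun x hx => ?_)
    fun v hv => ?_, congrArg (φ.symm ⁻¹' ·) e1, fun v _ => e3 _, e.open_source,
    fun c hc z hz hx => ?_, fun x hx => ?_, fun x hx => (A.lift i).ne _ _ ?_, fun x hx => ?_⟩
  · refine (contMDiffAt_iff.2 ⟨(toFL e).continuousAt hx, ?_⟩).contMDiffWithinAt
    simp only [mfld_simps]
    refine (ana (g := toFL e) (chart_mem_atlas FL.C2 x) (mem_chart_target FL.C2 x) ?_).contDiffAt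
    rw [(chartAt FL.C2 x).left_inv (mem_chart_source FL.C2 x)]
    filter_upwards [e.open_source.mem_nhds hx] with y hy
    exact φ.differentiableAt.comp _ (e4 y hy)
  · have h0 := (toFL e).continuousAt_symm hv
    refine (contMDiffAt_iff.2 ⟨h0, ?_⟩).contMDiffWithinAt
    simp only [mfld_simps]
    refine (P268.analyticAt_of_differentiableOn ((toFL e).isOpen_inter_preimage_symm
      (chartAt C2 ((toFL e).symm v)).open_source) (fun w hw => ?_)
      ⟨hv, mem_chart_source C2 _⟩).contDiffAt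
    have h1 := Inv.md_chart (Inv.etale_md ((A.std i).etale b (φ.symm w) (e1 ▸ hw.1 : _ ∈ Dm 100 b)))
      (x := (toFL e).symm v) (e3 _ ▸ hw.2)
    simp only [← e3] at h1
    exact (φ.differentiableAt.comp w (h1.comp w φ.symm.differentiableAt)).differentiableWithinAt
  · obtain ⟨U, f, g, hf, h⟩ := key _ hx
    refine ((((ana hc hz (h.mono fun y hy => hy.2.1)).contDiffAt (n := ∞)).restrict_scalars ℝ).smul
      (hf.reg c hc z hz h.self_of_nhds.1)).congr_of_eventuallyEq ?_
    exact ((c.continuousAt_symm hz).eventually h).mono fun w hw => hw.2.2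
  · obtain ⟨U, f, g, hf, h⟩ := key _ hx
    change FL.LB.act _ (A.E i (e x).1 (dir b (e x).2)) = A.E i (e x).1 (dir b (e x).2)
    rw [h.self_of_nhds.2.2, H821.act_smul, hf.sec _ h.self_of_nhds.1]
  · exact (e1 ▸ e.map_source hx : _ ∈ Dm 100 b)
  · obtain ⟨U, f, g, hf, h⟩ := key _ hx
    have h0 := (chartAt FL.C2 x).left_inv (mem_chart_source FL.C2 x)
    have h1 : DifferentiableAt ℂ (FL.loc0 0 (chartAt FL.C2 x) g) (chartAt FL.C2 x x) := by
      rw [FL.LB.loc0_zero]
      exact (ana (chart_mem_atlas FL.C2 x) (mem_chart_target FL.C2 x)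
        (by rw [h0]; exact h.mono fun y hy => hy.2.1)).differentiableAt
    funext k
    have h2 := H821.dbar0_smul (κ := 0) (s := fun y => A.E i (e y).1 (dir b (e y).2))
      (h1.restrictScalars ℝ) ((hf.reg _ (chart_mem_atlas FL.C2 x) _ (mem_chart_target FL.C2 x)
        (by rw [h0]; exact h.self_of_nhds.1)).differentiableAt (by simp))
      (h.mono fun y hy => hy.2.2) k
    have h3 := congrFun (hf.hol x h.self_of_nhds.1) k
    change FL.LB.act _ (FL.dbar0 0 (fun y => A.E i (e y).1 (dir b (e y).2)) x k) +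
      K.a x k • A.E i (e x).1 (dir b (e x).2) = 0
    rw [h2, show FL.dbar0 0 g x k = 0 from FL.dzb_of_hol h1 k, zero_smul, add_zero, H821.act_smul,
      h.self_of_nhds.2.2, smul_comm, ← smul_add]
    exact smul_eq_zero_of_right _ h3

end Vale.Agent.P290Z.Nk
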