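import Vale.Agent.P290Z.Nk.SpecC
import Vale.Agent.P290.H686.Lin

/-! P290Z, block N2: pull back of forms by holomorphic maps. -/

open Set Filter
open scoped Topology Manifold ContDiff ComplexConjugate

noncomputable section

namespace Vale.Agent.P290Z.Nk.HP

open Vale.Agent.P290 Vale.Agent.P267
open Vale.Agent.P290.H445 (φ)
open Vale.Agent.P290.H686

variable {Z Z' : VS} {f : Z.X → Z'.X}

theorem md_fl {x : Z.X} (h : All.Hol f x) : MDifferentiableAt 𝓘(ℂ, FL.C2) 𝓘(ℂ, FL.C2) f x := by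
  rw [mdifferentiableAt_iff]
  refine ⟨h.1, ?_⟩
  simp only [writtenInExtChartAt, mfld_simps, differentiableWithinAt_univ]
  change DifferentiableAt ℂ (φ ∘ (fun z => chartAt All.C2 (f x) (f ((chartAt All.C2 x).symm z))) ∘
    φ.symm) (φ (chartAt All.C2 x x))
  refine φ.differentiableAt.comp _ (DifferentiableAt.comp _ ?_ φ.symm.differentiableAt)
  rw [ContinuousLinearEquiv.symm_apply_apply]
  exact h.2

theorem diff_rep (h : ∀ x, All.Hol f x) {e : FL.Ch Z.X} (he : e ∈ atlas FL.C2 Z.X)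
    {e' : FL.Ch Z'.X} (he' : e' ∈ atlas FL.C2 Z'.X) {z : FL.C2} (hz : z ∈ e.target)
    (hz' : f (e.symm z) ∈ e'.source) : DifferentiableAt ℂ (rep f e e') z := by
  have : IsManifold 𝓘(ℂ, FL.C2) 1 Z.X := IsManifold.of_le (n := ω) le_top
  have : IsManifold 𝓘(ℂ, FL.C2) 1 Z'.X := IsManifold.of_le (n := ω) le_top
  exact mdifferentiableAt_iff_differentiableAt.1 ((mdifferentiableAt_atlas he' hz').comp z
    ((md_fl (h _)).comp z (mdifferentiableAt_atlas_symm he hz)))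

theorem isSm (h : ∀ x, All.Hol f x) : IsSm f := by
  have hc : Continuous f := continuous_iff_continuousAt.2 fun x => (h x).1
  refine ⟨hc, fun e he e' he' x hx hx' => ?_⟩
  obtain ⟨W, h1, h2, h3⟩ := eventually_nhds_iff.1 (rep_eventually hc e e' hx hx')
  exact ((P268.analyticAt_of_differentiableOn h2 (fun z hz =>
    (diff_rep h he he' (h1 z hz).1 (h1 z hz).2).differentiableWithinAt) h3).contDiffAt
      (n := ∞)).restrict_scalars ℝ

theorem diff_df (h : ∀ x, All.Hol f x) (x : Z.X) : DifferentiableAt ℂ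
    (rep f (chartAt FL.C2 x) (chartAt FL.C2 (f x))) (chartAt FL.C2 x x) :=
  diff_rep h (chart_mem_atlas _ x) (chart_mem_atlas _ (f x)) (mem_chart_target _ x)
    (by rw [(chartAt FL.C2 x).left_inv (mem_chart_source _ x)]; exact mem_chart_source _ _)

theorem det_nonneg (h : ∀ x, All.Hol f x) (x : Z.X) : 0 ≤ (Df f x).det := by
  rw [Df, (diff_df h x).fderiv_restrictScalars ℝ, H928.Int.det_real]
  exact Complex.normSq_nonneg _

theorem isDiffeo (e : Z.X ≃ₜ Z'.X) (h : ∀ x, All.Hol e x) (h' : ∀ x, All.Hol e.symm x) :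
    IsDiffeo e := by
  refine ⟨isSm h, isSm h', fun x => (det_nonneg h x).lt_of_ne fun h0 => ?_⟩
  have h1 := congrArg ContinuousLinearMap.det (Df_comp (isSm h') (isSm h) x)
  rw [det_comp', ← h0, mul_zero, funext e.symm_apply_apply, Df_id] at h1
  exact one_ne_zero (LinearMap.det_id.symm.trans h1)

theorem isDiffeo_inv (j : Z.X ≃ₜ Z.X) (h : ∀ x, All.Hol j x) (hj : ∀ x, j (j x) = x) :
    IsDiffeo j :=
  isDiffeo j h (by rwa [show ⇑j.symm = j from funext fun x => j.symm_apply_eq.2 (hj x).symm])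

theorem pb1_pb1 {j : Z.X → Z.X} (h : ∀ x, All.Hol j x) (hj : ∀ x, j (j x) = x) (A : FL.OneF Z.X) :
    pb1 j (pb1 j A) = A := by
  rw [← pb1_comp (isSm h) (isSm h), funext hj, pb1_id]

theorem df_I (h : ∀ x, All.Hol f x) (x : Z.X) (i k : Fin 2) :
    Df f x (Pi.single i Complex.I) k = Complex.I * Df f x (Pi.single i 1) k := by
  rw [Df, (diff_df h x).fderiv_restrictScalars ℝ, ContinuousLinearMap.coe_restrictScalars',
    show (Pi.single i Complex.I : FL.C2) = Complex.I • Pi.single i 1 by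
      rw [← Pi.single_smul, smul_eq_mul, mul_one], map_smul]
  rfl

/-- forms of type `(0,1)` pull back to forms of type `(0,1)` -/
theorem pb1_f10 (h : ∀ x, All.Hol f x) (a : Z'.X → Fin 2 → ℂ) : (pb1 f ⟨0, a⟩).f10 = 0 := by
  funext x i
  simp only [pb1, k10, val1, ContinuousLinearMap.comp_apply, ev1_apply, Fin.sum_univ_two, df_I h,
    map_mul, Complex.conj_I, Pi.zero_apply]
  linear_combination (1 / 2 * (a (f x) 0 * conj (Df f x (Pi.single i 1) 0) +
    a (f x) 1 * conj (Df f x (Pi.single i 1) 1))) * Complex.I_mul_I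

theorem pb1_eq (h : ∀ x, All.Hol f x) (a : Z'.X → Fin 2 → ℂ) :
    pb1 f ⟨0, a⟩ = ⟨0, (pb1 f ⟨0, a⟩).f01⟩ := FL.OneF.ext (pb1_f10 h a) rfl

theorem pb2_f02 (h : ∀ x, All.Hol f x) {F : FL.TwoF Z'.X} (hF : F.f02 = 0) :
    (pb2 f F).f02 = 0 := by
  funext x
  simp only [pb2, c02, k01, val2, ContinuousLinearMap.bilinearComp_apply, ev2_apply,
    Fin.sum_univ_two, df_I h, map_mul, Complex.conj_I, Pi.zero_apply, hF]
  ring_nf
  simp only [Complex.I_sq, Complex.I_pow_four]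
  ring

theorem reg10_zero : FL.Reg10 ∞ (0 : Z.X → Fin 2 → ℂ) := fun e _ => by
  rw [show FL.loc10 e (0 : Z.X → Fin 2 → ℂ) = fun _ => 0 from funext fun z => funext fun i => by
    simp [FL.loc10]]
  exact contDiffOn_const

/-- the wedge product of two forms of type `(0,1)` -/
def wd (a b : Z.X → Fin 2 → ℂ) (x : Z.X) : ℂ := a x 0 * b x 1 - a x 1 * b x 0

theorem val2_wd (a b : Z.X → Fin 2 → ℂ) (x : Z.X) (v w : FL.C2) : val2 ⟨0, 0, wd a b⟩ x v w =
    val1 ⟨0, a⟩ x v * val1 ⟨0, b⟩ x w - val1 ⟨0, a⟩ x w * val1 ⟨0, b⟩ x v := by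
  simp only [val1, val2, ev1_apply, ev2_apply, Fin.sum_univ_two, Pi.zero_apply, Matrix.zero_apply,
    wd]
  ring

theorem pb2_wd (h : ∀ x, All.Hol f x) (a b : Z'.X → Fin 2 → ℂ) : pb2 f ⟨0, 0, wd a b⟩ =
    ⟨0, 0, wd (pb1 f ⟨0, a⟩).f01 (pb1 f ⟨0, b⟩).f01⟩ := by
  refine val2_inj fun x => ?_
  ext v w
  rw [val2_pb2_apply, val2_wd, val2_wd, ← pb1_eq h, ← pb1_eq h, val1_pb1, val1_pb1]
  rfl

end Vale.Agent.P290Z.Nk.HP
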