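import Vale.Agent.P290Z.Nk.SpecC

/-!
# P290Z, part III, block N2: the involution of the double cover
-/

open scoped Manifold ContDiff ComplexConjugate Topology
open Set Filter Metric

noncomputable section

namespace Vale.Agent.P290Z.Nk

open Vale.Agent.P290 Vale.Agent.P267
open Vale.Agent.P290.All (Hol)
open Vale.Agent.P290.H686 (pb1 pb2 Df rep val2 val2_inj val2_pb2_apply k10_ev1 k01_ev1)
open Vale.Agent.P290.H445 (φ)

namespace INV

variable {Y : W.K3} {n : ℕ} {K : Nik Y n} {A : Nbhd K} (D : DCover A)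

theorem j_q (i : Fin n) : D.j (D.q i) = D.q i := (D.j_fix _).2 ⟨i, rfl⟩

theorem j_off {z : D.Z.X} (hz : z ∉ range D.q) : D.j z ∉ range D.q := by
  rintro ⟨i, hi⟩
  exact hz ⟨i, by rw [← j_q D i, hi, D.j_j]⟩

theorem ev_off {z : D.Z.X} (hz : z ∉ range D.q) : ∀ᶠ y in 𝓝 z, y ∉ range D.q :=
  (finite_range D.q).isClosed.isOpen_compl.mem_nhds hz

theorem tendsto_symm {H X : Type} [TopologicalSpace H] [TopologicalSpace X]
    (e : OpenPartialHomeomorph X H) {x : X} (hx : x ∈ e.source) :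
    Tendsto e.symm (𝓝 (e x)) (𝓝 x) := by
  have := (e.continuousAt_symm (e.map_source hx)).tendsto
  rwa [e.left_inv hx] at this

/-- the charts at `z` and `j z` correspond under `j` -/
theorem chart_j {z : D.Z.X} (hz : z ∉ range D.q) :
    ∀ᶠ y in 𝓝 z, chartAt C2 (D.j z) (D.j y) = chartAt C2 z y := by
  filter_upwards [D.chart_p z hz, D.j.continuous.continuousAt.eventually
    (D.chart_p _ (j_off D hz)), ev_off D hz] with y a1 a2 a3
  rw [a1, a2, D.p_j z hz, D.p_j y a3]

theorem rep_off {z : D.Z.X} (hz : z ∉ range D.q) :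
    ∀ᶠ v in 𝓝 (chartAt C2 z z), chartAt C2 (D.j z) (D.j ((chartAt C2 z).symm v)) = v := by
  filter_upwards [(tendsto_symm _ (mem_chart_source C2 z)).eventually (chart_j D hz),
    chart_target_mem_nhds C2 z] with v a1 a2
  rw [a1, (chartAt C2 z).right_inv a2]

theorem rep_q (i : Fin n) : ∀ᶠ v in 𝓝 (chartAt C2 (D.q i) (D.q i)),
    chartAt C2 (D.j (D.q i)) (D.j ((chartAt C2 (D.q i)).symm v)) = -v := by
  filter_upwards [chart_target_mem_nhds C2 (D.q i)] with v a1
  rw [D.target_q] at a1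
  rw [j_q, D.j_q i v a1, (chartAt C2 (D.q i)).right_inv]
  rw [D.target_q]
  simpa using a1

theorem hol (z : D.Z.X) : Hol D.j z := by
  refine ⟨D.j.continuous.continuousAt, ?_⟩
  by_cases hz : z ∈ range D.q
  · obtain ⟨i, rfl⟩ := hz
    exact differentiableAt_id.neg.congr_of_eventuallyEq (rep_q D i)
  · exact differentiableAt_id.congr_of_eventuallyEq (rep_off D hz)

theorem tendsto_phi (v : C2) : Tendsto φ.symm (𝓝 (φ v)) (𝓝 v) := by
  have := φ.symm.continuous.tendsto (φ v)
  rwa [φ.symm_apply_apply] at this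

theorem Df_off {z : D.Z.X} (hz : z ∉ range D.q) :
    Df D.j z = ContinuousLinearMap.id ℝ FL.C2 := by
  refine ((hasFDerivAt_id _).congr_of_eventuallyEq ?_).fderiv
  filter_upwards [(tendsto_phi _).eventually (rep_off D hz)] with w hw
  exact (congrArg φ hw).trans (φ.apply_symm_apply w)

theorem Df_q (i : Fin n) : Df D.j (D.q i) = -ContinuousLinearMap.id ℝ FL.C2 := by
  refine ((hasFDerivAt_id _).neg.congr_of_eventuallyEq ?_).fderiv
  filter_upwards [(tendsto_phi _).eventually (rep_q D i)] with w hw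
  exact (congrArg φ hw).trans ((map_neg φ _).trans (congrArg Neg.neg (φ.apply_symm_apply w)))

theorem pb2_om : pb2 D.j D.Z.omF = D.Z.omF := by
  refine val2_inj fun z => ?_
  ext v w
  rw [val2_pb2_apply]
  by_cases hz : z ∈ range D.q
  · obtain ⟨i, rfl⟩ := hz
    rw [Df_q, j_q]
    simp
  · have : D.Z.Om (D.j z) = D.Z.Om z := by
      rw [D.om_p z hz, D.om_p _ (j_off D hz), D.p_j z hz]
    rw [Df_off D hz]
    simp only [val2, VS.omF, this, Pi.zero_apply, ContinuousLinearMap.id_apply]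

theorem pb1_off (α : FL.OneF D.Z.X) {z : D.Z.X} (hz : z ∉ range D.q) :
    (pb1 D.j α).f10 z = α.f10 (D.j z) ∧ (pb1 D.j α).f01 z = α.f01 (D.j z) := by
  constructor <;> funext i <;> simp only [pb1, Df_off D hz, ContinuousLinearMap.comp_id]
  · exact k10_ev1 _ _ i
  · exact k01_ev1 _ _ i

end INV

/-- INV -/
theorem inv : StInv := fun _ _ _ _ D =>
  ⟨INV.hol D, INV.pb2_om D, fun α _ hz => INV.pb1_off D α hz⟩

end Vale.Agent.P290Z.Nk
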