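import Vale.Agent.P290Z.Nk.SpecB
import Vale.Agent.P290Z.Kum
import Vale.Agent.P290Z.Inv.Loc

/-!
# P290Z, part III, block N2: if the double cover is a torus, the surface is a Kummer surface
-/

set_option linter.unusedSectionVars false

open scoped Manifold ContDiff Topology
open Set Filter Metric

noncomputable section

namespace Vale.Agent.P290Z.Nk

namespace KUM

open Vale.Agent.P290
open Vale.Agent.P290.All (Etale dir Dom)
open Vale.Agent.P290Z.Kum (cs ct ph smul_dir exists_cs cs_smul_dir ct_smul_dir)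

theorem etale_congr {X : Type} [TopologicalSpace X] [ChartedSpace C2 X] {f g : C2 → X} {v : C2}
    (h : Etale f v) (he : g =ᶠ[𝓝 v] f) : Etale g v := by
  have h1 : (fun z => chartAt C2 (g v) (g z)) =ᶠ[𝓝 v] fun z => chartAt C2 (f v) (f z) := by
    filter_upwards [he] with z hz
    rw [hz, he.self_of_nhds]
  refine ⟨h.1.congr he.symm, h.2.1.congr_of_eventuallyEq h1, ?_⟩
  rw [h1.fderiv_eq]
  exact h.2.2

theorem dir_ne (b : Bool) (u : ℂ) : dir b u ≠ 0 := by
  cases b <;> simp [dir]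

/-- the derivative of `dir b` -/
def dir' (b : Bool) : C2 := cond b (0, 1) (1, 0)

theorem hasDerivAt_dir (b : Bool) (u : ℂ) : HasDerivAt (dir b) (dir' b) u := by
  cases b
  · exact (hasDerivAt_id u).prodMk (hasDerivAt_const u (1 : ℂ))
  · exact (hasDerivAt_const u (1 : ℂ)).prodMk (hasDerivAt_id u)

theorem diff_dir (b : Bool) (v : C2) : DifferentiableAt ℂ (fun v : C2 => dir b v.2) v :=
  DifferentiableAt.comp (g := dir b) v (hasDerivAt_dir b _).differentiableAt differentiableAt_snd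

/-- the first coordinate -/
def csL (b : Bool) : C2 →L[ℂ] ℂ :=
  cond b (ContinuousLinearMap.fst ℂ ℂ ℂ) (ContinuousLinearMap.snd ℂ ℂ ℂ)

/-- the second coordinate -/
def ctL (b : Bool) : C2 →L[ℂ] ℂ :=
  cond b (ContinuousLinearMap.snd ℂ ℂ ℂ) (ContinuousLinearMap.fst ℂ ℂ ℂ)

theorem csL_apply (b : Bool) (z : C2) : csL b z = cs b z := by cases b <;> rfl

theorem ctL_apply (b : Bool) (z : C2) : ctL b z = ct b z := by cases b <;> rfl

theorem ext_cs (b : Bool) {z z' : C2} (h : cs b z = cs b z') (h' : ct b z = ct b z') : z = z' := by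
  cases b
  · exact Prod.ext h' h
  · exact Prod.ext h h'

theorem theta1 {s : ℂ → ℂ} {v : C2} (a : C2) (b : Bool) (hs : DifferentiableAt ℂ s v.1)
    (h0 : s v.1 ≠ 0) (h2 : ∀ z, s z ^ 2 = z) :
    DifferentiableAt ℂ (fun v : C2 => a + s v.1 • dir b v.2) v ∧
      Function.Injective (fderiv ℂ (fun v : C2 => a + s v.1 • dir b v.2) v) := by
  have h1 : DifferentiableAt ℂ (fun v : C2 => s v.1) v :=
    DifferentiableAt.comp (g := s) v hs differentiableAt_fst
  have h3 : DifferentiableAt ℂ (fun v : C2 => s v.1 • dir b v.2) v := h1.smul (diff_dir b v)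
  refine ⟨h3.const_add a, ?_⟩
  rw [fderiv_const_add]
  have h4 : DifferentiableAt ℂ (ph b) (s v.1 • dir b v.2) :=
    (Kum.ph_deriv (by rwa [cs_smul_dir])).1
  have h5 : (ph b ∘ fun v : C2 => s v.1 • dir b v.2) =ᶠ[𝓝 v] id := by
    filter_upwards [h1.continuousAt.eventually_ne h0] with z hz
    show ph b (s z.1 • dir b z.2) = z
    rw [ph, cs_smul_dir, ct_smul_dir, h2, mul_div_cancel_left₀ _ hz]
  have h6 := fderiv_comp v h4 h3
  rw [h5.fderiv_eq, fderiv_id] at h6
  intro x y hxy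
  have h7 := congrArg (fun M : C2 →L[ℂ] C2 => M x) h6
  have h8 := congrArg (fun M : C2 →L[ℂ] C2 => M y) h6
  simp only [ContinuousLinearMap.id_apply, ContinuousLinearMap.comp_apply] at h7 h8
  rw [h7, h8, hxy]

theorem theta2 {G : C2 → C2} {B : C2 →L[ℂ] C2} {b b' : Bool} {u₀ : ℂ}
    (hG : DifferentiableAt ℂ G (0, u₀)) (hB : Function.Injective B)
    (h0 : ∀ u, G (0, u) = B (dir b u)) (hc : cs b' (G (0, u₀)) ≠ 0) :
    DifferentiableAt ℂ (fun v : C2 => ((v.1 * cs b' (G v) ^ 2, ct b' (G v) / cs b' (G v)) : C2))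
      (0, u₀) ∧ Function.Injective (fderiv ℂ
        (fun v : C2 => ((v.1 * cs b' (G v) ^ 2, ct b' (G v) / cs b' (G v)) : C2)) (0, u₀)) := by
  set G' := fderiv ℂ G (0, u₀) with hG'
  have h1 : HasFDerivAt (fun v => cs b' (G v)) ((csL b').comp G') (0, u₀) := by
    have h := (csL b').hasFDerivAt.comp (0, u₀) hG.hasFDerivAt
    exact h.congr_of_eventuallyEq (Eventually.of_forall fun v => (csL_apply b' _).symm)
  have h2 : HasFDerivAt (fun v => ct b' (G v)) ((ctL b').comp G') (0, u₀) := by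
    have h := (ctL b').hasFDerivAt.comp (0, u₀) hG.hasFDerivAt
    exact h.congr_of_eventuallyEq (Eventually.of_forall fun v => (ctL_apply b' _).symm)
  have h3 := ((hasFDerivAt_fst (𝕜 := ℂ) (p := ((0, u₀) : C2))).mul (h1.pow 2)).prodMk
    (h2.mul ((hasDerivAt_inv hc).comp_hasFDerivAt (0, u₀) h1))
  have h4 : HasFDerivAt
      (fun v : C2 => ((v.1 * cs b' (G v) ^ 2, ct b' (G v) / cs b' (G v)) : C2)) _ (0, u₀) :=
    h3.congr_of_eventuallyEq (Eventually.of_forall fun v => by simp [div_eq_mul_inv])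
  refine ⟨h4.differentiableAt, ?_⟩
  rw [h4.fderiv, injective_iff_map_eq_zero]
  rintro ⟨x, y⟩ hxy
  have h5 := congrArg Prod.fst hxy
  have h6 := congrArg Prod.snd hxy
  simp [csL_apply, ctL_apply, hc] at h5 h6
  subst h5
  have h7 : G' (0, 1) = B (dir' b) := by
    have h8 : HasDerivAt (fun u : ℂ => G (0, u)) (G' (0, 1)) u₀ :=
      hG.hasFDerivAt.comp_hasDerivAt u₀ ((hasDerivAt_const u₀ (0 : ℂ)).prodMk (hasDerivAt_id u₀))
    have h9 : HasDerivAt (fun u : ℂ => B (dir b u)) (B (dir' b)) u₀ :=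
      B.hasFDerivAt.comp_hasDerivAt u₀ (hasDerivAt_dir b u₀)
    rw [funext h0] at h8
    exact h8.unique h9
  have h8 : G' (0, y) = B (y • dir' b) := by
    rw [map_smul, ← h7, ← map_smul]
    simp
  have h9 : G' (0, y) = (cs b' (G' (0, y)) / cs b' (G (0, u₀))) • G (0, u₀) := by
    refine ext_cs b' ?_ ?_
    · rw [← csL_apply b' (_ • _), map_smul, csL_apply, smul_eq_mul, div_mul_cancel₀ _ hc]
    · rw [← ctL_apply b' (_ • _), map_smul, ctL_apply, smul_eq_mul]
      field_simp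
      field_simp at h6
      linear_combination h6
  generalize cs b' (G' (0, y)) / cs b' (G (0, u₀)) = t at h9
  rw [h8, h0, ← map_smul] at h9
  have h10 := hB h9
  have h11 : y = 0 := by
    cases b
    · have e1 := congrArg Prod.fst h10
      have e2 := congrArg Prod.snd h10
      simp [dir, dir'] at e1 e2
      rw [e1, ← e2, zero_mul]
    · have e1 := congrArg Prod.fst h10
      have e2 := congrArg Prod.snd h10
      simp [dir, dir'] at e1 e2
      rw [e2, ← e1, zero_mul]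
  rw [h11]
  rfl

variable {Y : W.K3} {n : ℕ} {K : Nik Y n} {A : Nbhd K} (D : DCover A) {l : Fin 4 → C2}
  {u : C2 → D.Z.X}

theorem fix_iff (hT : Torus D.j l u) (a : C2) :
    u a ∈ range D.q ↔ a + a ∈ AddSubgroup.closure (range l) := by
  rw [← D.j_fix, hT.neg, hT.rel, sub_neg_eq_add]

theorem u_neg (hT : Torus D.j l u) {a : C2} (ha : a + a ∈ AddSubgroup.closure (range l))
    (z : C2) : u (a + -z) = D.j (u (a + z)) := by
  rw [hT.neg, eq_comm, hT.rel]
  convert ha using 1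
  abel

/-- the torus near a point of order two -/
theorem loc (hO : StOddFn) (hT : Torus D.j l u) (i : Fin n) :
    ∃ (r : ℝ) (Ψ : ℂ × C2 → C2) (B : C2 →L[ℂ] C2), 0 < r ∧ Function.Injective B ∧
      (∀ d, DifferentiableAt ℂ Ψ (0, d)) ∧ (∀ d, Ψ (0, d) = B d) ∧
      ∀ a, u a = D.q i → ∀ (s : ℂ) (d : C2), ‖s‖ * ‖d‖ < r → s • Ψ (s ^ 2, d) ∈ ball (0 : C2) 10 ∧
        u (a + s • d) = (chartAt C2 (D.q i)).symm (s • Ψ (s ^ 2, d)) := by
  obtain ⟨a₀, ha₀⟩ := hT.surj (D.q i)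
  set c := chartAt C2 (D.q i) with hc
  have hL := (fix_iff D hT a₀).1 ⟨i, ha₀.symm⟩
  have hu : ∀ z, MDifferentiableAt 𝓘(ℂ, C2) 𝓘(ℂ, C2) (fun z => u (a₀ + z)) z := fun z =>
    Inv.md_comp (Inv.etale_md (hT.etale _)) (by fun_prop)
  obtain ⟨r, hr, hb⟩ : ∃ r > 0, ∀ z ∈ ball (0 : C2) r, u (a₀ + z) ∈ c.source := by
    have h1 : ∀ᶠ z in 𝓝 (0 : C2), u (a₀ + z) ∈ c.source := by
      refine (hu 0).continuousAt.eventually (c.open_source.mem_nhds ?_)
      show u (a₀ + 0) ∈ c.source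
      rw [add_zero, ha₀]
      exact mem_chart_source C2 _
    exact Metric.eventually_nhds_iff_ball.1 h1
  have hd : ∀ z ∈ ball (0 : C2) r, DifferentiableAt ℂ (fun z => c (u (a₀ + z))) z :=
    fun z hz => Inv.md_chart (hu z) (hb z hz)
  have ht : ∀ z ∈ ball (0 : C2) r, c (u (a₀ + z)) ∈ ball (0 : C2) 10 := fun z hz => by
    rw [← D.target_q i]
    exact c.map_source (hb z hz)
  obtain ⟨Ψ, hΨ, hΨ'⟩ := hO C2 r (fun z => c (u (a₀ + z))) hr
    (fun z hz => (hd z hz).differentiableWithinAt) (fun z hz => by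
      have h1 := D.j_q i _ (ht z hz)
      rw [c.left_inv (hb z hz)] at h1
      have h2 : -c (u (a₀ + z)) ∈ c.target := by
        rw [D.target_q i]
        simpa using ht z hz
      show c (u (a₀ + -z)) = _
      rw [u_neg D hT hL, h1, c.right_inv h2])
  have hΨ0 : ∀ d, DifferentiableAt ℂ Ψ (0, d) := fun d =>
    hΨ.differentiableAt ((isOpen_lt (by fun_prop) continuous_const).mem_nhds (by
      show ‖(0 : ℂ)‖ * ‖d‖ ^ 2 < r ^ 2
      rw [norm_zero, zero_mul]
      positivity))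
  refine ⟨r, Ψ, fderiv ℂ (fun z => c (u (a₀ + z))) 0, hr, ?_, hΨ0, fun d => ?_,
    fun a ha s d hs => ?_⟩
  · rw [fderiv_comp_add_left (f := fun w => c (u w)), add_zero]
    exact Inv.etale_inj (hT.etale a₀) (by rw [ha₀]; exact mem_chart_source C2 _)
  · have h1 : HasDerivAt (fun s : ℂ => s • d) d 0 := by
      simpa using (hasDerivAt_id (0 : ℂ)).smul_const d
    have h2 : HasDerivAt (fun s : ℂ => c (u (a₀ + s • d)))
        (fderiv ℂ (fun z => c (u (a₀ + z))) 0 d) 0 :=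
      HasFDerivAt.comp_hasDerivAt_of_eq (l := fun z => c (u (a₀ + z))) 0
        (hd 0 (mem_ball_self hr)).hasFDerivAt h1 (by simp)
    have h3 : DifferentiableAt ℂ (fun s : ℂ => Ψ (s ^ 2, d)) 0 :=
      DifferentiableAt.comp (g := Ψ) 0 (by simpa using hΨ0 d) (by fun_prop)
    have h4 := (hasDerivAt_id (0 : ℂ)).smul h3.hasDerivAt
    have h5 : (fun s : ℂ => c (u (a₀ + s • d))) =ᶠ[𝓝 0] fun s => s • Ψ (s ^ 2, d) := by
      have h6 : ContinuousAt (fun s : ℂ => ‖s‖ * ‖d‖) 0 := by fun_prop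
      filter_upwards [h6.eventually_lt continuousAt_const (by simpa using hr)] with s hs
      exact hΨ' s d hs
    have h6 := (h4.congr_of_eventuallyEq h5).unique h2
    simpa using h6
  · have h1 : s • d ∈ ball (0 : C2) r := by rwa [mem_ball_zero_iff, norm_smul]
    have h2 : u (a + s • d) = u (a₀ + s • d) := by
      rw [hT.rel, add_sub_add_right_eq_sub, ← hT.rel, ha, ha₀]
    rw [← hΨ' s d hs, h2]
    exact ⟨ht _ h1, (c.left_inv (hb _ h1)).symm⟩

theorem etale_p (hT : Torus D.j l u) {z : C2} (hz : u z ∉ range D.q) :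
    Etale (fun z => D.p (u z)) z := by
  have h := hT.etale z
  have h1 : (fun w => chartAt C2 (D.p (u z)) (D.p (u w))) =ᶠ[𝓝 z]
      fun w => chartAt C2 (u z) (u w) := by
    filter_upwards [h.1.eventually (D.chart_p _ hz)] with w hw
    exact hw.symm
  refine ⟨ContinuousAt.comp (g := D.p) (D.p_cont _ hz) h.1, h.2.1.congr_of_eventuallyEq h1, ?_⟩
  rw [h1.fderiv_eq]
  exact h.2.2

theorem nu_zero_smul (i : Fin n) {t : ℂ} (ht : t ≠ 0) (d : C2) :
    A.ν i 0 (t • d) = A.ν i 0 d := by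
  rw [← (A.std i).hom 0 t d ht, zero_mul]

theorem nu_mem' (i : Fin n) {d : C2} (hd : d ≠ 0) : A.ν i 0 d ∈ (K.C i).supp := by
  obtain ⟨b, hb, -⟩ := exists_cs hd
  refine ⟨b, (ph b d).2, ?_⟩
  rw [← (A.std i).zero, ← nu_zero_smul i hb, smul_dir hb]

theorem nu_mem (i : Fin n) {d : C2} (hd : d ≠ 0) : A.ν i 0 d ∈ K.br := ⟨i, nu_mem' i hd⟩

theorem sd_zero {d : C2} (hd : d ≠ 0) : SD 100 0 d := ⟨hd, by simp⟩

theorem core (hO : StOddFn) (hT : Torus D.j l u) :
    ∃ M : All.Kummer (AddSubgroup.closure (range l)) Y.X,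
      (∀ a b h x (s : ℂ), Dom (AddSubgroup.closure (range l)) a b (h, x) → h ≠ 0 → s ^ 2 = h →
        M.N a b (h, x) = D.p (u (a + s • dir b x))) ∧
      ∀ a b x i, u a = D.q i → M.N a b (0, x) ∈ (K.C i).supp := by
  classical
  choose r Ψ B hr hB hΨ hΨB hloc using loc D hO hT
  set L := AddSubgroup.closure (range l) with hL
  have hsq : ∀ h : ℂ, ∃ w, w ^ 2 = h := fun h => IsAlgClosed.exists_pow_nat_eq h two_pos
  choose sq hsq using hsq
  let N : C2 → Bool → C2 → Y.X := fun a b v =>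
    if h : v.1 = 0 ∧ ∃ i, D.q i = u a then A.ν h.2.choose 0 (B h.2.choose (dir b v.2))
    else D.p (u (a + sq v.1 • dir b v.2))
  have hN0 : ∀ a i, u a = D.q i → ∀ b (v : C2), v.1 = 0 →
      N a b v = A.ν i 0 (B i (dir b v.2)) := by
    intro a i ha b v hv
    have h : v.1 = 0 ∧ ∃ i, D.q i = u a := ⟨hv, i, ha.symm⟩
    have h1 : h.2.choose = i := D.q_inj (h.2.choose_spec.trans ha)
    show (if h : _ then _ else _) = _
    rw [dif_pos h, h1]
  have hN1 : ∀ a, a + a ∈ L → ∀ b (v : C2) (w : ℂ), v.1 ≠ 0 → w ^ 2 = v.1 →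
      u (a + w • dir b v.2) ∉ range D.q → N a b v = D.p (u (a + w • dir b v.2)) := by
    intro a ha b v w hv hw hq
    show (if h : _ then _ else _) = _
    rw [dif_neg fun h => hv h.1]
    rcases sq_eq_sq_iff_eq_or_eq_neg.1 ((hsq v.1).trans hw.symm) with e | e
    · rw [e]
    · rw [e, neg_smul, u_neg D hT ha, D.p_j _ hq]
  have hoff : ∀ a b v, Dom L a b v → ∀ w : ℂ, v.1 ≠ 0 → w ^ 2 = v.1 →
      u (a + w • dir b v.2) ∉ range D.q := by
    intro a b v h w hv hw hq
    rw [fix_iff D hT] at hq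
    have h1 : (w + w) • dir b v.2 ∈ L := by
      have h2 := L.sub_mem hq h.1
      convert h2 using 1
      rw [add_smul]
      abel
    rw [h.2 w hw h1] at hw
    exact hv (by simpa using hw.symm)
  have hidx : ∀ a, a + a ∈ L → ∃ i, u a = D.q i := fun a ha => by
    obtain ⟨i, hi⟩ := (fix_iff D hT a).2 ha
    exact ⟨i, hi.symm⟩
  have hBne : ∀ i b x, B i (dir b x) ≠ 0 := fun i b x h =>
    dir_ne b x (hB i (h.trans (map_zero _).symm))
  refine ⟨⟨N, ?_, ?_, ?_⟩, fun a b h x s hv h0 hs =>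
    hN1 a hv.1 b (h, x) s h0 hs (hoff _ _ _ hv s h0 hs), fun a b x i hi => by
      show N a b (0, x) ∈ _
      rw [hN0 a i hi b _ rfl]
      exact nu_mem' i (hBne _ _ _)⟩
  · rintro a b ⟨h, x⟩ hv
    by_cases h0 : h = 0
    · subst h0
      obtain ⟨i, hi⟩ := hidx a hv.1
      obtain ⟨b', hb', -⟩ := exists_cs (hBne i b x)
      have hG : DifferentiableAt ℂ (fun v : C2 => Ψ i (v.1, dir b v.2)) (0, x) :=
        DifferentiableAt.comp (g := Ψ i) (0, x) (hΨ i _)
          (differentiableAt_fst.prodMk (diff_dir b _))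
      have hc : cs b' (Ψ i (0, dir b x)) ≠ 0 := by rwa [hΨB]
      obtain ⟨h1, h2⟩ := theta2 (G := fun v : C2 => Ψ i (v.1, dir b v.2)) (b := b) (b' := b') hG
        (hB i) (fun y => hΨB i _) hc
      refine etale_congr (Inv.etale_comp (f := fun w : C2 => A.ν i w.1 (dir b' w.2))
        ((A.std i).etale b' _ ⟨dir_ne _ _, by simp⟩) h1 h2) ?_
      have h3 : ContinuousAt (fun v : C2 => cs b' (Ψ i (v.1, dir b v.2))) (0, x) :=
        ContinuousAt.comp (g := cs b') (Kum.continuous_cs b').continuousAt hG.continuousAt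
      have h4 : ContinuousAt (fun v : C2 => ‖v.1‖ * ‖dir b v.2‖ ^ 2) (0, x) :=
        continuousAt_fst.norm.mul ((diff_dir b _).continuousAt.norm.pow 2)
      filter_upwards [h3.eventually_ne hc, h4.eventually_lt continuousAt_const
        (show ‖((0, x) : C2).1‖ * ‖dir b ((0, x) : C2).2‖ ^ 2 < r i ^ 2 by
          simpa using pow_pos (hr i) 2)] with v h5 h6
      have h7 : A.ν i (v.1 * cs b' (Ψ i (v.1, dir b v.2)) ^ 2)
          (dir b' (ct b' (Ψ i (v.1, dir b v.2)) / cs b' (Ψ i (v.1, dir b v.2)))) =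
          A.ν i v.1 (Ψ i (v.1, dir b v.2)) := by
        rw [(A.std i).hom _ _ _ h5]
        exact congrArg _ (smul_dir h5)
      show N a b v = _
      rw [h7]
      by_cases h8 : v.1 = 0
      · rw [hN0 a i hi b v h8, h8, hΨB]
      · have h9 : sq v.1 ≠ 0 := fun e => h8 (by rw [← hsq v.1, e]; simp)
        have h10 : ‖sq v.1‖ * ‖dir b v.2‖ < r i := by
          refine lt_of_pow_lt_pow_left₀ 2 (hr i).le ?_
          rwa [mul_pow, ← norm_pow, hsq]
        obtain ⟨h11, h12⟩ := hloc i a hi _ _ h10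
        rw [hsq] at h11 h12
        have h13 : sq v.1 • Ψ i (v.1, dir b v.2) ≠ 0 :=
          smul_ne_zero h9 fun e => h5 (by rw [e]; cases b' <;> rfl)
        rw [hN1 a hv.1 b v _ h8 (hsq _) (by rw [h12]; exact D.off_q i _ h11 h13), h12,
          D.p_q i _ h11 h13, ← (A.std i).hom _ _ _ h9, one_mul, hsq]
    · have h9 : sq h ≠ 0 := fun e => h0 (by rw [← hsq h, e]; simp)
      obtain ⟨s, hs1, hs2, hs3, -⟩ := P290.K.wp_root h9
      rw [hsq] at hs1 hs2
      obtain ⟨h1, h2⟩ := theta1 (v := (h, x)) a b hs1.differentiableAt (by rwa [hs2]) hs3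
      have h3 := hoff a b _ hv (s h) h0 (hs3 h)
      refine etale_congr (Inv.etale_comp (f := fun z => D.p (u z)) (etale_p D hT h3) h1 h2) ?_
      have h4 : ContinuousAt (fun v : C2 => u (a + s v.1 • dir b v.2)) (h, x) :=
        ContinuousAt.comp (g := u) (hT.etale _).1 h1.continuousAt
      filter_upwards [h4.eventually ((finite_range D.q).isClosed.isOpen_compl.mem_nhds h3),
        (continuousAt_fst (p := ((h, x) : C2))).eventually_ne h0] with v h5 h6
      exact hN1 a hv.1 b v _ h6 (hs3 _) h5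
  · intro y
    by_cases hy : y ∈ K.br
    · obtain ⟨i, b', x', rfl⟩ := hy
      obtain ⟨a, ha⟩ := hT.surj (D.q i)
      obtain ⟨d, hd⟩ := (LinearMap.injective_iff_surjective (f := (B i : C2 →ₗ[ℂ] C2))).1 (hB i)
        (dir b' x')
      have hd' : B i d = dir b' x' := hd
      have hd0 : d ≠ 0 := fun e => dir_ne b' x' (by rw [← hd', e, map_zero])
      obtain ⟨b, hb, -⟩ := exists_cs hd0
      refine ⟨a, b, (0, (ph b d).2), ⟨(fix_iff D hT a).1 ⟨i, ha.symm⟩,
        fun w hw _ => by simpa using hw⟩, ?_⟩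
      rw [hN0 a i ha b _ rfl, ← nu_zero_smul i hb, ← map_smul, smul_dir hb, hd', (A.std i).zero]
    · obtain ⟨z, hz, rfl⟩ := D.surj y hy
      obtain ⟨x, rfl⟩ := hT.surj z
      have h1 : x + x ∉ L := fun h => hz ((fix_iff D hT x).2 h)
      have h2 : x ≠ 0 := fun e => h1 (by rw [e, add_zero]; exact L.zero_mem)
      obtain ⟨b, hb, -⟩ := exists_cs h2
      have h3 := Kum.dom_zero h1 hb
      have h4 : (ph b x).1 ≠ 0 := pow_ne_zero 2 hb
      refine ⟨0, b, ph b x, h3, ?_⟩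
      rw [hN1 0 h3.1 b _ (cs b x) h4 rfl (hoff _ _ _ h3 _ h4 rfl), smul_dir hb, zero_add]
  · intro a b v a' b' v' hv hv'
    obtain ⟨i, hi⟩ := hidx a hv.1
    obtain ⟨i', hi'⟩ := hidx a' hv'.1
    by_cases h0 : v.1 = 0 <;> by_cases h0' : v'.1 = 0
    · rw [hN0 a i hi b v h0, hN0 a' i' hi' b' v' h0']
      constructor
      · intro h
        obtain rfl := A.sep _ _ _ _ _ _ (sd_zero (hBne _ _ _)) (sd_zero (hBne _ _ _)) h
        obtain ⟨t, -, ht, -⟩ :=
          (A.std i).inj _ _ _ _ (sd_zero (hBne _ _ _)) (sd_zero (hBne _ _ _)) h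
        refine Or.inr ⟨h0, h0', (hT.rel _ _).1 (hi.trans hi'.symm), t, hB i ?_⟩
        rw [ht, map_smul]
      · rintro (h | ⟨-, -, h1, t, ht⟩)
        · exact absurd h0 h.1
        · obtain rfl : i = i' := D.q_inj (hi.symm.trans (((hT.rel _ _).2 h1).trans hi'))
          have h2 : t ≠ 0 := fun e => dir_ne b' v'.2 (by rw [ht, e, zero_smul])
          rw [ht, map_smul, nu_zero_smul i h2]
    · have h1 := hoff _ _ _ hv' _ h0' (hsq _)
      rw [hN0 a i hi b v h0, hN1 a' hv'.1 b' v' _ h0' (hsq _) h1]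
      refine ⟨fun h => absurd (h ▸ nu_mem i (hBne _ _ _)) (D.off _ h1), ?_⟩
      rintro (h | h)
      · exact absurd h0 h.1
      · exact absurd h.2.1 h0'
    · have h1 := hoff _ _ _ hv _ h0 (hsq _)
      rw [hN0 a' i' hi' b' v' h0', hN1 a hv.1 b v _ h0 (hsq _) h1]
      refine ⟨fun h => absurd (h ▸ nu_mem i' (hBne _ _ _)) (D.off _ h1), ?_⟩
      rintro (h | h)
      · exact absurd h0' h.2.1
      · exact absurd h.1 h0
    · constructor
      · intro h
        have h1 := hoff _ _ _ hv _ h0 (hsq _)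
        have h2 := hoff _ _ _ hv' _ h0' (hsq _)
        rw [hN1 a hv.1 b v _ h0 (hsq _) h1, hN1 a' hv'.1 b' v' _ h0' (hsq _) h2] at h
        refine Or.inl ⟨h0, h0', ?_⟩
        rcases D.fib _ _ h1 h2 h with e | e
        · exact ⟨_, _, hsq _, hsq _, (hT.rel _ _).1 e.symm⟩
        · refine ⟨-sq v.1, _, by rw [neg_sq, hsq], hsq _, (hT.rel _ _).1 ?_⟩
          rw [neg_smul, u_neg D hT hv.1, e]
      · rintro (⟨-, -, w, w', hw, hw', h⟩ | h)
        · rw [hN1 a hv.1 b v w h0 hw (hoff _ _ _ hv _ h0 hw),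
            hN1 a' hv'.1 b' v' w' h0' hw' (hoff _ _ _ hv' _ h0' hw'), (hT.rel _ _).2 h]
        · exact absurd h.1 h0

end KUM

theorem kummer (hO : StOddFn) : StKummer := fun _ _ _ _ D _ _ hT => KUM.core D hO hT

end Vale.Agent.P290Z.Nk
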