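import Vale.Agent.P290Z.Nk.SpecB
import Vale.Agent.P290Z.Nk.Loc.A
import Vale.Agent.P267.H399.LBTensor

/-! P290Z Nk, LOC: closed forms with values in the dual bundle are exact near the curves. -/

open scoped Manifold ContDiff Topology
open Set Filter Metric

noncomputable section

namespace Vale.Agent.P290Z.Nk

open Vale.Agent.P290 Vale.Agent.P267 Vale.Agent.P267.FL
open Vale.Agent.P290.All (dir)

namespace Lc

section gen

variable {X : Type} [TopologicalSpace X] [ChartedSpace FL.C2 X] [IsManifold 𝓘(ℂ, FL.C2) ω X]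
  {ι : Type} [Fintype ι] [DecidableEq ι] {L : LB X ι} {a : X → Fin 2 → ℂ}

/-- local solutions which agree on the overlaps -/
theorem glue [T2Space X] [CompactSpace X] {J : Type} {W : J → Set X} (hW : ∀ j, IsOpen (W j))
    {σ : J → X → EuclideanSpace ℂ ι} {t : X → Fin 2 → EuclideanSpace ℂ ι}
    (hσ : ∀ j, ∀ x ∈ W j, At0 ∞ 0 (σ j) x ∧ LB.act (L.P x) (σ j x) = σ j x ∧
      t x = L.db0 a 0 (σ j) x)
    (hov : ∀ j j', ∀ x ∈ W j, x ∈ W j' → σ j x = σ j' x) {K : Set X} (hK : IsClosed K)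
    (hKW : K ⊆ ⋃ j, W j) : ∃ s ∈ RR.A0 L 0, ∀ᶠ y in 𝓝ˢ K, t y = L.db0 a 0 s y := by
  classical
  have := isManifold_real' (X := X) ∞
  have hO : IsOpen (⋃ j, W j) := isOpen_iUnion hW
  obtain ⟨χ, c0, c1, -⟩ := exists_contMDiffMap_zero_one_nhds_of_isClosed 𝓘(ℝ, FL.C2) (n := ⊤)
    hO.isClosed_compl hK (disjoint_compl_left_iff_subset.2 hKW)
  have hχ : ∀ x, At0 ∞ 0 (fun y => (χ y : ℂ)) x := fun x =>
    contMDiffAt_iff_at0.1 ((Complex.ofRealCLM.contDiff.contMDiff.comp χ.contMDiff) x)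
  let s₀ : X → EuclideanSpace ℂ ι := fun y => if h : ∃ j, y ∈ W j then σ h.choose y else 0
  have e : ∀ j, ∀ x ∈ W j, s₀ =ᶠ[𝓝 x] σ j := fun j x hx => by
    filter_upwards [(hW j).mem_nhds hx] with y hy
    have h : ∃ j, y ∈ W j := ⟨j, hy⟩
    simp only [s₀, dif_pos h]
    exact hov _ _ y h.choose_spec hy
  refine ⟨fun y => (χ y : ℂ) • s₀ y, ⟨reg0_iff_at.2 fun x => ?_, fun x => ?_⟩, ?_⟩
  · by_cases hx : x ∈ ⋃ j, W j
    · obtain ⟨j, hj⟩ := mem_iUnion.1 hx
      exact (hχ x).smul ((hσ j x hj).1.congr (e j x hj))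
    · refine at0_zero.congr ?_
      filter_upwards [eventually_nhdsSet_iff_forall.1 c0 x hx] with y hy
      simp [hy]
  · rw [RR.act_smul]
    by_cases hx : x ∈ ⋃ j, W j
    · obtain ⟨j, hj⟩ := mem_iUnion.1 hx
      beta_reduce
      rw [(e j x hj).self_of_nhds, (hσ j x hj).2.1]
    · simp [c0.self_of_nhdsSet x hx]
  · filter_upwards [c1.eventually_nhdsSet, hO.mem_nhdsSet.2 hKW] with x h1 hx
    obtain ⟨j, hj⟩ := mem_iUnion.1 hx
    rw [(hσ j x hj).2.2]
    refine H181.db0_congr ?_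
    filter_upwards [h1, e j x hj] with y a1 a2
    simp [a1, a2]

/-- the section of the dual bundle with the coefficient `f` -/
def du (L : LB X ι) (e : X → EuclideanSpace ℂ ι) (f : X → ℂ) (y : X) : EuclideanSpace ℂ ι :=
  LB.act (L.dual.P y) (WithLp.toLp 2 fun j => f y * H181.cf e y j)

theorem bp_du {e : X → EuclideanSpace ℂ ι} (f : X → ℂ) {y : X}
    (h1 : LB.act (L.P y) (e y) = e y) (h0 : e y ≠ 0) : LB.bp (e y) (du L e f y) = f y := by
  have h2 := H181.eq_cf (L.herm y) (L.idem y) (L.tr y) h1 h0 h1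
  have h3 : ∑ j, H181.cf e y j * e y j = 1 :=
    smul_left_injective ℂ h0 (h2.trans (one_smul ℂ _).symm)
  rw [du, show L.dual.P y = (L.P y).transpose from rfl, ← LB.bp_act, h1]
  conv_rhs => rw [← mul_one (f y), ← h3, Finset.mul_sum]
  exact Finset.sum_congr rfl fun j _ => by simp only; ring

omit [IsManifold 𝓘(ℂ, FL.C2) ω X] in
theorem eq_of_bp {x : X} {u v w : EuclideanSpace ℂ ι} (hu : LB.act (L.P x) u = u) (h0 : u ≠ 0)
    (hv : LB.act (L.dual.P x) v = v) (hw : LB.act (L.dual.P x) w = w)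
    (h : LB.bp u v = LB.bp u w) : v = w := by
  have h1 : LB.act (L.dual.P x) (v + (-1 : ℂ) • w) = v + (-1 : ℂ) • w := by
    rw [RR.act_add, RR.act_smul, hv, hw]
  have h2 := (L.bp_eq_zero hu h1 (by rw [LB.bp_add_right, LB.bp_smul_right, h]; ring)).resolve_left
    h0
  rwa [neg_one_smul, ← sub_eq_add_neg, sub_eq_zero] at h2

omit [IsManifold 𝓘(ℂ, FL.C2) ω X] in
theorem frame_at0 {U : Set X} {e : X → EuclideanSpace ℂ ι} (he : H821.HolFrame L a U e) {x : X}
    (hx : x ∈ U) : At0 ∞ 0 e x := by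
  rw [At0, LB.loc0_zero]
  exact he.reg _ (chart_mem_atlas _ x) _ (mem_chart_target _ x)
    (by rwa [(chartAt FL.C2 x).left_inv (mem_chart_source _ x)])

theorem coef_closed {U : Set X} {e : X → EuclideanSpace ℂ ι} (he : H821.HolFrame L a U e)
    {t : X → Fin 2 → EuclideanSpace ℂ ι} (ht : t ∈ RR.Z1 L.dual (-a) 0) {x : X} (hx : x ∈ U) :
    At1 ∞ 0 (fun y i => LB.bp (e y) (t y i)) x ∧
      dbar1 0 (fun y i => LB.bp (e y) (t y i)) x = 0 := by
  obtain ⟨⟨t1, t2⟩, t3⟩ := (RR.mem_Z1 _ _ _).1 ht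
  refine ⟨LB.at1_bp (frame_at0 he hx) (t1.at x), ?_⟩
  have := LB.dbar1_bp (a := a) ((frame_at0 he hx).of_le (by simp)) ((t1.at x).of_le (by simp))
    (he.sec x hx) (t2 x)
  rw [he.hol x hx, t3] at this
  simpa [LB.bp_zero_left, LB.bp_zero_right] using this

theorem du_spec {U : Set X} {e : X → EuclideanSpace ℂ ι} (he : H821.HolFrame L a U e)
    {t : X → Fin 2 → EuclideanSpace ℂ ι} (ht : L.dual.Sec1 t) {f : X → ℂ} {x : X} (hx : x ∈ U)
    (h1 : At0 ∞ 0 f x) (h2 : dbar0 0 f x = fun i => LB.bp (e x) (t x i)) :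
    At0 ∞ 0 (du L e f) x ∧ LB.act (L.dual.P x) (du L e f x) = du L e f x ∧
      t x = L.dual.db0 (-a) 0 (du L e f) x := by
  have a1 : At0 ∞ 0 (du L e f) x := H181.at0_act L.dual le_rfl (H181.at0_of_comp fun j =>
    h1.mul (H181.at0_cf (frame_at0 he hx) (he.ne x hx) j))
  have a2 : LB.act (L.dual.P x) (du L e f x) = du L e f x := L.dual.act_act_P x _
  refine ⟨a1, a2, funext fun i =>
    eq_of_bp (he.sec x hx) (he.ne x hx) (ht x i) (H181.act_db0 a2 i) ?_⟩
  have a3 := LB.dbar0_bp (a := a) ((frame_at0 he hx).of_le (by simp)) (a1.of_le (by simp))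
    (he.sec x hx) a2 i
  have a4 : (fun y => LB.bp (e y) (du L e f y)) =ᶠ[𝓝 x] f := by
    filter_upwards [he.isOpen.mem_nhds hx] with y hy using bp_du f (he.sec y hy) (he.ne y hy)
  rw [dbar0_congr a4, he.hol x hx, add_zero, h2] at a3
  simpa [LB.bp_zero_left] using a3

end gen

variable {Y : W.K3} {n : ℕ} {K : Nik Y n} {A : Nbhd K} {i : Fin n}

theorem ball_sub {b : Bool} {c : Ch Y.X} (h : IsFrame A i b c) : closedBall 0 4 ⊆ c.target := by
  intro v hv
  have h0 := (norm_le_pi_norm v 0).trans (mem_closedBall_zero_iff.1 hv)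
  have h1 := (norm_le_pi_norm v 1).trans (mem_closedBall_zero_iff.1 hv)
  have h2 : ‖dir b (v 1)‖ ≤ 4 := by
    cases b <;> simp [dir, h1]
  rw [h.target]
  refine ⟨by cases b <;> simp [dir], ?_⟩
  have := pow_le_pow_left₀ (norm_nonneg _) h2 2
  nlinarith [norm_nonneg (v 0), sq_nonneg ‖dir b (v 1)‖]

theorem src {b : Bool} {c : Ch Y.X} (h : IsFrame A i b c) {x : Y.X} (hx : x ∈ c.source) :
    SD 100 (c x 0) (dir b (c x 1)) ∧ A.ν i (c x 0) (dir b (c x 1)) = x := by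
  have h1 := c.map_source hx
  refine ⟨by rwa [h.target] at h1, ?_⟩
  rw [← h.symm _ h1, c.left_inv hx]

theorem overlap {c c' : Ch Y.X} (h : IsFrame A i true c) (h' : IsFrame A i false c') {x : Y.X}
    (hx : x ∈ c.source) (hx' : x ∈ c'.source) : c x 1 ≠ 0 ∧ c' x = tr (c x) ∧
      A.E i (c x 0) (dir true (c x 1)) = c x 1 • A.E i (c' x 0) (dir false (c' x 1)) := by
  obtain ⟨τ, t0, t1, t2⟩ := (A.std i).inj _ _ _ _ (src h' hx').1 (src h hx).1
    ((src h' hx').2.trans (src h hx).2.symm)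
  have a1 : 1 = τ * c' x 1 := congrArg Prod.fst t1
  have a2 : c x 1 = τ := (congrArg Prod.snd t1).trans (mul_one τ)
  refine ⟨a2 ▸ t0, funext fun k => ?_, by rw [t1, (A.lift i).hom _ _ _ t0, ← t2, a2]⟩
  fin_cases k
  · exact t2.trans (by rw [← a2]; rfl)
  · exact (eq_inv_of_mul_eq_one_right a1.symm).trans (by rw [← a2]; rfl)

theorem symm_tr {c c' : Ch Y.X} (h : IsFrame A i true c) (h' : IsFrame A i false c') {v : FL.C2}
    (hv : v ∈ c.target) (h0 : v 1 ≠ 0) (hv' : tr v ∈ c'.target) :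
    c'.symm (tr v) = c.symm v := by
  rw [h.symm v hv, h'.symm _ hv']
  refine ((A.std i).hom _ _ _ h0).trans (congrArg _ ?_)
  simp [dir, tr, h0]

end Lc

open Lc in
theorem loc (hF : StFrame) : StLoc := by
  intro Y n K A t ht
  choose c hc using hF Y n K A
  let e : Fin n → Bool → Y.X → EuclideanSpace ℂ K.ι :=
    fun i b y => A.E i (c i b y 0) (dir b (c i b y 1))
  choose f f1 f2 using fun i => scalar' (c := c i) (α := fun b y k => LB.bp (e i b y) (t y k))
    (fun b => (hc i b).mem) (fun b => ball_sub (hc i b))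
    (fun v => symm_tr (hc i true) (hc i false)) (fun b x => coef_closed (hc i b).frame ht)
    fun x hx hx' k => by
      simp only [e, (overlap (hc i true) (hc i false) hx hx').2.2, LB.bp_smul_left]
  have ht2 := ((RR.mem_Z1 _ _ _).1 ht).1.2
  have hs : ∀ i b, ∀ x ∈ (c i b).source ∩ c i b ⁻¹' Bx, _ := fun i b x hx =>
    du_spec (hc i b).frame ht2 hx.1 (f1 i b x hx.1 hx.2).1 (f1 i b x hx.1 hx.2).2
  have hov : ∀ i, ∀ x ∈ (c i true).source ∩ c i true ⁻¹' Bx,
      x ∈ (c i false).source ∩ c i false ⁻¹' Bx →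
      du K.L (e i true) (f i true) x = du K.L (e i false) (f i false) x := fun i x hx hx' => by
    obtain ⟨a1, a2, a3⟩ := overlap (hc i true) (hc i false) hx.1 hx'.1
    have b1 := (hc i true).frame
    have b2 := (hc i false).frame
    refine eq_of_bp (b1.sec x hx.1) (b1.ne x hx.1) (hs i true x hx).2.1 (hs i false x hx').2.1 ?_
    refine (bp_du (e := e i true) _ (b1.sec x hx.1) (b1.ne x hx.1)).trans ?_
    rw [a3, LB.bp_smul_left]
    exact (f2 i x hx.2 hx.1 a1 hx'.2 a2).trans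
      (congrArg _ (bp_du (e := e i false) _ (b2.sec x hx'.1) (b2.ne x hx'.1)).symm)
  have hK : IsCompact (closedBall (0 : FL.C2) 1 ∩ {v | v 0 = 0}) :=
    (isCompact_closedBall _ _).inter_right (isClosed_eq (continuous_apply 0) continuous_const)
  have hKt : ∀ i b, closedBall (0 : FL.C2) 1 ∩ {v | v 0 = 0} ⊆ (c i b).target := fun i b =>
    inter_subset_left.trans ((closedBall_subset_closedBall (by norm_num)).trans (ball_sub (hc i b)))
  obtain ⟨s, s1, s2⟩ := glue (L := K.L.dual) (a := -K.a) (t := t)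
    (W := fun j : Fin n × Bool => (c j.1 j.2).source ∩ c j.1 j.2 ⁻¹' Bx)
    (fun j => (c j.1 j.2).isOpen_inter_preimage isOpen_Bx)
    (σ := fun j => du K.L (e j.1 j.2) (f j.1 j.2)) (fun j => hs j.1 j.2)
    (by
      rintro ⟨i, b⟩ ⟨i', b'⟩ x hx hx'
      obtain rfl : i = i' := A.sep _ _ _ _ _ _ (src (hc i b) hx.1).1 (src (hc i' b') hx'.1).1
        ((src (hc i b) hx.1).2.trans (src (hc i' b') hx'.1).2.symm)
      cases b <;> cases b'
      · rfl
      · exact (hov i x hx' hx).symm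
      · exact hov i x hx hx'
      · rfl)
    (K := ⋃ j : Fin n × Bool, (c j.1 j.2).symm '' (closedBall (0 : FL.C2) 1 ∩ {v | v 0 = 0}))
    (isCompact_iUnion fun j : Fin n × Bool => hK.image_of_continuousOn
      ((c j.1 j.2).continuousOn_symm.mono (hKt _ _))).isClosed
    (iUnion_mono fun j => by
      rintro _ ⟨v, hv, rfl⟩
      refine ⟨(c j.1 j.2).map_target (hKt _ _ hv), ?_⟩
      rw [mem_preimage, (c j.1 j.2).right_inv (hKt _ _ hv)]
      have := (norm_le_pi_norm v 1).trans (mem_closedBall_zero_iff.1 hv.1)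
      exact ⟨by rw [show v 0 = 0 from hv.2]; norm_num, by linarith⟩)
  refine ⟨s, s1, s2.filter_mono (nhdsSet_mono ?_)⟩
  have key : ∀ i b u, ‖u‖ ≤ 1 → (K.C i).g b u ∈ ⋃ j : Fin n × Bool,
      (c j.1 j.2).symm '' (closedBall (0 : FL.C2) 1 ∩ {v | v 0 = 0}) := fun i b u hu => by
    have a1 : (![0, u] : FL.C2) ∈ closedBall (0 : FL.C2) 1 ∩ {v | v 0 = 0} :=
      ⟨mem_closedBall_zero_iff.2 ((pi_norm_le_iff_of_nonneg zero_le_one).2 fun k => by
        fin_cases k <;> simp [hu]), rfl⟩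
    exact mem_iUnion.2 ⟨(i, b), _, a1, ((hc i b).symm _ (hKt i b a1)).trans ((A.std i).zero b u)⟩
  rintro _ ⟨i, b, u, rfl⟩
  rcases le_or_gt ‖u‖ 1 with hu | hu
  · exact key i b u hu
  · rw [← (K.C i).glue b u (norm_pos_iff.1 (by linarith))]
    exact key i _ _ (by rw [norm_inv]; exact inv_le_one_of_one_le₀ hu.le)

end Vale.Agent.P290Z.Nk
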