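import Vale.Agent.P290Z.Nk.Spec
import Vale.Agent.P290Z.Nk.N1.Rat
import Vale.Agent.P290Z.Nk.N1.RC
import Vale.Agent.P290Z.Nk.N1.Sqrt
import Vale.Agent.P290Z.W.H342GeoInst
import Vale.Agent.P290Z.N.Lat
import Vale.Agent.P267.H221.RRMain

/-! P290Z, part III, block N1: even sets of curves. -/

set_option linter.unusedVariables false
set_option linter.unusedSectionVars false

open scoped Manifold ContDiff ComplexConjugate Topology
open Set Filter

noncomputable section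

namespace Vale.Agent.P290Z.Nk

open Vale.Agent.P290 Vale.Agent.P267 Vale.Agent.P267.FL Vale.Agent.P267.RR
open Vale.Agent.P267.H757 (IsNormFn)
open Vale.Agent.P267.H821 (HolFrame)
open Vale.Agent.P267.H332 (intAx)
open Vale.Agent.P290.H342 (UData lbFacts divTh clN_chern ne_zero_of_clN nflbY)
open Vale.Agent.P290.H470 (NC)
open Vale.Agent.P290Z.W.H342 (perU h01 dbarSolve perU_clN)

namespace N1

variable {Y : W.K3} {N : ℕ} (U : UData Y.X N) {ι : Type} [Fintype ι] [DecidableEq ι]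

theorem isec_dual (L : LB Y.X ι) : isec L.dual L.dual = isec L L := by
  have h := (lbFacts Y.X).dual ⟨ι, L⟩
  have h' : L.dual.curv = -L.curv := h
  rw [isec, isec, h']
  congr 2
  funext x
  simp [TwoF.wedge]

theorem clN_div {D : EffDiv Y.X} (A : H451.DivLB D ι) :
    U.clN (fun x => ‖A.s x‖ ^ 2) = U.c1 ⟨ι, A.L⟩ := by
  have h := (H62.divLB_rep A).isNormFn
  refine clN_chern U A.hol h (H821.lbnf A.hol A.s_reg A.s_sec A.s_hol ?_).2
  refine h.dense_ne_zero.mono ?_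
  intro x hx h0
  apply hx
  show ‖A.s x‖ ^ 2 = 0
  simp [h0]

/-- a bundle of type `(1,1)` has a holomorphic structure -/
theorem exists_hol (L : BlockC.ALB Y.X) (h : perU U (U.c1 L) = 0) :
    ∃ (a : Y.X → Fin 2 → ℂ) (k : ℤ), L.L.IsHol a ∧ 2 * k = U.B (U.c1 L) (U.c1 L) ∧
      2 + k ≤ h0 L.L a 0 + h0 L.L.dual (-a) 0 := by
  obtain ⟨-, hS, hR, -⟩ := rrBlock Y.X
  have h0 : intX (fun x => W.H445.Om Y x * L.L.F02 x) = 0 := by
    rw [← h, ← W.H342.pair_OmT U L.L.curv_smooth (U.c1_spec L), BlockC.pair, W.H342.wedge_OmT]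
    rfl
  obtain ⟨a, k, ha, h1, h2⟩ := W.H445.rr_of_orth Y hS hR h01 L.L L.L.reg_F02 h0
  have h3 := U.isec_c1 intAx (lbFacts Y.X) L L
  rw [h1] at h3
  exact ⟨a, k, ha, by exact_mod_cast h3, h2⟩

theorem exists_sec {L : LB Y.X ι} {a : Y.X → Fin 2 → ℂ} (h : h0 L a 0 ≠ 0) :
    ∃ s ∈ H0 L a 0, s ≠ 0 := by
  have hnt : Nontrivial (H0 L a 0) :=
    Module.nontrivial_of_finrank_pos (R := ℂ) (Nat.pos_of_ne_zero h)
  obtain ⟨s, hs⟩ := exists_ne (0 : H0 L a 0)
  exact ⟨s, s.2, fun h => hs (Subtype.ext h)⟩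

theorem frame_of_sec {L : LB Y.X ι} {a : Y.X → Fin 2 → ℂ} (ha : L.IsHol a)
    (hc : U.c1 ⟨ι, L⟩ = 0) (h : h0 L a 0 ≠ 0) : ∃ u, HolFrame L a univ u := by
  obtain ⟨s, hs, hne⟩ := exists_sec h
  obtain ⟨⟨h1, h2⟩, h3⟩ := (mem_H0 _ _ _).1 hs
  have h4 := H821.isSection_of_connected ha h1 h2 (fun x => congrFun h3 x)
    (Function.ne_iff.1 hne)
  have h5 := ne_zero_of_clN U dbarSolve h4.isNormFn_zero
    ((clN_chern U ha h4.isNormFn_zero h4.cF_zero).trans hc)
  exact ⟨s, fr_mk isOpen_univ (fun x _ => h1.at x) (fun x _ => h2 x)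
    (fun x _ h0 => h5 x (by simp [h0])) fun x _ => congrFun h3 x⟩

/-- a holomorphic bundle of class zero is trivial -/
theorem exists_triv {L : LB Y.X ι} {a : Y.X → Fin 2 → ℂ} (ha : L.IsHol a)
    (hc : U.c1 ⟨ι, L⟩ = 0) : ∃ u, HolFrame L a univ u := by
  obtain ⟨-, hS, hR, -⟩ := rrBlock Y.X
  obtain ⟨k, h1, h2, -⟩ := W.H445.rr_ineq Y hS hR h01 L ha
  have h3 := U.isec_c1 intAx (lbFacts Y.X) ⟨ι, L⟩ ⟨ι, L⟩
  rw [hc, map_zero, Int.cast_zero] at h3
  have h4 : k = 0 := by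
    have : (2 * k : ℂ) = 0 := h1.symm.trans h3
    simpa using this
  by_cases h5 : h0 L a 0 = 0
  · obtain ⟨u, hu⟩ := frame_of_sec U ha.dual
      (by rw [U.c1_dual (lbFacts Y.X) ⟨ι, L⟩, hc, neg_zero]) (by omega)
    have := fr_dual hu
    rw [neg_neg] at this
    exact ⟨_, this⟩
  · exact frame_of_sec U ha hc h5

theorem cl_sum {κ : Type} (s : Finset κ) (P : κ → H470.PD Y.X) :
    U.clN (H470.Nm (∑ i ∈ s, Finsupp.single (P i) 1)) = ∑ i ∈ s, U.clN (NC (P i)) := by
  have : U.clN (H470.Nm (∑ i ∈ s, Finsupp.single (P i) 1)) =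
      Finsupp.linearCombination ℕ (fun D : H470.PD Y.X => U.clN (NC D))
        (∑ i ∈ s, Finsupp.single (P i) 1) := (divTh U).cl_Nd (∑ i ∈ s, Finsupp.single (P i) 1)
  simpa only [map_sum, Finsupp.linearCombination_single, one_smul] using this

end N1

open N1

theorem rat : StRat := fun Y P h => by
  obtain ⟨-, hS, hR, -⟩ := rrBlock Y.X
  exact rational Y hS hR h01 P.prime P.lb ((isec_dual _).trans h)

theorem rc : StRC := fun Y _ h => exists_rc Y h

theorem sqrt : StSqrt := by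
  classical
  intro Y N n U P C m hC hsm hdis hm hmm
  have hinj : Function.Injective P := fun i k h => by
    obtain ⟨x, hx⟩ := (P i).infinite.nonempty
    exact hdis i k x hx (h ▸ hx)
  obtain ⟨D, hD⟩ := H470.div_surj (∑ i, Finsupp.single (P i) 1)
  have hcoef : ∀ i, H470.div D (P i) = 1 := fun i => by
    rw [hD, Finsupp.finsetSum_apply, Finset.sum_eq_single i]
    · simp
    · exact fun k _ hk => Finsupp.single_eq_of_ne' fun h => hk (hinj h)
    · simp
  have hsup : ∀ Q ∈ (H470.div D).support, ∃ i, Q = P i := fun Q hQ => by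
    by_contra hc
    push Not at hc
    rw [Finsupp.mem_support_iff, hD, Finsupp.finsetSum_apply] at hQ
    exact hQ (Finset.sum_eq_zero fun i _ => Finsupp.single_eq_of_ne (hc i))
  have hsupp : ∀ y, y ∈ D.supp ↔ ∃ i, y ∈ (P i).1 := fun y => by
    rw [H470.mem_supp_div]
    constructor
    · rintro ⟨Q, hQ, hy⟩
      obtain ⟨i, rfl⟩ := hsup Q hQ
      exact ⟨i, hy⟩
    · rintro ⟨i, hy⟩
      exact ⟨P i, by rw [Finsupp.mem_support_iff, hcoef]; exact one_ne_zero, hy⟩
  obtain ⟨r, ⟨A⟩⟩ := H451.exists_divLB D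
  have hA : U.c1 ⟨_, A.L⟩ = m + m := by
    obtain ⟨ψ, hψ, h1⟩ := H470.factor_of_rep (H62.divLB_rep A)
    obtain ⟨D', h', hr, -⟩ := H470.exists_rep_Nm (H470.div D)
    rw [← clN_div U A, funext h1, hm, ← cl_sum U, ← hD]
    exact (divTh U).cl_exp_mul hr.isNormFn hψ
  obtain ⟨L, rfl⟩ := U.exists_c1 (lbFacts Y.X) m
  obtain ⟨a, -, ha, -⟩ := exists_hol U L (by
    have h1 := congrArg (perU U) hm
    rw [map_add, map_sum, Finset.sum_eq_zero fun i _ => perU_clN U (H470.NC_nf (P i))] at h1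
    exact add_self_eq_zero.1 h1)
  obtain ⟨u, hu⟩ := exists_triv U (L := (L.L.tensor L.L).tensor A.L.dual) (a := a + a + -A.a)
    ((ha.tensor ha).tensor A.hol.dual) (by
      rw [U.c1_tensor (lbFacts Y.X) ⟨_, L.L.tensor L.L⟩ ⟨_, A.L.dual⟩,
        U.c1_tensor (lbFacts Y.X) L L, U.c1_dual (lbFacts Y.X) ⟨_, A.L⟩, hA, add_neg_cancel])
  obtain ⟨S, hS⟩ := exists_S ha A hu
  refine ⟨⟨C, fun i j x hi hj => hdis i j x (hC i ▸ hi) (hC j ▸ hj), L.ι, L.L, a, ha, ?_, S,
    fun x => ?_⟩, rfl, rfl⟩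
  · rw [U.isec_c1 intAx (lbFacts Y.X) L L]
    exact_mod_cast hmm
  obtain ⟨V, e, g, hx, hV, he, hg, hy⟩ := hS x
  have hg' := (holOn_zero_iff_mdifferentiableOn he.isOpen).1 hg
  have hf : ∀ y ∈ V, H815.HolN (fun z => g z * D.f x z) y := fun y hy =>
    (H815.holN_of_on he.isOpen hg' hy).mul (H815.holN_f D x (hV hy))
  have hz : ∀ y ∈ V, g y * D.f x y = 0 ↔ ∃ i, y ∈ (P i).1 := fun y h => by
    rw [mul_eq_zero, ← H815.mem_supp_iff D (hV h), hsupp]
    simp [(hy y h).1]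
  refine ⟨V, e, fun z => g z * D.f x z, hx, he, (holOn_zero_iff_mdifferentiableOn he.isOpen).2
    fun y hy => (hf y hy).self.mdifferentiableWithinAt, fun y h => ⟨(hy y h).2, ?_, fun h0 => ?_⟩⟩
  · simp only [hC]
    exact hz y h
  obtain ⟨i, hi⟩ := (hz y h).1 h0
  obtain ⟨v, hv, hv'⟩ := H470.regAt_prodf (H470.div D) (P i) (y := y) fun Q hQ hne hy => by
    obtain ⟨k, rfl⟩ := hsup Q hQ
    exact hne (congrArg P (hdis k i y hy hi))
  rw [hcoef] at hv'
  have h1 : H815.Assoc (fun z => g z * D.f x z) ((P i).eff.f y) y :=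
    H815.Assoc.trans ⟨g, ⟨H815.holN_of_on he.isOpen hg' h, (hy y h).1⟩,
      Eventually.of_forall fun z => rfl⟩ ((H815.assoc_f D (hV h) (D.mem y)).trans
        ((H470.div_spec D y).trans ⟨v, hv, by simpa using hv'⟩))
  have h2 : (P i).eff.f y y = 0 := by
    rw [← (P i).supp_eq] at hi
    exact hi
  have h3 := (H815.mfderiv_ne_zero_iff y (mem_chart_source _ y) (hf y h).self).1
    ((h1.differential (H815.holN_f _ y ((P i).eff.mem y)) h2).2
      ((hsm i).1 y y ((P i).eff.mem y) h2))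
  intro h4
  apply h3
  have h5 : DifferentiableAt ℂ (fun z => g ((chartAt (ℂ × ℂ) y).symm z) * D.f x ((chartAt (ℂ × ℂ) y).symm z))
      (chartAt (ℂ × ℂ) y y) :=
    DifferentiableAt.comp (f := H445.φ) (chartAt (ℂ × ℂ) y y)
      (hf y h).analyticAt.differentiableAt H445.φ.differentiableAt
  have h6 := h5.hasFDerivAt
  rw [h4] at h6
  have h7 := h6.comp (chartAt FL.C2 y y) (H445.φ.symm : FL.C2 →L[ℂ] ℂ × ℂ).hasFDerivAt
  rw [ContinuousLinearMap.zero_comp] at h7
  exact h7.fderiv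

theorem primes : StPrimes := by
  classical
  intro Y N n U e h
  obtain ⟨hF, hS, hR, -⟩ := rrBlock Y.X
  have hB : ∀ (v : Fin N → ℤ) (c : Fin n → ℤ) (j : Fin n),
      U.B (∑ i, c i • e i) (e j) = -2 * c j := fun v c j => by
    simp only [map_sum, map_zsmul, AddMonoidHom.finsetSum_apply, AddMonoidHom.smul_apply,
      smul_eq_mul, h.orth]
    simp [mul_comm]
  have hneg : ∀ v, IsNS U v → v ≠ 0 → U.B v v < 0 := fun v hv h0 => by
    have h1 : (2 : ℤ) • v + ∑ i, U.B v (e i) • e i = 0 := by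
      refine h.span _ ?_ fun j => ?_
      · change perU U _ = 0
        have h2 : ∀ i, perU U (e i) = 0 := h.ns
        have h3 : perU U v = 0 := hv
        simp only [map_sum, map_add, map_zsmul, h2, h3, smul_zero, Finset.sum_const_zero, add_zero]
      · rw [map_add, AddMonoidHom.add_apply, hB v, map_zsmul, AddMonoidHom.smul_apply, smul_eq_mul]
        ring
    have h2 := congrArg (U.B v) h1
    simp only [map_add, map_zsmul, map_sum, smul_eq_mul, map_zero] at h2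
    have h3 : 0 < ∑ i, U.B v (e i) * U.B v (e i) := by
      obtain ⟨i, hi⟩ : ∃ i, U.B v (e i) ≠ 0 := by
        by_contra hc
        push Not at hc
        exact h0 (h.span v hv hc)
      exact Finset.sum_pos' (fun i _ => mul_self_nonneg _)
        ⟨i, Finset.mem_univ _, mul_self_pos.2 hi⟩
    omega
  have hcl : ∀ D : H470.PD Y.X, U.clN (NC D) = U.c1 ⟨_, D.lb.L⟩ := fun D => clN_div U D.lb
  have hsq : ∀ D : H470.PD Y.X, U.B (U.clN (NC D)) (U.clN (NC D)) = -2 := fun D => by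
    obtain ⟨k, h1, h2⟩ := W.H470.self_ge Y hF hS hR h01 D.prime D.lb
    have h3 := U.isec_c1 intAx (lbFacts Y.X) ⟨_, D.lb.L⟩ ⟨_, D.lb.L⟩
    rw [← hcl] at h3
    have h4 : 2 * k = U.B (U.clN (NC D)) (U.clN (NC D)) := by exact_mod_cast h1.symm.trans h3
    have h5 := hneg _ (perU_clN U (H470.NC_nf D)) fun h0 => by
      obtain ⟨x, hx⟩ := (divTh U).zero D
      exact ne_zero_of_clN U dbarSolve (H470.NC_nf D) h0 x hx
    omega
  have hroot : ∀ D : H470.PD Y.X, ∃ i, U.clN (NC D) = e i ∨ U.clN (NC D) = -e i := fun D =>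
    h.root _ (perU_clN U (H470.NC_nf D)) (hsq D)
  have huniq : ∀ (D D' : H470.PD Y.X) (i : Fin n), (U.clN (NC D) = e i ∨ U.clN (NC D) = -e i) →
      (U.clN (NC D') = e i ∨ U.clN (NC D') = -e i) → D = D' := fun D D' i h1 h2 => by
    by_contra hne
    have h3 : 0 ≤ U.B (U.clN (NC D)) (U.clN (NC D')) :=
      (divTh U).int_nonneg _ _ (H470.NC_nf D) (H470.NC_nf D') ((divTh U).finite D D' hne)
    have h4 : U.clN (NC D) + U.clN (NC D') ≠ 0 := fun h0 => by
      obtain ⟨x, hx⟩ := (divTh U).zero D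
      refine ne_zero_of_clN U dbarSolve ((H470.NC_nf D).mul (H470.NC_nf D'))
        ((U.clN_mul (nflbY Y.X) (H470.NC_nf D) (H470.NC_nf D')).trans h0) x ?_
      exact mul_eq_zero_of_left hx _
    have h5 := h.orth i i
    rw [if_pos rfl] at h5
    rcases h1 with h1 | h1 <;> rcases h2 with h2 | h2 <;> rw [h1, h2] at h3 h4
    · omega
    · simp at h4
    · simp at h4
    · simp only [map_neg, AddMonoidHom.neg_apply, neg_neg] at h3
      omega
  have hex : ∀ i, ∃ D : H470.PD Y.X, U.clN (NC D) = e i ∨ U.clN (NC D) = -e i := fun i => by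
    have h5 := h.orth i i
    rw [if_pos rfl] at h5
    obtain ⟨N', hN', hc⟩ : ∃ N' : Y.X → ℝ, IsNormFn FL.C2 N' ∧ U.B (U.clN N') (e i) ≠ 0 := by
      obtain ⟨L, hL⟩ := U.exists_c1 (lbFacts Y.X) (e i)
      obtain ⟨a, k, ha, h1, h2⟩ := exists_hol U L (by rw [hL]; exact h.ns i)
      rw [hL, h5] at h1
      by_cases h3 : h0 L.L a 0 = 0
      · obtain ⟨s, hs, hne⟩ := exists_sec (L := L.L.dual) (a := -a) (by omega)
        obtain ⟨N', h4, h6⟩ := H342.exists_nf_of_section U ha.dual hs hne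
        refine ⟨N', h4, ?_⟩
        rw [h6, U.c1_dual (lbFacts Y.X) L, hL, map_neg, AddMonoidHom.neg_apply, h5]
        decide
      · obtain ⟨s, hs, hne⟩ := exists_sec h3
        obtain ⟨N', h4, h6⟩ := H342.exists_nf_of_section U ha hs hne
        refine ⟨N', h4, ?_⟩
        rw [h6, hL, h5]
        decide
    by_contra hcon
    push Not at hcon
    have h1 : ∀ D : H470.PD Y.X, U.B (U.clN (NC D)) (e i) = 0 := fun D => by
      obtain ⟨j, hj⟩ := hroot D
      have h2 : j ≠ i := by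
        rintro rfl
        exact hj.elim (hcon D).1 (hcon D).2
      rcases hj with hj | hj <;> simp [hj, h.orth, h2]
    obtain ⟨d, h2⟩ : ∃ d : H470.PD Y.X →₀ ℕ, U.clN N' =
        Finsupp.linearCombination ℕ (fun D : H470.PD Y.X => U.clN (NC D)) d :=
      ⟨(divTh U).dv N', ((divTh U).cl_dv hN').symm.trans
        (((divTh U).cls_eq _).trans ((divTh U).cl_Nd _))⟩
    apply hc
    rw [h2, Finsupp.linearCombination_apply, Finsupp.sum, map_sum, AddMonoidHom.finsetSum_apply]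
    exact Finset.sum_eq_zero fun D _ => by
      rw [map_nsmul, AddMonoidHom.nsmul_apply, h1, smul_zero]
  choose P hP using hex
  refine ⟨P, hP, fun i k x hi hk => ?_, fun D => ?_, fun i => ?_⟩
  · by_contra hik
    have h1 : U.B (U.clN (NC (P i))) (U.clN (NC (P k))) = 0 := by
      rcases hP i with h1 | h1 <;> rcases hP k with h2 | h2 <;> simp [h1, h2, h.orth, hik]
    refine (divTh U).disjoint_of_zero (C := P i) (C' := P k) (fun h2 => ?_) h1 x
      ((H470.NC_zero_iff _ x).2 hi) ((H470.NC_zero_iff _ x).2 hk)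
    rw [← h2, hsq] at h1
    omega
  · obtain ⟨i, hi⟩ := hroot D
    exact ⟨i, huniq _ _ i hi (hP i)⟩
  · rw [U.isec_c1 intAx (lbFacts Y.X) ⟨_, (P i).lb.L⟩ ⟨_, (P i).lb.L⟩, ← hcl, hsq]
    simp

theorem n1 : StN1 := by
  classical
  intro Y N n U e h
  obtain ⟨P, h1, h2, h3, h4⟩ := primes Y N n U e h
  choose C hC using fun i => rc Y _ (rat Y (P i) (h4 i))
  obtain ⟨m, hm⟩ := h.half
  have h5 : ∀ i, ∃ c : ℤ, U.clN (NC (P i)) = e i + (c • e i + c • e i) := fun i =>
    (h1 i).elim (fun h => ⟨0, by simp [h]⟩) fun h => ⟨-1, by simp [h]⟩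
  choose c hc using h5
  have h6 : m + ∑ i, c i • e i + (m + ∑ i, c i • e i) = ∑ i, U.clN (NC (P i)) := by
    simp only [hc, Finset.sum_add_distrib, ← hm]
    abel
  have h7 : ∀ i k, U.B (U.clN (NC (P i))) (U.clN (NC (P k))) = if i = k then -2 else 0 :=
    fun i k => by
      by_cases hik : i = k
      · subst hik
        rcases h1 i with h8 | h8 <;> simp [h8, h.orth]
      · rcases h1 i with h8 | h8 <;> rcases h1 k with h9 | h9 <;> simp [h8, h9, h.orth, hik]
  obtain ⟨K, hK, hK'⟩ := sqrt Y N n U P C _ (fun i => (hC i).trans (P i).supp_eq)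
    (fun i => rat Y (P i) (h4 i)) h2 h6 (by
      generalize m + ∑ i, c i • e i = m' at h6 ⊢
      have h8 : U.B (m' + m') (m' + m') = -2 * n := by
        rw [h6]
        simp only [map_sum, AddMonoidHom.finsetSum_apply, h7]
        simp [mul_comm]
      simp only [map_add, AddMonoidHom.add_apply] at h8
      omega)
  exact ⟨K, P, fun i => by rw [hK, hC, (P i).supp_eq], h1, h3, by rw [hK', h6]⟩

/-- from the lattice to the surface -/
theorem nse_of_nse {Y : W.K3} {M n : ℕ} (U : UData Y.X M) {s : Fin M → ℂ}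
    (hs : BlockC.ExactTwo ((⟨W.H445.Om Y, 0, 0⟩ : TwoF Y.X) - U.combC s)) (h : N.NSE U.G s n) :
    ∃ e : Fin n → Fin M → ℤ, NSE U e := by
  have hB : ∀ x y, U.B x y = H726.bil U.G x y := fun x y => by
    rw [U.B_apply, H726.bil]
    exact Finset.sum_congr rfl fun i _ => Finset.sum_congr rfl fun j _ => by
      rw [Int.cast_id]; ring
  have hN : ∀ v, IsNS U v ↔ H726.bil U.G s (Orb.ic v) = 0 := fun v => by
    have h1 := U.combC_mem (lbFacts Y.X) s
    have h2 := U.comb_mem (lbFacts Y.X) v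
    have h3 : W.H342.OmT Y = W.H342.OmT Y - U.combC s + U.combC s := by abel
    have h4 : (W.H342.OmT Y - U.combC s).Smooth :=
      ((H332.HC Y.X).sub_mem (W.H342.OmT_mem Y) h1).1
    have h5 : BlockC.pair (W.H342.OmT Y) (U.comb v) =
        -(4 * (Real.pi : ℂ) ^ 2) * H726.bil U.G s (Orb.ic v) := by
      have h6 : BlockC.pair (W.H342.OmT Y - U.combC s) (U.comb v) = 0 := H342.pair_exact intAx hs h2
      rw [h3, H342.pair_add_left intAx h4 h1.1 h2.1, h6, zero_add,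
        UData.comb, U.pair_combC (lbFacts Y.X) intAx, H726.bil]
      congr 1
      exact Finset.sum_congr rfl fun i _ => Finset.sum_congr rfl fun j _ => by
        simp only [Orb.ic]; ring
    change BlockC.pair (W.H342.OmT Y) (U.comb v) = 0 ↔ _
    rw [h5]
    simp [Real.pi_ne_zero]
  obtain ⟨r, h1, h2, ⟨m, h3⟩, h4, h5⟩ := h
  exact ⟨r, fun i => (hN _).2 (h1 i), fun i j => by rw [hB, h2], ⟨m, by rw [← h3, two_smul]⟩,
    fun x hx h => h4 x ((hN x).1 hx) (by rw [← hB, h]),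
    fun x hx h => h5 x ((hN x).1 hx) fun i => by rw [← hB, h]⟩

end Vale.Agent.P290Z.Nk
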