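import Vale.Agent.P290Z.Nk.DefsA
import Vale.Agent.P268.Hol

/-!
# P290Z, part III: odd holomorphic maps in the coordinates of the blow up
-/

set_option linter.unusedVariables false
set_option linter.unusedSectionVars false

open scoped Topology Real
open Set Filter Metric

noncomputable section

namespace Vale.Agent.P290Z.Nk

open Vale.Agent.P290

namespace ODD

variable {F : Type} [NormedAddCommGroup F] [NormedSpace ℂ F] [CompleteSpace F] {g : ℂ → F}

theorem even {s : ℂ} (h0 : g 0 = 0) (h : g (-s) = -g s) : dslope g 0 (-s) = dslope g 0 s := by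
  rcases eq_or_ne s 0 with rfl | hs
  · rw [neg_zero]
  · rw [dslope_of_ne _ hs, dslope_of_ne _ (neg_ne_zero.2 hs), slope_def_module, slope_def_module,
      h0, h]
    simp

theorem cauchy {ρ : ℝ} {U : Set ℂ} (hU : IsOpen U) (hρ : closedBall 0 ρ ⊆ U)
    (hg : DifferentiableOn ℂ g U) (h0 : g 0 = 0) {s : ℂ} (hs : s ∈ ball (0 : ℂ) ρ)
    (h : g (-s) = -g s) :
    dslope g 0 s = (2 * π * Complex.I : ℂ)⁻¹ • ∮ z in C(0, ρ), (z ^ 2 - s ^ 2)⁻¹ • g z := by
  have ρ0 : 0 < ρ := pos_of_mem_ball hs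
  have hk := ((Complex.differentiableOn_dslope
    (hU.mem_nhds (hρ (mem_closedBall_self ρ0.le)))).2 hg).mono hρ
  have hs' : -s ∈ ball (0 : ℂ) ρ := by simpa using hs
  have ne : ∀ {w : ℂ}, w ∈ ball (0 : ℂ) ρ → ∀ z ∈ sphere (0 : ℂ) ρ, z - w ≠ 0 :=
    fun hw z hz e => (mem_ball.1 hw).ne (sub_eq_zero.1 e ▸ mem_sphere.1 hz)
  have it : ∀ {w : ℂ}, w ∈ ball (0 : ℂ) ρ →
      CircleIntegrable (fun z => (z - w)⁻¹ • dslope g 0 z) 0 ρ := fun hw =>
    ContinuousOn.circleIntegrable ρ0.le (((continuousOn_id.sub continuousOn_const).inv₀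
      (ne hw)).smul (hk.continuousOn.mono sphere_subset_closedBall))
  have e : (∮ z in C(0, ρ), (z ^ 2 - s ^ 2)⁻¹ • g z) = (2 : ℂ)⁻¹ •
      ∮ z in C(0, ρ), ((z - s)⁻¹ • dslope g 0 z + (z - -s)⁻¹ • dslope g 0 z) := by
    rw [← circleIntegral.integral_smul]
    refine circleIntegral.integral_congr ρ0.le fun z hz => ?_
    have e1 := sub_smul_dslope g 0 z
    rw [h0, sub_zero, sub_zero] at e1
    have n1 := ne hs z hz
    have n2 := ne hs' z hz
    rw [← e1, ← add_smul, smul_smul, smul_smul, show z ^ 2 - s ^ 2 = (z - s) * (z - -s) by ring]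
    congr 1
    field_simp
    ring
  rw [e, circleIntegral.integral_add (it hs) (it hs'), hk.circleIntegral_sub_inv_smul hs,
    hk.circleIntegral_sub_inv_smul hs', even h0 h, ← add_smul, smul_smul, smul_smul]
  have := Complex.two_pi_I_ne_zero
  rw [show (2 * π * Complex.I : ℂ)⁻¹ * 2⁻¹ * (2 * π * Complex.I + 2 * π * Complex.I) = 1 by
    field_simp; ring, one_smul]

theorem sq_root (h : ℂ) : (h ^ (2⁻¹ : ℂ)) ^ 2 = h := Complex.cpow_ofNat_inv_pow h 2

theorem lt_of_sq {s : ℂ} {ρ : ℝ} (hρ : 0 ≤ ρ) (h : ‖s ^ 2‖ < ρ ^ 2) : ‖s‖ < ρ :=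
  lt_of_pow_lt_pow_left₀ 2 hρ (by rwa [norm_pow] at h)

end ODD

open ODD

theorem oddFn : StOddFn := by
  intro F _ _ _ r ψ hr hψ odd
  have mem : ∀ {s : ℂ} {d : C2}, ‖s‖ * ‖d‖ < r → s • d ∈ ball (0 : C2) r := fun h => by
    rwa [mem_ball_zero_iff, norm_smul]
  have h0 : ψ 0 = 0 := by
    have := odd 0 (mem_ball_self hr)
    rw [neg_zero] at this
    exact (smul_eq_zero.1 (show (2 : ℂ) • ψ 0 = 0 by
      rw [two_smul]; exact add_eq_zero_iff_eq_neg.2 this)).resolve_left two_ne_zero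
  have z0 : ∀ d : C2, (fun z : ℂ => ψ (z • d)) 0 = 0 := fun d => by simp only [zero_smul, h0]
  have od : ∀ {s : ℂ} {d : C2}, ‖s‖ * ‖d‖ < r →
      (fun z : ℂ => ψ (z • d)) (-s) = -(fun z : ℂ => ψ (z • d)) s := fun h => by
    simp only [neg_smul, odd _ (mem h)]
  refine ⟨fun v => dslope (fun z : ℂ => ψ (z • v.2)) 0 (v.1 ^ (2⁻¹ : ℂ)), fun v hv => ?_,
    fun s d h => ?_⟩
  · have h1 : √‖v.1‖ * ‖v.2‖ < r := lt_of_pow_lt_pow_left₀ 2 hr.le (by
      rw [mul_pow, Real.sq_sqrt (norm_nonneg _)]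
      exact hv)
    obtain ⟨b, hb1, hb⟩ : ∃ b, b * ‖v.2‖ < r ∧ √‖v.1‖ < b :=
      ((((continuous_mul_const ‖v.2‖).continuousAt.eventually_lt continuousAt_const h1).filter_mono
        (nhdsWithin_le_nhds (s := Ioi √‖v.1‖))).and self_mem_nhdsWithin).exists
    obtain ⟨ρ, r1, r2⟩ := exists_between hb
    obtain ⟨a, a1, a2⟩ := exists_between r1
    have a0 : 0 ≤ a := (Real.sqrt_nonneg _).trans a1.le
    have hU : IsOpen {w : ℂ × C2 | ‖w.1‖ < a ^ 2 ∧ b * ‖w.2‖ < r} :=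
      (isOpen_lt continuous_fst.norm continuous_const).inter
        (isOpen_lt (continuous_const.mul continuous_snd.norm) continuous_const)
    have hW : IsOpen {z : ℂ | a < ‖z‖ ∧ ‖z‖ < b} :=
      (isOpen_lt continuous_const continuous_norm).inter (isOpen_lt continuous_norm continuous_const)
    have le : ∀ {z : ℂ} {d : C2}, ‖z‖ < b → b * ‖d‖ < r → ‖z‖ * ‖d‖ < r := fun h h' =>
      (mul_le_mul_of_nonneg_right h.le (norm_nonneg _)).trans_lt h'
    have hd := P268.differentiableOn_circleIntegral (c := 0) (R := ρ)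
      (G := fun p : (ℂ × C2) × ℂ => (p.2 ^ 2 - p.1.1)⁻¹ • ψ (p.2 • p.1.2)) (a0.trans a2.le) hU hW
      (fun z hz => by
        rw [mem_sphere_zero_iff_norm] at hz
        exact ⟨hz ▸ a2, hz ▸ r2⟩)
      (DifferentiableOn.smul (DifferentiableOn.inv (by fun_prop) fun p hp e => by
          have := lt_of_sq a0 (sub_eq_zero.1 e ▸ hp.1.1 : ‖p.2 ^ 2‖ < a ^ 2)
          exact this.not_gt hp.2.1)
        (hψ.comp (by fun_prop) fun p hp => mem (le hp.2.2 hp.1.2)))
    refine (((hd.const_smul (2 * π * Complex.I : ℂ)⁻¹).congr fun w hw => ?_).differentiableAt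
      (hU.mem_nhds ⟨(Real.sqrt_lt' (lt_of_le_of_lt (Real.sqrt_nonneg _) a1)).1 a1,
        hb1⟩)).differentiableWithinAt
    have s1 : ‖w.1 ^ (2⁻¹ : ℂ)‖ < a := lt_of_sq a0 (by rw [sq_root]; exact hw.1)
    have := cauchy (g := fun z : ℂ => ψ (z • w.2)) (ρ := ρ) isOpen_ball
      (closedBall_subset_ball r2) (hψ.comp (by fun_prop) fun z hz =>
        mem (le (mem_ball_zero_iff.1 hz) hw.2)) (z0 _) (mem_ball_zero_iff.2 (s1.trans a2))
      (od (le (s1.trans (a2.trans r2)) hw.2))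
    rw [sq_root] at this
    exact this
  · have e := sub_smul_dslope (fun z : ℂ => ψ (z • d)) 0 s
    rw [zero_smul, h0, sub_zero, sub_zero] at e
    rcases sq_eq_sq_iff_eq_or_eq_neg.1 (sq_root (s ^ 2)) with h1 | h1
    · simp only [h1, e]
    · simp only [h1, even (g := fun z : ℂ => ψ (z • d)) (z0 d) (od h), e]

end Vale.Agent.P290Z.Nk
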