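import Vale.Agent.P290Z.Nk.SpecC
import Vale.Agent.P290.H416.SurfFL
import Vale.Agent.P290.H416.Herm
import Vale.Agent.P290.H686.Lin

/-! P290Z, part III, block N2: odd classes in `H^{0,1}` are classes of closed forms. -/

set_option linter.unusedVariables false
set_option linter.unusedSectionVars false

open scoped Manifold ContDiff ComplexConjugate Topology Matrix ComplexOrder
open Set Filter

noncomputable section

namespace Vale.Agent.P290Z.Nk

open Vale.Agent.P290 Vale.Agent.P267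
open Vale.Agent.P290.H445 (φ)
open Vale.Agent.P290.H686 (IsSm Df rep pb1 pb2)

namespace OddAux

/-- the abstract argument -/
theorem abs_odd {Ω0 Ω1 Ω2 Ω3 : Type*} [AddCommGroup Ω0] [Module ℂ Ω0] [AddCommGroup Ω1]
    [Module ℂ Ω1] [AddCommGroup Ω2] [Module ℂ Ω2] [AddCommGroup Ω3] [Module ℂ Ω3]
    (C : H469.Calc Ω0 Ω1 Ω2 Ω3) (G : H416.GFun C) (J0 : Ω0 →ₗ[ℂ] Ω0) (J1 : Ω1 →ₗ[ℂ] Ω1)
    (h00 : ∀ u, J0 (J0 u) = u) (h1 : J0 C.one = C.one)
    (hd0 : ∀ u, J1 (C.p01 (C.d0 u)) = C.p01 (C.d0 (J0 u)))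
    (htr : ∀ a, J0 (C.tr (C.d1 a)) = C.tr (C.d1 (J1 a)))
    {a : Ω1} (ha : C.is01 a) (h2 : C.p02 (C.d1 a) = 0) (hodd : J1 a = -a) :
    ∃ (w : Ω1) (u : Ω0), C.is01 w ∧ C.d1 w = 0 ∧ J1 w = -w ∧ a = w + C.p01 (C.d0 u) := by
  set g := C.tr (C.d1 a) with hg
  set c : ℂ := G.G g / G.G C.one with hc
  obtain ⟨u, hu⟩ := G.G_surj (g - c • C.one) (by
    rw [map_sub, map_smul, smul_eq_mul, hc, div_mul_cancel₀ _ G.G_one, sub_self])
  have hJg : J0 g = -g := by rw [hg, htr, hodd, map_neg, map_neg]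
  have hu' : C.tr (C.d1 (C.p01 (C.d0 (J0 u)))) = -g - c • C.one := by
    rw [← hd0, ← htr, hu, map_sub, map_smul, hJg, h1]
  set v : Ω0 := (1 / 2 : ℂ) • (u - J0 u) with hv
  have hvg : C.tr (C.d1 (C.p01 (C.d0 v))) = g := by
    simp only [hv, map_smul, map_sub]
    rw [hu, hu']
    module
  have hJv : J0 v = -v := by
    rw [hv, map_smul, map_sub, h00, ← smul_neg, neg_sub]
  have h01 : C.is01 (a - C.p01 (C.d0 v)) := by
    unfold H469.Calc.is01 at *
    rw [map_sub, ha, C.p01_idem]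
  refine ⟨a - C.p01 (C.d0 v), v, h01, ?_, ?_, by abel⟩
  · refine C.d1_eq_zero_of_prim h01 ?_ ?_
    · rw [map_sub, map_sub, h2, (C.is11_ddc v).p02_eq, sub_zero]
    · rw [map_sub, map_sub, hvg, sub_self]
  · rw [map_sub, hodd, hd0, hJv, map_neg, map_neg]
    abel

theorem det_bar (J : Matrix (Fin 2) (Fin 2) ℂ) : (J.map conj).det = conj J.det := by
  simp only [Matrix.det_fin_two, Matrix.map_apply, map_sub, map_mul]

theorem tr_inv {J : Matrix (Fin 2) (Fin 2) ℂ} (hJ : J.det ≠ 0) (h g : Matrix (Fin 2) (Fin 2) ℂ) :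
    ((Jᵀ * h * J.map conj)⁻¹ * (Jᵀ * g * J.map conj)).trace = (h⁻¹ * g).trace := by
  have hT : IsUnit Jᵀ.det := by
    rw [Matrix.det_transpose]; exact hJ.isUnit
  have hc : IsUnit (J.map conj).det := by
    rw [det_bar]
    exact ((map_ne_zero _).2 hJ).isUnit
  rw [Matrix.mul_inv_rev, Matrix.mul_inv_rev]
  set K := J.map conj
  have h1 : K⁻¹ * (h⁻¹ * Jᵀ⁻¹) * (Jᵀ * g * K) = K⁻¹ * ((h⁻¹ * g) * K) := by
    simp only [Matrix.mul_assoc]
    rw [← Matrix.mul_assoc Jᵀ⁻¹ Jᵀ, Matrix.nonsing_inv_mul _ hT, Matrix.one_mul]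
  rw [h1, Matrix.trace_mul_comm K⁻¹, Matrix.mul_assoc, Matrix.mul_nonsing_inv _ hc,
    Matrix.mul_one]

theorem psd_pull (J : Matrix (Fin 2) (Fin 2) ℂ) {h : Matrix (Fin 2) (Fin 2) ℂ} (hh : h.PosDef) :
    (Jᵀ * h * J.map conj).PosSemidef := by
  have h1 : Jᵀ = (J.map conj)ᴴ := by
    ext i j
    simp [Matrix.conjTranspose_apply]
  rw [h1]
  exact hh.posSemidef.conjTranspose_mul_mul_same _

section gen

open Vale.Agent.P267.FL Vale.Agent.P267.H469 Vale.Agent.P290.H686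

variable {X : Type*} [TopologicalSpace X] [ChartedSpace FL.C2 X]
variable {j : X → X} {J : X → Matrix (Fin 2) (Fin 2) ℂ}

theorem pb1_eq (hJ : ∀ x v, Df j x v = J x *ᵥ v) (A : OneF X) (x : X) :
    (pb1 j A).f10 x = A.f10 (j x) ᵥ* J x ∧ (pb1 j A).f01 x = A.f01 (j x) ᵥ* (J x).map conj := by
  refine ev1_inj ((val1_pb1 j A x).trans ?_)
  ext v
  rw [ContinuousLinearMap.comp_apply, hJ, val1, ev1_apply, ev1_apply]
  simp only [Fin.sum_univ_two, Matrix.mulVec, Matrix.vecMul, dotProduct, Matrix.map_apply, map_add,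
    map_mul]
  ring

theorem pb2_eq (hJ : ∀ x v, Df j x v = J x *ᵥ v) (F : TwoF X) (x : X) :
    (pb2 j F).f11 x = (J x)ᵀ * F.f11 (j x) * (J x).map conj := by
  refine (ev2_inj (f' := (J x).det * F.f20 (j x)) (h' := conj (J x).det * F.f02 (j x))
    ((val2_pb2 j F x).trans ?_)).2.1
  ext v w
  rw [ContinuousLinearMap.bilinearComp_apply, hJ, hJ, val2, ev2_apply, ev2_apply]
  simp only [Fin.sum_univ_two, Matrix.mulVec, dotProduct, Matrix.map_apply, map_add, map_sub,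
    map_mul, Matrix.mul_apply, Matrix.transpose_apply, Matrix.det_fin_two]
  ring

variable [IsManifold 𝓘(ℂ, FL.C2) ω X]

theorem det_ne (hs : IsSm j) (hjj : ∀ x, j (j x) = x) (hJ : ∀ x v, Df j x v = J x *ᵥ v) (x : X) :
    (J x).det ≠ 0 := by
  have h1 := Df_comp hs hs x
  rw [funext hjj, Df_id] at h1
  have h2 : Function.Injective (J x).mulVec := fun v w hvw => by
    have h3 := congrArg (fun L => L v) h1
    have h4 := congrArg (fun L => L w) h1
    simp only [ContinuousLinearMap.id_apply, ContinuousLinearMap.comp_apply, hJ] at h3 h4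
    rw [h3, h4, hvw]
  exact ((Matrix.isUnit_iff_isUnit_det _).1 (Matrix.mulVec_injective_iff_isUnit.1 h2)).ne_zero

/-- pull back of smooth functions -/
def pull0 (hs : IsSm j) : S0 X →ₗ[ℂ] S0 X where
  toFun u := ⟨fun x => u.1 (j x), reg0_comp hs u.2⟩
  map_add' _ _ := rfl
  map_smul' _ _ := rfl

variable [T2Space X] [CompactSpace X] [ConnectedSpace X]

/-- pull back of smooth one-forms -/
def pull1 (hs : IsSm j) : Om1 X →ₗ[ℂ] Om1 X where
  toFun A := H416.mk1 (pb1 j (H416.toA A)) (pb1_smooth hs (H416.toA_smooth A))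
  map_add' A B :=
    Prod.ext (Subtype.ext (congrArg OneF.f10 (pb1_add j (H416.toA A) (H416.toA B))))
      (Subtype.ext (congrArg OneF.f01 (pb1_add j (H416.toA A) (H416.toA B))))
  map_smul' c A :=
    Prod.ext (Subtype.ext (congrArg OneF.f10 (pb1_smul j c (H416.toA A))))
      (Subtype.ext (congrArg OneF.f01 (pb1_smul j c (H416.toA A))))

theorem exists_inv (hs : IsSm j) (hjj : ∀ x, j (j x) = x) (hJ : ∀ x v, Df j x v = J x *ᵥ v) :
    ∃ h : X → Matrix (Fin 2) (Fin 2) ℂ, IsHerm h ∧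
      ∀ x, h x = (J x)ᵀ * h (j x) * (J x).map conj := by
  obtain ⟨h0, hh0⟩ := H416.exists_isHerm X
  set H0 : TwoF X := ⟨0, h0, 0⟩ with hH0
  have hsm : H0.Smooth := ⟨(S20 X).zero_mem, hh0.smooth, (S02 X).zero_mem⟩
  have hinv : pb2 j (H0 + pb2 j H0) = H0 + pb2 j H0 := by
    rw [pb2_add, ← pb2_comp hs hs, funext hjj, pb2_id, add_comm]
  refine ⟨(H0 + pb2 j H0).f11, ⟨fun x => ?_, ?_⟩, fun x => ?_⟩
  · change (h0 x + (pb2 j H0).f11 x).PosDef
    rw [pb2_eq hJ]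
    exact (hh0.posDef x).add_posSemidef (psd_pull _ (hh0.posDef _))
  · exact (S11 X).add_mem hh0.smooth (pb2_smooth hs hsm).s11
  · rw [← pb2_eq hJ, hinv]

theorem odd_gen (hs : IsSm j) (hjj : ∀ x, j (j x) = x) (hJ : ∀ x v, Df j x v = J x *ᵥ v)
    (α : X → Fin 2 → ℂ) (hα : Reg1 ∞ 0 α) (hd : ∀ x, dbar1 0 α x = 0)
    (hodd : pb1 j ⟨0, α⟩ = -⟨0, α⟩) :
    ∃ (β : X → Fin 2 → ℂ) (u : X → ℂ), Reg1 ∞ 0 β ∧ Reg0 ∞ 0 u ∧
      (⟨0, β⟩ : OneF X).d = 0 ∧ pb1 j ⟨0, β⟩ = -⟨0, β⟩ ∧ α = β + dbar0 0 u := by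
  obtain ⟨h, hh, hinv⟩ := exists_inv hs hjj hJ
  obtain ⟨w, u, hw1, hw2, hw3, hw4⟩ := abs_odd (H416.calc0 hh) (H416.scal0 hh) (pull0 hs)
    (pull1 hs) (fun u => Subtype.ext (funext fun x => congrArg u.1 (hjj x))) rfl
    (fun u => by
      refine Prod.ext (Subtype.ext (funext fun x => ?_)) (Subtype.ext (funext fun x => ?_))
      · exact (pb1_eq hJ ⟨0, dbar0 0 u.1⟩ x).1.trans (Matrix.zero_vecMul _)
      · exact (pb1_eq hJ ⟨0, dbar0 0 u.1⟩ x).2.trans ((pb1_eq hJ (dF0 u.1) x).2.symm.trans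
          (congrFun (congrArg OneF.f01 (pb1_dF0 hs u.2)) x)))
    (fun a => by
      refine Subtype.ext (funext fun x => ?_)
      change trh h (H416.toA a).d.f11 (j x) = trh h (pb1 j (H416.toA a)).d.f11 x
      rw [← pb1_d hs (H416.toA_smooth a), trh, trh, pb2_eq hJ, hinv x,
        tr_inv (det_ne hs hjj hJ x)])
    (a := (0, ⟨α, hα⟩)) rfl
    (Prod.ext rfl (Prod.ext rfl (Subtype.ext (funext hd))))
    (Prod.ext (Subtype.ext (congrArg OneF.f10 hodd)) (Subtype.ext (congrArg OneF.f01 hodd)))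
  have hw : H416.toA w = ⟨0, w.2.1⟩ := by
    rw [← hw1]; rfl
  refine ⟨w.2.1, u.1, w.2.2, u.2, ?_, ?_, congrArg (fun A : Om1 X => A.2.1) hw4⟩
  · rw [← hw, ← H416.toF_D1]
    exact congrArg toF hw2
  · rw [← hw]
    exact congrArg H416.toA hw3

end gen

variable {V : VS} {f : V.X → V.X}

theorem md_fl {x : V.X} (h : All.Hol f x) :
    MDifferentiableAt 𝓘(ℂ, FL.C2) 𝓘(ℂ, FL.C2) f x := by
  rw [mdifferentiableAt_iff]
  refine ⟨h.1, ?_⟩
  simp only [writtenInExtChartAt, mfld_simps, differentiableWithinAt_univ]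
  change DifferentiableAt ℂ (φ ∘ (fun z => chartAt All.C2 (f x) (f ((chartAt All.C2 x).symm z))) ∘
    φ.symm) (φ (chartAt All.C2 x x))
  refine φ.differentiableAt.comp _ (DifferentiableAt.comp _ ?_ φ.symm.differentiableAt)
  rw [ContinuousLinearEquiv.symm_apply_apply]
  exact h.2

theorem diff_rep (h : ∀ x, All.Hol f x) {e : FL.Ch V.X} (he : e ∈ atlas FL.C2 V.X)
    {e' : FL.Ch V.X} (he' : e' ∈ atlas FL.C2 V.X) {z : FL.C2} (hz : z ∈ e.target)
    (hz' : f (e.symm z) ∈ e'.source) : DifferentiableAt ℂ (rep f e e') z := by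
  have : IsManifold 𝓘(ℂ, FL.C2) 1 V.X := IsManifold.of_le (n := ω) le_top
  exact mdifferentiableAt_iff_differentiableAt.1 ((mdifferentiableAt_atlas he' hz').comp z
    ((md_fl (h _)).comp z (mdifferentiableAt_atlas_symm he hz)))

theorem isSm (h : ∀ x, All.Hol f x) : IsSm f := by
  have hc : Continuous f := continuous_iff_continuousAt.2 fun x => (h x).1
  refine ⟨hc, fun e he e' he' x hx hx' => ?_⟩
  obtain ⟨W, h1, h2, h3⟩ := eventually_nhds_iff.1 (H686.rep_eventually hc e e' hx hx')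
  exact ((contDiffOn_infty.2 (P268.contDiffOn_of_differentiableOn h2 fun z hz =>
    (diff_rep h he he' (h1 z hz).1 (h1 z hz).2).differentiableWithinAt)).contDiffAt
      (h2.mem_nhds h3)).restrict_scalars ℝ

theorem exists_mat (h : ∀ x, All.Hol f x) (x : V.X) :
    ∃ J : Matrix (Fin 2) (Fin 2) ℂ, ∀ v, Df f x v = J *ᵥ v := by
  have h1 := diff_rep h (chart_mem_atlas _ x) (chart_mem_atlas _ (f x)) (mem_chart_target _ x)
    (by rw [(chartAt FL.C2 x).left_inv (mem_chart_source _ x)]; exact mem_chart_source _ _)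
  refine ⟨LinearMap.toMatrix' (fderiv ℂ (rep f (chartAt FL.C2 x) (chartAt FL.C2 (f x)))
    (chartAt FL.C2 x x) : FL.C2 →ₗ[ℂ] FL.C2), fun v => ?_⟩
  rw [Df, h1.fderiv_restrictScalars ℝ, LinearMap.toMatrix'_mulVec]
  rfl

end OddAux

theorem oddH : StOddH := fun V j hj hjj α hα hd hodd => by
  choose J hJ using OddAux.exists_mat hj
  exact OddAux.odd_gen (OddAux.isSm hj) hjj hJ α hα hd hodd

end Vale.Agent.P290Z.Nk
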