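import Vale.Agent.P290Z.Nk.HolPb

/-! P290Z, block N2: the translation structure given by two closed forms. -/

open Set Filter
open scoped Topology Manifold ContDiff ComplexConjugate

noncomputable section

namespace Vale.Agent.P290Z.Nk

open Vale.Agent.P290 Vale.Agent.P267
open Vale.Agent.P290.H445 (φ)
open Vale.Agent.P290.H686
open Vale.Agent.P290.H437 (PrimFL prim_iff covL)

namespace PRIM

variable {V V' : VS}

theorem covL_eq (e : FL.Ch V.X) (A : FL.OneF V.X) (z : FL.C2) :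
    covL e A z = H686.E1 e A z := by
  ext v
  rw [covL, H686.E1, H437.cov_apply, ev1_apply]

theorem prim_iff' {A : FL.OneF V.X} {s : V.X → ℂ} {p : V.X} : PrimFL A s p ↔ ∀ᶠ q in 𝓝 p,
    ContDiffAt ℝ ∞ (fun z => s ((chartAt FL.C2 q).symm z)) (chartAt FL.C2 q q) ∧
      fderiv ℝ (fun z => s ((chartAt FL.C2 q).symm z)) (chartAt FL.C2 q q) = val1 A q := by
  refine eventually_congr (.of_forall fun q => ?_)
  rw [prim_iff (chart_mem_atlas FL.C2 q) (mem_chart_source FL.C2 q), covL_eq,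
    E1_apply (chart_mem_atlas FL.C2 q) _ (mem_chart_source FL.C2 q), Dch_chartAt,
    ContinuousLinearMap.comp_id]

theorem pull {f : V.X → V'.X} (hf : IsSm f) {A : FL.OneF V'.X} {s : V'.X → ℂ} {p : V.X}
    (h : PrimFL A s (f p)) : PrimFL (pb1 f A) (fun x => s (f x)) p := by
  rw [prim_iff'] at h ⊢
  filter_upwards [hf.1.continuousAt.eventually h] with q ⟨h1, h2⟩
  have a1 := hf.2 _ (chart_mem_atlas FL.C2 q) _ (chart_mem_atlas FL.C2 (f q)) q
    (mem_chart_source _ _) (mem_chart_source _ _)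
  have a2 := rep_apply f (chartAt FL.C2 (f q)) (mem_chart_source FL.C2 q)
  have a3 : (fun z => s (f ((chartAt FL.C2 q).symm z))) =ᶠ[𝓝 (chartAt FL.C2 q q)] fun z =>
      s ((chartAt FL.C2 (f q)).symm (rep f (chartAt FL.C2 q) (chartAt FL.C2 (f q)) z)) := by
    filter_upwards [rep_eventually hf.1 _ _ (mem_chart_source FL.C2 q)
      (mem_chart_source FL.C2 (f q))] with z hz
    rw [rep, (chartAt FL.C2 (f q)).left_inv hz.2]
  rw [← a2] at h1 h2
  refine ⟨(ContDiffAt.comp (g := fun z => s ((chartAt FL.C2 (f q)).symm z)) _ h1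
    a1).congr_of_eventuallyEq a3, ?_⟩
  rw [a3.fderiv_eq, fderiv_fun_comp _ (h1.differentiableAt (by simp))
    (a1.differentiableAt (by simp)), h2, val1_pb1]
  rfl

theorem neg {A : FL.OneF V.X} {s : V.X → ℂ} {p : V.X} (h : PrimFL A s p) :
    PrimFL (-A) (fun x => -s x) p := by
  rw [prim_iff'] at h ⊢
  filter_upwards [h] with q ⟨h1, h2⟩
  refine ⟨h1.neg, ?_⟩
  rw [fderiv_fun_neg, h2, ← neg_one_smul ℂ A, val1_smul']
  exact (neg_one_smul ℂ _).symm

/-- the linear form with the conjugate coefficients -/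
def lin (a : Fin 2 → ℂ) : C2 →L[ℂ] ℂ :=
  conj (a 0) • ContinuousLinearMap.fst ℂ ℂ ℂ + conj (a 1) • ContinuousLinearMap.snd ℂ ℂ ℂ

theorem der {β : V.X → Fin 2 → ℂ} {s : V.X → ℂ} {p : V.X} (h : PrimFL ⟨0, β⟩ s p) :
    HasFDerivAt (fun z => conj (s ((chartAt C2 p).symm z))) (lin (β p)) (chartAt C2 p p) := by
  obtain ⟨h1, h2⟩ := (prim_iff'.1 h).self_of_nhds
  have h3 := (h1.differentiableAt (by simp)).hasFDerivAt
  rw [h2] at h3
  have h4 := Complex.conjCLE.hasFDerivAt.comp _ (HasFDerivAt.comp (chartAt C2 p p)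
    (f := (φ : C2 →L[ℂ] FL.C2).restrictScalars ℝ) h3 (ContinuousLinearMap.hasFDerivAt _))
  refine hasFDerivAt_of_restrictScalars ℝ h4 (ContinuousLinearMap.ext fun v => ?_)
  simp [lin, val1, ev1_apply]

end PRIM

open PRIM in
theorem prim : StPrim := by
  intro V j hj β hβ hd
  have hc : ∀ k, H437.ClosedF (⟨0, β k⟩ : FL.OneF V.X) := fun k =>
    ⟨⟨HP.reg10_zero, (hβ k).1⟩,
      congrArg FL.TwoF.f20 (hβ k).2.1, congrArg FL.TwoF.f11 (hβ k).2.1,
      congrArg FL.TwoF.f02 (hβ k).2.1⟩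
  choose s hs using fun k => H437.exists_primFL (hc k)
  refine ⟨fun x y => (conj (s 0 x y), conj (s 1 x y)), ⟨fun x => ?_, fun x => ?_, fun x => ?_⟩,
    fun x => ?_⟩
  · filter_upwards [(hs 0 x).eventually, (hs 1 x).eventually] with y a0 a1
    exact ((der a0).prodMk (der a1)).differentiableAt
  · rw [((der (hs 0 x)).prodMk (der (hs 1 x))).fderiv, R2.H236.det_formula]
    have := (map_ne_zero (starRingEnd ℂ)).2 (hd x)
    simpa [lin] using this
  · filter_upwards [(hs 0 x).eventually, (hs 1 x).eventually] with y a0 a1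
    filter_upwards [a0.eventually_sub_eq (hs 0 y), a1.eventually_sub_eq (hs 1 y)] with z b0 b1
    simp only [Prod.mk_sub_mk, ← map_sub]
    congr 2
    · linear_combination b0
    · linear_combination b1
  · have h : ∀ k, ∀ᶠ y in 𝓝 x, s k (j x) (j y) - -s k x y = s k (j x) (j x) - -s k x x := fun k =>
      ((hβ k).2.2 ▸ pull (HP.isSm hj) (hs k (j x))).eventually_sub_eq (neg (hs k x))
    filter_upwards [h 0, h 1] with y b0 b1
    simp only [Prod.mk_sub_mk, Prod.neg_mk, ← map_sub, ← map_neg]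
    congr 2
    · linear_combination b0
    · linear_combination b1

end Vale.Agent.P290Z.Nk
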