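import Vale.Agent.P290Z.Nk.Inv
import Vale.Agent.P290Z.Nk.Std

/-!
# P290Z, part III, block N2: the pull back of forms with values in `L⁻¹` to the double cover
-/

open scoped Manifold ContDiff ComplexConjugate Topology Matrix
open Set Filter Metric

noncomputable section

namespace Vale.Agent.P290Z.Nk

open Vale.Agent.P290 Vale.Agent.P267
open Vale.Agent.P290.All (dir)
open Vale.Agent.P290.H686 (pb1)
open Vale.Agent.P290.H445 (φ)
open Vale.Agent.P267.FL (dzb loc1 LB)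

namespace PULL

/-! ### the bilinear pairing -/

section pair

variable {ι : Type} [Fintype ι] [DecidableEq ι]

/-- the bilinear pairing -/
def bp (x y : EuclideanSpace ℂ ι) : ℂ := ∑ k, x k * y k

theorem bp_act (P : Matrix ι ι ℂ) (x y : EuclideanSpace ℂ ι) :
    bp (LB.act Pᵀ x) y = bp x (LB.act P y) := by
  simp only [bp, H821.act_apply, Matrix.transpose_apply, Finset.sum_mul, Finset.mul_sum]
  rw [Finset.sum_comm]
  exact Finset.sum_congr rfl fun _ _ => Finset.sum_congr rfl fun _ _ => by ring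

omit [DecidableEq ι] in
theorem bp_smul (c : ℂ) (x y : EuclideanSpace ℂ ι) : bp x (c • y) = c * bp x y := by
  simp only [bp, PiLp.smul_apply, smul_eq_mul, Finset.mul_sum]
  exact Finset.sum_congr rfl fun _ _ => by ring

omit [DecidableEq ι] in
theorem smul_bp (c : ℂ) (x y : EuclideanSpace ℂ ι) : bp (c • x) y = c * bp x y := by
  simp only [bp, PiLp.smul_apply, smul_eq_mul, Finset.mul_sum, mul_assoc]

omit [DecidableEq ι] in
theorem add_bp (x x' y : EuclideanSpace ℂ ι) : bp (x + x') y = bp x y + bp x' y := by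
  simp only [bp, PiLp.add_apply, add_mul, Finset.sum_add_distrib]

omit [DecidableEq ι] in
theorem sub_bp (x x' y : EuclideanSpace ℂ ι) : bp (x - x') y = bp x y - bp x' y := by
  simp only [bp, PiLp.sub_apply, sub_mul, Finset.sum_sub_distrib]

omit [DecidableEq ι] in
theorem bp_add (x y y' : EuclideanSpace ℂ ι) : bp x (y + y') = bp x y + bp x y' := by
  simp only [bp, PiLp.add_apply, mul_add, Finset.sum_add_distrib]

omit [DecidableEq ι] in
theorem contDiffAt_bp {T E : FL.C2 → EuclideanSpace ℂ ι} {v : FL.C2} {m : WithTop ℕ∞}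
    (hT : ContDiffAt ℝ m T v) (hE : ContDiffAt ℝ m E v) :
    ContDiffAt ℝ m (fun z => bp (T z) (E z)) v :=
  ContDiffAt.sum fun k _ => ((contDiffAt_piLp 2).1 hT k).mul ((contDiffAt_piLp 2).1 hE k)

omit [DecidableEq ι] in
theorem dzb_bp {T E : FL.C2 → EuclideanSpace ℂ ι} {v : FL.C2} (hT : DifferentiableAt ℝ T v)
    (hE : DifferentiableAt ℝ E v) (j : Fin 2) :
    dzb j (fun z => bp (T z) (E z)) v = bp (T v) (dzb j E v) + bp (dzb j T v) (E v) := by
  have h1 := (differentiableAt_piLp 2).1 hT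
  have h2 := (differentiableAt_piLp 2).1 hE
  simp only [bp]
  rw [FL.dzb_sum _ fun k _ => (h1 k).fun_mul (h2 k), ← Finset.sum_add_distrib]
  refine Finset.sum_congr rfl fun k _ => ?_
  rw [FL.dzb_mul (h1 k) (h2 k)]
  exact congrArg₂ (fun a b => T v k * a + b * E v k) (FL.dzb_clm (EuclideanSpace.proj k) hE j)
    (FL.dzb_clm (EuclideanSpace.proj k) hT j)

/-- the pairing of a closed form with a holomorphic frame is smooth and closed -/
theorem closed_bp {X : Type} [TopologicalSpace X] [ChartedSpace FL.C2 X]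
    [IsManifold 𝓘(ℂ, FL.C2) ω X] {L : LB X ι} {a : X → Fin 2 → ℂ} {U : Set X}
    {e : X → EuclideanSpace ℂ ι} (he : H821.HolFrame L a U e)
    {t : X → Fin 2 → EuclideanSpace ℂ ι} (ht : t ∈ RR.Z1 L.dual (-a) 0) {y : X} (hy : y ∈ U) :
    (∀ i, ContDiffAt ℝ ∞ (fun v => bp (loc1 0 (chartAt FL.C2 y) t v i)
      (e ((chartAt FL.C2 y).symm v))) (chartAt FL.C2 y y)) ∧
    dzb 0 (fun v => bp (loc1 0 (chartAt FL.C2 y) t v 1) (e ((chartAt FL.C2 y).symm v)))
        (chartAt FL.C2 y y) =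
      dzb 1 (fun v => bp (loc1 0 (chartAt FL.C2 y) t v 0) (e ((chartAt FL.C2 y).symm v)))
        (chartAt FL.C2 y y) := by
  obtain ⟨⟨t, h1, h2⟩, h3, rfl⟩ := ht
  have h4 : L.dual.db1 (-a) 0 t y = 0 := congrFun h3 y
  have hl := (chartAt FL.C2 y).left_inv (mem_chart_source FL.C2 y)
  have hT := contDiffAt_pi.1 (h1.contDiffAt (chart_mem_atlas FL.C2 y) (mem_chart_target FL.C2 y))
  have hE := he.reg _ (chart_mem_atlas FL.C2 y) _ (mem_chart_target FL.C2 y) (by rwa [hl])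
  refine ⟨fun i => contDiffAt_bp (hT i) hE, ?_⟩
  have a1 : ∀ m i, bp (t y m) (dzb i (fun v => e ((chartAt FL.C2 y).symm v)) (chartAt FL.C2 y y)) =
      -(a y i * bp (t y m) (e y)) := fun m i => by
    have b1 := congrArg (bp (t y m)) (congrFun (he.hol y hy) i)
    rw [LB.db0, bp_add, ← bp_act, bp_smul, show LB.act (L.P y)ᵀ (t y m) = t y m from h2 y m,
      FL.dbar0, LB.loc0_zero] at b1
    exact eq_neg_of_add_eq_zero_left (b1.trans (by simp [bp]))
  have a2 := congrArg (bp · (e y)) h4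
  simp only [LB.db1, add_bp, sub_bp, smul_bp, Pi.neg_apply] at a2
  rw [show L.dual.P y = (L.P y)ᵀ from rfl, bp_act, he.sec y hy, FL.dbar1, sub_bp,
    show bp 0 (e y) = 0 by simp [bp]] at a2
  simp only [Submodule.subtype_apply]
  rw [dzb_bp ((hT 1).differentiableAt (by simp)) (hE.differentiableAt (by simp)),
    dzb_bp ((hT 0).differentiableAt (by simp)) (hE.differentiableAt (by simp)),
    FL.loc1_chartAt, a1, a1, hl]
  linear_combination a2

end pair

/-- continuous square roots of holomorphic functions -/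
theorem sqrt_contDiffAt {V : Type} [NormedAddCommGroup V] [NormedSpace ℂ V] {g F : V → ℂ} {v : V}
    (hg : ContinuousAt g v) (h0 : g v ≠ 0) (hF : ContDiffAt ℂ ∞ F v)
    (h : ∀ᶠ z in 𝓝 v, g z ^ 2 = F z) : ContDiffAt ℂ ∞ g v := by
  have h1 : ContDiffAt ℂ ∞ (fun s : ℂ => s ^ 2) (g v) := contDiffAt_id.pow 2
  have h2 : HasDerivAt (fun s : ℂ => s ^ 2) (2 * g v) (g v) := by
    simpa using hasDerivAt_pow 2 (g v)
  have h3 := h2.hasFDerivAt_equiv (mul_ne_zero two_ne_zero h0)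
  have h4 := h1.to_localInverse h3 (by simp)
  rw [h.self_of_nhds] at h4
  refine (h4.comp v hF).congr_of_eventuallyEq ?_
  filter_upwards [h, hg.eventually (h1.hasStrictFDerivAt' h3 (by simp)).eventually_left_inverse]
    with z a1 a2
  rw [Function.comp_apply, ← a1]
  exact a2.symm

/-- the points `ν 1 v` are near the curve -/
theorem near {X : Type} [TopologicalSpace X] [ChartedSpace C2 X] {C : RC X} {ε : ℝ}
    {ν : ℂ → C2 → X} (h : IsStd C ε ν) (hε : 0 < ε) {P : X → Prop}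
    (hP : ∀ x ∈ C.supp, ∀ᶠ y in 𝓝 x, P y) : ∀ᶠ v in 𝓝 (0 : C2), v ≠ 0 → P (ν 1 v) := by
  have h1 := eventually_all.2 fun b => STD.tube (isCompact_closedBall (0 : ℂ) 1)
    (P := fun w => P (ν w.1 (dir b w.2))) fun u _ =>
      (h.etale b (0, u) ⟨by cases b <;> simp [dir], by simpa using hε⟩).1.eventually
        (hP _ ⟨b, u, (h.zero b u).symm⟩)
  obtain ⟨r, a1, a2⟩ := (h1.and self_mem_nhdsWithin).exists
  have h2 : ∀ᶠ v in 𝓝 (0 : C2), ‖(1 : ℂ)‖ * ‖v‖ ^ 2 < r :=
    (by fun_prop : Continuous fun v : C2 => ‖(1 : ℂ)‖ * ‖v‖ ^ 2).continuousAt.eventually_lt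
      continuousAt_const (by simpa using a2)
  filter_upwards [h2] with v b1 b2
  obtain ⟨c1, c2, c3⟩ := STD.sd_ph (ε := r) ⟨b2, b1⟩
  have c4 := a1 (STD.side v) _ c2 (mem_closedBall_zero_iff.2 c3)
  obtain ⟨s, c5, c6, c7⟩ := STD.ph_inj (by rw [STD.cs_dir]; exact one_ne_zero) c1
    (STD.ph_dir _ (STD.ph (STD.side v) 1 v))
  rwa [c7, h.hom _ _ _ c5, ← c6] at c4

variable {Y : W.K3} {n : ℕ} {K : Nik Y n} {A : Nbhd K} (D : DCover A)

theorem pull_q (t : Y.X → Fin 2 → EuclideanSpace ℂ K.ι) {z : D.Z.X} (hz : z ∈ range D.q) :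
    D.pull t z = 0 := funext fun _ => if_pos hz

theorem pull_off (t : Y.X → Fin 2 → EuclideanSpace ℂ K.ι) {z : D.Z.X} (hz : z ∉ range D.q)
    (i : Fin 2) : D.pull t z i = bp (t (D.p z) i) (D.w z) := if_neg hz

/-- what holds near the curves holds near the points `q i` -/
theorem near_q {P : Y.X → Prop} (hP : ∀ᶠ y in 𝓝ˢ K.br, P y) (i : Fin n) :
    ∀ᶠ z in 𝓝 (D.q i), z ∉ range D.q → P (D.p z) := by
  have h1 := near (A.std i) (by norm_num) fun x hx => (eventually_nhdsSet_iff_forall.1 hP x ⟨i, hx⟩)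
  rw [← D.chart_q i] at h1
  filter_upwards [((chartAt C2 (D.q i)).continuousAt (mem_chart_source C2 _)).eventually h1,
    chart_source_mem_nhds C2 (D.q i)] with z a1 a2 a3
  have a4 : chartAt C2 (D.q i) z ≠ chartAt C2 (D.q i) (D.q i) := fun e =>
    a3 ⟨i, ((chartAt C2 (D.q i)).injOn a2 (mem_chart_source C2 _) e).symm⟩
  have a5 := D.p_q i _ (D.target_q i ▸ (chartAt C2 (D.q i)).map_source a2) (D.chart_q i ▸ a4)
  rw [(chartAt C2 (D.q i)).left_inv a2] at a5
  rw [a5]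
  exact a1 a4

theorem zero_q {t : Y.X → Fin 2 → EuclideanSpace ℂ K.ι} (ht : ∀ᶠ y in 𝓝ˢ K.br, t y = 0)
    (i : Fin n) : ∀ᶠ z in 𝓝 (D.q i), D.pull t z = 0 := by
  filter_upwards [near_q D ht i] with z h
  by_cases hz : z ∈ range D.q
  · exact pull_q D t hz
  · funext k
    simp [pull_off D t hz, h hz, bp]

theorem chartFL {z : D.Z.X} (hz : z ∉ range D.q) :
    ∀ᶠ y in 𝓝 z, chartAt FL.C2 z y = chartAt FL.C2 (D.p z) (D.p y) :=
  (D.chart_p z hz).mono fun _ h => congrArg φ h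

theorem p_symm {z : D.Z.X} (hz : z ∉ range D.q) : ∀ᶠ v in 𝓝 (chartAt FL.C2 z z),
    D.p ((chartAt FL.C2 z).symm v) = (chartAt FL.C2 (D.p z)).symm v := by
  have h := INV.tendsto_symm _ (mem_chart_source FL.C2 z)
  filter_upwards [h.eventually (chartFL D hz), chart_target_mem_nhds FL.C2 z,
    h.eventually ((D.p_cont z hz).eventually (chart_source_mem_nhds FL.C2 (D.p z)))] with
    v a1 a2 a3
  rw [(chartAt FL.C2 z).right_inv a2] at a1
  rw [← (chartAt FL.C2 (D.p z)).left_inv a3, ← a1]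

theorem jac_p {z : D.Z.X} (hz : z ∉ range D.q) : ∀ᶠ v in 𝓝 (chartAt FL.C2 z z),
    FL.jac (chartAt FL.C2 z) ((chartAt FL.C2 z).symm v) =
      FL.jac (chartAt FL.C2 (D.p z)) ((chartAt FL.C2 (D.p z)).symm v) := by
  have h := INV.tendsto_symm _ (mem_chart_source FL.C2 z)
  filter_upwards [(p_symm D hz).eventually_nhds, chart_target_mem_nhds FL.C2 z,
    h.eventually (INV.ev_off D hz), h.eventually (chartFL D hz)] with v a1 a2 a3 a4
  rw [← a1.self_of_nhds]
  ext p i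
  simp only [FL.jac, FL.jacM, Matrix.of_apply]
  rw [← a4, (chartAt FL.C2 z).right_inv a2]
  refine FL.dz_congr ?_ i
  filter_upwards [a1, ((chartAt FL.C2 z).continuousAt_symm a2).eventually (chartFL D a3)] with
    u b1 b2
  rw [b2, b1]

/-- the local form of the pull back -/
theorem loc_pull (t : Y.X → Fin 2 → EuclideanSpace ℂ K.ι) {z : D.Z.X} (hz : z ∉ range D.q) :
    ∀ᶠ v in 𝓝 (chartAt FL.C2 z z), ∀ i, loc1 0 (chartAt FL.C2 z) (D.pull t) v i =
      bp (loc1 0 (chartAt FL.C2 (D.p z)) t v i) (D.w ((chartAt FL.C2 z).symm v)) := by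
  filter_upwards [p_symm D hz, jac_p D hz,
    (INV.tendsto_symm _ (mem_chart_source FL.C2 z)).eventually (INV.ev_off D hz)] with v a1 a2 a3 i
  simp only [loc1, zpow_zero, one_smul, Fin.sum_univ_two, add_bp, smul_bp, pull_off D t a3, a1, a2,
    smul_eq_mul, one_mul]

/-- `w` is a holomorphic section of the pull back of `L` -/
theorem w_eq {z : D.Z.X} (hz : z ∉ range D.q) : ∃ (U : Set Y.X) (e : Y.X → EuclideanSpace ℂ K.ι)
    (g : FL.C2 → ℂ), D.p z ∈ U ∧ H821.HolFrame K.L K.a U e ∧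
      ContDiffAt ℂ ∞ g (chartAt FL.C2 z z) ∧ ∀ᶠ v in 𝓝 (chartAt FL.C2 z z),
        D.w ((chartAt FL.C2 z).symm v) = g v • e ((chartAt FL.C2 (D.p z)).symm v) := by
  obtain ⟨U, e, f, hU, he, hf, hS⟩ := K.loc (D.p z)
  obtain ⟨k, hk⟩ : ∃ k, e (D.p z) k ≠ 0 := by
    by_contra h
    push Not at h
    exact he.ne _ hU (PiLp.ext h)
  have hc : chartAt FL.C2 z z = chartAt FL.C2 (D.p z) (D.p z) := (chartFL D hz).self_of_nhds
  have hl := (chartAt FL.C2 (D.p z)).left_inv (mem_chart_source FL.C2 (D.p z))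
  have hl' := (chartAt FL.C2 z).left_inv (mem_chart_source FL.C2 z)
  have h := INV.tendsto_symm _ (mem_chart_source FL.C2 z)
  have hE : ContinuousAt (fun v => e ((chartAt FL.C2 (D.p z)).symm v) k) (chartAt FL.C2 z z) := by
    rw [hc]
    exact ((contDiffAt_piLp 2).1 (he.reg _ (chart_mem_atlas FL.C2 _) _ (mem_chart_target FL.C2 _)
      (by rwa [hl])) k).continuousAt
  have hk' : e ((chartAt FL.C2 (D.p z)).symm (chartAt FL.C2 z z)) k ≠ 0 := by rwa [hc, hl]
  let g : FL.C2 → ℂ := fun v =>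
    D.w ((chartAt FL.C2 z).symm v) k / e ((chartAt FL.C2 (D.p z)).symm v) k
  have key : ∀ᶠ v in 𝓝 (chartAt FL.C2 z z), g v ≠ 0 ∧
      g v ^ 2 = f ((chartAt FL.C2 (D.p z)).symm v) ∧
      D.w ((chartAt FL.C2 z).symm v) = g v • e ((chartAt FL.C2 (D.p z)).symm v) := by
    filter_upwards [p_symm D hz, h.eventually (INV.ev_off D hz), hE.eventually_ne hk',
      h.eventually ((D.p_cont z hz).eventually (he.isOpen.mem_nhds hU))] with v a1 a2 a3 a4
    have b1 := D.w_sq _ a2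
    have b2 := D.off _ a2
    rw [a1] at a4 b1 b2
    obtain ⟨b3, b4, -⟩ := hS _ a4
    have b5 : g v ^ 2 = f ((chartAt FL.C2 (D.p z)).symm v) := by
      simp only [g]
      rw [div_pow, sq, b1, b3]
      field_simp
    have b6 : g v ≠ 0 := fun e0 => b2 (b4.1 (by rw [← b5, e0]; simp))
    refine ⟨b6, b5, PiLp.ext fun m => mul_right_cancel₀ (mul_ne_zero b6 a3) ?_⟩
    have b7 : g v * e ((chartAt FL.C2 (D.p z)).symm v) k = D.w ((chartAt FL.C2 z).symm v) k :=
      div_mul_cancel₀ _ a3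
    rw [PiLp.smul_apply, smul_eq_mul]
    nth_rewrite 1 [b7]
    rw [b1, b3, ← b5]
    ring
  refine ⟨U, e, g, hU, he, sqrt_contDiffAt ?_ key.self_of_nhds.1 ?_ (key.mono fun _ a => a.2.1),
    key.mono fun _ a => a.2.2⟩
  · refine ContinuousAt.div ?_ hE hk'
    refine ContinuousAt.comp (g := fun y => D.w y k) ?_
      ((chartAt FL.C2 z).continuousAt_symm (mem_chart_target FL.C2 z))
    rw [hl']
    exact (EuclideanSpace.proj k : _ →L[ℂ] ℂ).continuous.continuousAt.comp (D.w_cont z hz)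
  · have h1 := hf _ (chart_mem_atlas FL.C2 (D.p z))
    rw [LB.loc0_zero] at h1
    rw [hc]
    refine contDiffAt_infty.2 (contDiffAt_of_eventually (h1.eventually_differentiableAt ?_))
    exact inter_mem (chart_target_mem_nhds FL.C2 _)
      ((INV.tendsto_symm _ (mem_chart_source FL.C2 (D.p z))).eventually (he.isOpen.mem_nhds hU))

theorem local_pull {t : Y.X → Fin 2 → EuclideanSpace ℂ K.ι} (ht : t ∈ RR.Z1 K.L.dual (-K.a) 0)
    (h0 : ∀ᶠ y in 𝓝ˢ K.br, t y = 0) (z : D.Z.X) :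
    ContDiffAt ℝ ∞ (loc1 0 (chartAt FL.C2 z) (D.pull t)) (chartAt FL.C2 z z) ∧
      FL.dbar1 0 (D.pull t) z = 0 := by
  by_cases hz : z ∈ range D.q
  · obtain ⟨i, rfl⟩ := hz
    have h1 : ∀ k, (fun v => loc1 0 (chartAt FL.C2 (D.q i)) (D.pull t) v k) =ᶠ[𝓝
        (chartAt FL.C2 (D.q i) (D.q i))] fun _ => 0 := fun k => by
      filter_upwards [(INV.tendsto_symm _ (mem_chart_source FL.C2 (D.q i))).eventually
        (zero_q D h0 i)] with v hv
      simp [loc1, hv]
    refine ⟨contDiffAt_pi.2 fun k => contDiffAt_const.congr_of_eventuallyEq (h1 k), ?_⟩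
    rw [FL.dbar1, FL.dzb_congr (h1 1), FL.dzb_congr (h1 0)]
    simp
  · obtain ⟨U, e, g, hU, he, hg, hw⟩ := w_eq D hz
    obtain ⟨a1, a2⟩ := closed_bp he ht hU
    rw [← (chartFL D hz).self_of_nhds] at a1 a2
    have h1 : ∀ k, (fun v => loc1 0 (chartAt FL.C2 z) (D.pull t) v k) =ᶠ[𝓝 (chartAt FL.C2 z z)]
        fun v => g v * bp (loc1 0 (chartAt FL.C2 (D.p z)) t v k)
          (e ((chartAt FL.C2 (D.p z)).symm v)) := fun k => by
      filter_upwards [loc_pull D t hz, hw] with v b1 b2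
      rw [b1, b2, bp_smul]
    have hg' := hg.restrict_scalars ℝ
    refine ⟨contDiffAt_pi.2 fun k => (hg'.mul (a1 k)).congr_of_eventuallyEq (h1 k), ?_⟩
    rw [FL.dbar1, FL.dzb_congr (h1 1), FL.dzb_congr (h1 0),
      FL.dzb_mul (hg'.differentiableAt (by simp)) ((a1 1).differentiableAt (by simp)),
      FL.dzb_mul (hg'.differentiableAt (by simp)) ((a1 0).differentiableAt (by simp)),
      FL.dzb_of_hol (hg.differentiableAt (by simp)), FL.dzb_of_hol (hg.differentiableAt (by simp)),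
      a2]
    simp

theorem odd (t : Y.X → Fin 2 → EuclideanSpace ℂ K.ι) :
    pb1 D.j ⟨0, D.pull t⟩ = -⟨0, D.pull t⟩ := by
  refine H686.val1_inj fun z => ?_
  by_cases hz : z ∈ range D.q
  · rw [H686.val1_pb1, (D.j_fix z).2 hz]
    ext v
    simp [H686.val1, H686.ev1_apply, pull_q D t hz]
  · obtain ⟨a1, a2⟩ := INV.pb1_off D ⟨0, D.pull t⟩ hz
    have a3 : D.pull t (D.j z) = -D.pull t z := funext fun i => by
      rw [Pi.neg_apply, pull_off D t hz, pull_off D t (INV.j_off D hz), D.p_j z hz, D.w_j z hz,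
        ← neg_one_smul ℂ, bp_smul, neg_one_mul]
    simp only [H686.val1, a1, a2, a3]
    simp

end PULL

/-- PULL -/
theorem pull' : StPull := fun _ _ _ _ D t ht h0 =>
  ⟨FL.reg1_iff.2 fun z => (PULL.local_pull D ht h0 z).1, fun z => (PULL.local_pull D ht h0 z).2,
    eventually_nhdsSet_iff_forall.2 (forall_mem_range.2 (PULL.zero_q D h0)), PULL.odd D t⟩

/-- PULL -/
theorem pull (_ : StInv) : StPull := pull'

end Vale.Agent.P290Z.Nk
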