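import Vale.Agent.P290Z.Nk.SpecC
import Vale.Agent.P267.H399.LBTensor

/-!
# P290Z, part III, block N2: a form whose pull back to the double cover is exact is exact
-/

set_option linter.all false

open scoped Manifold ContDiff ComplexConjugate Topology Matrix
open Set Filter Metric

noncomputable section

namespace Vale.Agent.P290Z.Nk

open Vale.Agent.P290 Vale.Agent.P267
open Vale.Agent.P290.All (Etale dir Hol)
open Vale.Agent.P290.H445 (φ toFL)
open Vale.Agent.P267.FL (At0 HolAt dbar0 loc0 LB)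
open Vale.Agent.P267.FL.LB (bp act)

namespace Psh

section alg

variable {ι : Type} [Fintype ι] [DecidableEq ι]

/-- the conjugate vector -/
def cj (v : EuclideanSpace ℂ ι) : EuclideanSpace ℂ ι := WithLp.toLp 2 fun k => conj (v k)

/-- the dual vector -/
def du (v : EuclideanSpace ℂ ι) : EuclideanSpace ℂ ι := (bp v (cj v))⁻¹ • cj v

theorem bp_cj {v : EuclideanSpace ℂ ι} (hv : v ≠ 0) : bp v (cj v) ≠ 0 := by
  have h : bp v (cj v) = inner ℂ v v := by
    rw [H821.inner_eq_sum]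
    exact Finset.sum_congr rfl fun k _ => mul_comm _ _
  rw [h]
  exact H821.inner_self_ne hv

theorem bp_du {v : EuclideanSpace ℂ ι} (hv : v ≠ 0) : bp v (du v) = 1 := by
  rw [du, LB.bp_smul_right, inv_mul_cancel₀ (bp_cj hv)]

theorem du_smul {c : ℂ} (hc : c ≠ 0) (v : EuclideanSpace ℂ ι) : du (c • v) = c⁻¹ • du v := by
  have h : cj (c • v) = conj c • cj v := by
    ext k
    simp [cj]
  have h1 : conj c ≠ 0 := (map_ne_zero _).2 hc
  rw [du, du, h, LB.bp_smul_left, LB.bp_smul_right, smul_smul, smul_smul]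
  congr 1
  rw [mul_inv, mul_inv]
  field_simp

theorem act_du {P : Matrix ι ι ℂ} (hh : Pᴴ = P) {v : EuclideanSpace ℂ ι} (hv : act P v = v) :
    act Pᵀ (du v) = du v := by
  rw [du, LB.act_smul]
  congr 1
  ext k
  have h2 : conj (act P v k) = conj (v k) := by rw [hv]
  rw [LB.act_apply, map_sum] at h2
  refine Eq.trans ?_ h2
  rw [LB.act_apply]
  refine Finset.sum_congr rfl fun j _ => ?_
  rw [map_mul, Matrix.transpose_apply, ← congrFun (congrFun hh j) k]
  rfl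

theorem contDiffAt_du {v : EuclideanSpace ℂ ι} (hv : v ≠ 0) : ContDiffAt ℝ ∞ du v := by
  have h0 : ∀ k, ContDiff ℝ ∞ fun v : EuclideanSpace ℂ ι => v k := fun k =>
    ((EuclideanSpace.proj k : EuclideanSpace ℂ ι →L[ℂ] ℂ).restrictScalars ℝ).contDiff
  have h1 : ∀ k, ContDiff ℝ ∞ fun v : EuclideanSpace ℂ ι => conj (v k) := fun k =>
    Complex.conjCLE.contDiff.comp (h0 k)
  have h2 : ContDiff ℝ ∞ (cj : EuclideanSpace ℂ ι → _) :=
    (((PiLp.continuousLinearEquiv 2 ℂ fun _ : ι => ℂ).symm.toContinuousLinearMap.restrictScalars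
      ℝ).contDiff).comp (contDiff_pi.2 h1)
  have h3 : ContDiff ℝ ∞ fun v : EuclideanSpace ℂ ι => bp v (cj v) :=
    ContDiff.sum fun k _ => (h0 k).mul (h1 k)
  exact (h3.contDiffAt.inv (bp_cj hv)).smul h2.contDiffAt

theorem exists_root {v e : EuclideanSpace ℂ ι} {f : ℂ} {k : ι} (hk : e k ≠ 0)
    (h : ∀ j m, v j * v m = f * (e j * e m)) (hf : f ≠ 0) :
    (v k / e k) ^ 2 = f ∧ v = (v k / e k) • e := by
  have h1 : v k ≠ 0 := fun h0 => by
    have := h k k
    rw [h0, mul_zero] at this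
    exact mul_ne_zero hf (mul_ne_zero hk hk) this.symm
  have h2 : (v k / e k) ^ 2 = f := by
    field_simp
    linear_combination h k k
  refine ⟨h2, ?_⟩
  ext m
  refine mul_left_cancel₀ h1 ?_
  rw [h k m, ← h2, PiLp.smul_apply, smul_eq_mul]
  field_simp

end alg

/-- a continuous square root of an analytic function is analytic -/
theorem sqrt_an {E : Type} [NormedAddCommGroup E] [NormedSpace ℂ E] {F O : E → ℂ} {z : E}
    (hF : AnalyticAt ℂ F z) (hO : ContinuousAt O z) (h : ∀ᶠ x in 𝓝 z, O x ^ 2 = F x)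
    (h0 : F z ≠ 0) : AnalyticAt ℂ O z := by
  have hz := h.self_of_nhds
  have h1 : O z ≠ 0 := fun h1 => h0 (by rw [← hz, h1]; simp)
  have h2 : F z / F z ∈ Complex.slitPlane := by
    rw [div_self h0]
    exact Complex.one_mem_slitPlane
  have hq : AnalyticAt ℂ (fun x => F x / F z) z := hF.div_const
  have hR : AnalyticAt ℂ (fun x => O z * (F x / F z) ^ ((2 : ℕ)⁻¹ : ℂ)) z :=
    analyticAt_const.mul (hq.cpow analyticAt_const h2)
  refine hR.congr ?_
  have h3 : O z + O z * (F z / F z) ^ ((2 : ℕ)⁻¹ : ℂ) ≠ 0 := by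
    rw [div_self h0, Complex.one_cpow, mul_one, ← two_mul]
    exact mul_ne_zero two_ne_zero h1
  filter_upwards [h, (hO.add hR.continuousAt).eventually_ne h3] with x hx hx'
  have h4 := Complex.cpow_nat_inv_pow (F x / F z) two_ne_zero
  refine (mul_left_cancel₀ hx' ?_).symm
  have h5 : F z * (F x / F z) = F x := mul_div_cancel₀ _ h0
  simp only [Pi.add_apply]
  linear_combination hx - O z ^ 2 * h4 - (F x / F z) * hz - h5

/-- local solutions which agree on a dense set with a given function -/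
theorem glue {Y V : Type} [TopologicalSpace Y] [TopologicalSpace V] [T2Space V] {A : Set Y}
    (hA : Dense A) (s₀ : Y → V) {y : Y} {s : Y → V} (hc : ∀ᶠ x in 𝓝 y, ContinuousAt s x)
    (h : ∀ᶠ x in 𝓝 y, x ∈ A → s₀ x = s x) : extendFrom A s₀ =ᶠ[𝓝 y] s := by
  filter_upwards [hc, h.eventually_nhds] with x h1 h2
  refine extendFrom_eq (hA x) ((h1.tendsto.mono_left nhdsWithin_le_nhds).congr' ?_)
  filter_upwards [self_mem_nhdsWithin, mem_nhdsWithin_of_mem_nhds h2] with w hw hw'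
  exact (hw' hw).symm

section loc

variable {X : Type} [TopologicalSpace X] [ChartedSpace FL.C2 X] [IsManifold 𝓘(ℂ, FL.C2) ω X]
  {ι : Type} [Fintype ι] [DecidableEq ι] {L : LB X ι} {a : X → Fin 2 → ℂ}

/-- a solution at the point `x` -/
def Sol (L : LB X ι) (a : X → Fin 2 → ℂ) (t : X → Fin 2 → EuclideanSpace ℂ ι)
    (s : X → EuclideanSpace ℂ ι) (x : X) : Prop :=
  At0 ∞ 0 s x ∧ act (L.dual.P x) (s x) = s x ∧ L.dual.db0 (-a) 0 s x = t x

theorem sol {e : X → EuclideanSpace ℂ ι} {g : X → ℂ} {t : X → Fin 2 → EuclideanSpace ℂ ι} {x : X}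
    (he : At0 ∞ 0 e x) (hs : act (L.P x) (e x) = e x) (h0 : e x ≠ 0) (hd : L.db0 a 0 e x = 0)
    (hg : At0 ∞ 0 g x) (ht : ∀ i, act (L.dual.P x) (t x i) = t x i)
    (h : ∀ i, dbar0 0 g x i = bp (e x) (t x i)) : Sol L a t (fun y => g y • du (e y)) x := by
  have h1 : At0 ∞ 0 (fun y => g y • du (e y)) x := hg.smul (he.comp (contDiffAt_du h0))
  have h2 : act (L.dual.P x) (g x • du (e x)) = g x • du (e x) := by
    rw [LB.act_smul]
    exact congrArg _ (act_du (L.herm x) hs)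
  refine ⟨h1, h2, funext fun i => ?_⟩
  have h3 := LB.dbar0_bp (L := L) (a := a) (he.of_le (by simp)) (h1.of_le (by simp)) hs h2 i
  have h4 : (fun y => bp (e y) (g y • du (e y))) =ᶠ[𝓝 x] g :=
    (he.continuousAt.eventually_ne h0).mono fun y hy => by
      simp only [LB.bp_smul_right, bp_du hy, mul_one]
  rw [zero_add, FL.dbar0_congr h4, hd, Pi.zero_apply, LB.bp_zero_left, zero_add, h] at h3
  refine sub_eq_zero.1 ((L.bp_eq_zero hs ?_ ?_).resolve_left h0)
  · rw [LB.act_sub, ht, L.dual.sec1_db0 h2]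
  · rw [LB.bp_sub_right, h3, sub_self]

theorem frame_at0 {U : Set X} {e : X → EuclideanSpace ℂ ι} (hf : H821.HolFrame L a U e) {x : X}
    (hx : x ∈ U) : At0 ∞ 0 e x :=
  FL.at0_zero_iff.2 (hf.reg _ (chart_mem_atlas _ x) _ (mem_chart_target _ x)
    (by rwa [(chartAt FL.C2 x).left_inv (mem_chart_source _ x)]))

theorem max_an {c : FL.Ch X} (hc : c ∈ IsManifold.maximalAtlas 𝓘(ℂ, FL.C2) ω X) {x : X}
    (hx : x ∈ c.source) :
    AnalyticAt ℂ (fun z => c ((chartAt FL.C2 x).symm z)) (chartAt FL.C2 x x) := by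
  have h := IsManifold.compatible_of_mem_maximalAtlas (IsManifold.chart_mem_maximalAtlas x) hc
  rw [contDiffGroupoid, mem_groupoid_of_pregroupoid] at h
  have h1 := h.1
  simp only [contDiffPregroupoid] at h1
  have h2 : ContDiffOn ℂ ω ((c : X → FL.C2) ∘ ((chartAt FL.C2 x).symm : FL.C2 → X))
      ((chartAt FL.C2 x).target ∩ (chartAt FL.C2 x).symm ⁻¹' c.source) := by
    simpa using h1
  exact (h2.contDiffAt ((FL.isOpen_trans _ c).mem_nhds
    (FL.mem_trans (mem_chart_source _ x) hx))).analyticAt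

end loc

variable {Y : W.K3} {n : ℕ} {K : Nik Y n} {A : Nbhd K} (D : DCover A)

theorem dense_br (K : Nik Y n) : Dense K.brᶜ := by
  refine interior_eq_empty_iff_dense_compl.1 (eq_empty_of_forall_notMem fun x hx => ?_)
  obtain ⟨U, e, f, hxU, hf, -, h⟩ := K.loc x
  have h1 : ∀ᶠ y in 𝓝 x, f y = 0 := by
    filter_upwards [hf.isOpen.mem_nhds hxU, mem_interior_iff_mem_nhds.1 hx] with y hy hy'
    exact (h y hy).2.1.2 hy'
  refine (h x hxU).2.2 h1.self_of_nhds ?_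
  have h2 : (fun z => f ((chartAt C2 x).symm z)) =ᶠ[𝓝 (chartAt C2 x x)] fun _ => 0 :=
    ((chartAt C2 x).tendsto_symm (mem_chart_source _ x)).eventually h1
  rw [h2.fderiv_eq, fderiv_fun_const]
  rfl

/-- local sections of the covering map -/
theorem exists_sec {z : D.Z.X} (hz : z ∉ range D.q) {y : Y.X} (hy : D.p z = y) :
    ∃ σ : Y.X → D.Z.X, σ y = z ∧ Tendsto σ (𝓝 y) (𝓝 z) ∧
      (∀ᶠ x in 𝓝 y, σ x ∉ range D.q ∧ D.p (σ x) = x) ∧
      ∀ u : D.Z.X → ℂ, At0 ∞ 0 u z →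
        At0 ∞ 0 (fun x => u (σ x)) y ∧ dbar0 0 (fun x => u (σ x)) y = dbar0 0 u z := by
  subst hy
  have hc := D.chart_p z hz
  have h0 := hc.self_of_nhds
  have hs := mem_chart_source C2 z
  have hs' := mem_chart_source C2 (D.p z)
  have h1 : Tendsto (chartAt C2 (D.p z)) (𝓝 (D.p z)) (𝓝 (chartAt C2 z z)) := by
    rw [h0]
    exact (chartAt C2 (D.p z)).continuousAt hs'
  have h2 := ((chartAt C2 z).tendsto_symm hs).comp h1
  refine ⟨fun x => (chartAt C2 z).symm (chartAt C2 (D.p z) x), ?_, h2, ?_, fun u hu => ?_⟩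
  · simp only [← h0, (chartAt C2 z).left_inv hs]
  · filter_upwards [h2.eventually ((finite_range D.q).isClosed.isOpen_compl.mem_nhds hz),
      h2.eventually hc, h1.eventually ((chartAt C2 z).open_target.mem_nhds (mem_chart_target _ z)),
      ((D.p_cont z hz).tendsto.comp h2).eventually ((chartAt C2 (D.p z)).open_source.mem_nhds hs'),
      (chartAt C2 (D.p z)).open_source.mem_nhds hs'] with x a1 a2 a3 a4 a5
    refine ⟨a1, (chartAt C2 (D.p z)).injOn a4 a5 (a2.symm.trans ?_)⟩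
    exact (chartAt C2 z).right_inv a3
  · have h3 : chartAt FL.C2 (D.p z) (D.p z) = chartAt FL.C2 z z := congrArg φ h0.symm
    have h4 : loc0 0 (chartAt FL.C2 (D.p z))
        (fun x => u ((chartAt C2 z).symm (chartAt C2 (D.p z) x))) =ᶠ[𝓝 (chartAt FL.C2 z z)]
        loc0 0 (chartAt FL.C2 z) u := by
      rw [LB.loc0_zero, LB.loc0_zero, ← h3]
      filter_upwards [(chartAt FL.C2 (D.p z)).open_target.mem_nhds (mem_chart_target _ _)] with v hv
      exact congrArg (fun w => u ((chartAt C2 z).symm w)) ((chartAt C2 (D.p z)).right_inv hv)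
    refine ⟨?_, funext fun i => ?_⟩
    · rw [At0, h3]
      exact ContDiffAt.congr_of_eventuallyEq hu h4
    · rw [dbar0, h3]
      exact FL.dzb_congr h4 i

/-- the section which belongs to the odd part of `u` -/
def od (u : D.Z.X → ℂ) (z : D.Z.X) : EuclideanSpace ℂ K.ι :=
  ((2 : ℂ)⁻¹ * (u z - u (D.j z))) • du (D.w z)

open Classical in
/-- the solution away from the curves -/
def s0 (u : D.Z.X → ℂ) (y : Y.X) : EuclideanSpace ℂ K.ι :=
  if h : ∃ z, z ∉ range D.q ∧ D.p z = y then od D u h.choose else 0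

theorem s0_p (u : D.Z.X → ℂ) {z : D.Z.X} (hz : z ∉ range D.q) : s0 D u (D.p z) = od D u z := by
  have h : ∃ z', z' ∉ range D.q ∧ D.p z' = D.p z := ⟨z, hz, rfl⟩
  rw [s0, dif_pos h]
  rcases D.fib z _ hz h.choose_spec.1 h.choose_spec.2.symm with h1 | h1
  · rw [h1]
  · rw [h1, od, od, D.j_j, D.w_j z hz, ← neg_one_smul ℂ (D.w z), du_smul (by simp), smul_smul]
    congr 1
    ring

theorem j_off {z : D.Z.X} (hz : z ∉ range D.q) : D.j z ∉ range D.q := fun h =>
  hz ((D.j_fix z).1 (((D.j_fix _).2 h).symm.trans (D.j_j z)))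

variable {t : Y.X → Fin 2 → EuclideanSpace ℂ K.ι} {u : D.Z.X → ℂ}

theorem off (ht : K.L.dual.Sec1 t) (hu : FL.Reg0 ∞ 0 u) (hd : dbar0 0 u = D.pull t) {y : Y.X}
    (hy : y ∉ K.br) : ∃ s, Sol K.L K.a t s y ∧ ∀ᶠ x in 𝓝 y, x ∈ K.brᶜ → s0 D u x = s x := by
  obtain ⟨z, hz, rfl⟩ := D.surj y hy
  have hz' := j_off D hz
  obtain ⟨σ, a0, a1, a2, a3⟩ := exists_sec D hz rfl
  obtain ⟨τ, b0, b1, b2, b3⟩ := exists_sec D hz' (D.p_j z hz)
  obtain ⟨U, e, f, hU, hf, hh, h⟩ := K.loc (D.p z)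
  have f0 : f (D.p z) ≠ 0 := fun h0 => hy ((h _ hU).2.1.1 h0)
  have fh : HolAt 0 f (D.p z) := hh.holAt hf.isOpen hU
  have ea := frame_at0 hf hU
  obtain ⟨k, hk⟩ : ∃ k, e (D.p z) k ≠ 0 := by
    by_contra! h0
    exact hf.ne _ hU (by ext k; exact h0 k)
  have ek : ContinuousAt (fun x => e x k) (D.p z) :=
    (EuclideanSpace.proj k : _ →L[ℂ] ℂ).continuous.continuousAt.comp ea.continuousAt
  have wc : ContinuousAt (fun x => D.w (σ x)) (D.p z) := by
    rw [ContinuousAt, a0]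
    exact (D.w_cont z hz).tendsto.comp a1
  have r : ∀ᶠ x in 𝓝 (D.p z), (D.w (σ x) k / e x k) ^ 2 = f x ∧
      D.w (σ x) = (D.w (σ x) k / e x k) • e x := by
    filter_upwards [a2, hf.isOpen.mem_nhds hU, ek.eventually_ne hk,
      (fh.at0 (n := 0)).continuousAt.eventually_ne f0] with x c1 c2 c3 c4
    exact exists_root c3 (fun j m => by rw [D.w_sq _ c1.1, c1.2, (h x c2).1]) c4
  have oc : ContinuousAt (fun x => D.w (σ x) k / e x k) (D.p z) :=
    ((EuclideanSpace.proj k : _ →L[ℂ] ℂ).continuous.continuousAt.comp wc).div ek hk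
  have hs := mem_chart_source FL.C2 (D.p z)
  have oh : HolAt 0 (fun x => D.w (σ x) k / e x k) (D.p z) := by
    rw [HolAt, LB.loc0_zero] at fh ⊢
    refine sqrt_an fh (ContinuousAt.comp_of_eq oc
      ((chartAt FL.C2 (D.p z)).continuousAt_symm (mem_chart_target _ _))
      ((chartAt FL.C2 (D.p z)).left_inv hs))
      (((chartAt FL.C2 (D.p z)).tendsto_symm hs).eventually (r.mono fun x hx => hx.1)) ?_
    rwa [Function.comp_apply, (chartAt FL.C2 (D.p z)).left_inv hs]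
  have r2 : (fun x => D.w (σ x)) =ᶠ[𝓝 (D.p z)] fun x => (D.w (σ x) k / e x k) • e x :=
    r.mono fun x hx => hx.2
  have r0 := r.self_of_nhds
  obtain ⟨u1, u2⟩ := a3 u (hu.at z)
  obtain ⟨u3, u4⟩ := b3 u (hu.at (D.j z))
  refine ⟨_, sol (e := fun x => D.w (σ x)) (g := fun x => (2 : ℂ)⁻¹ • (u (σ x) - u (τ x)))
    ((oh.at0.smul ea).congr r2) ?_ ?_ ?_ ((u1.sub u3).const_smul _) (ht _) fun i => ?_, ?_⟩
  · rw [r0.2, LB.act_smul, hf.sec _ hU]
  · rw [r0.2]
    exact smul_ne_zero (fun h0 => f0 (by rw [← r0.1, h0]; simp)) (hf.ne _ hU)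
  · rw [LB.db0_congr r2]
    funext i
    rw [LB.db0_smul oh.at0 (ea.of_le (by simp)) (hf.sec _ hU), oh.dbar0, hf.hol _ hU]
    simp
  · rw [FL.dbar0_const_smul _ ((u1.sub u3).of_le (by simp)),
      FL.dbar0_sub (u1.of_le (by simp)) (u3.of_le (by simp)), u2, u4, hd, a0, Pi.sub_apply,
      DCover.pull, DCover.pull, if_neg hz, if_neg hz', D.p_j z hz, D.w_j z hz, LB.bp_comm, bp]
    simp only [PiLp.neg_apply, mul_neg, Finset.sum_neg_distrib, smul_eq_mul]
    ring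
  · have hne : z ≠ D.j z := fun h0 => hz ((D.j_fix z).1 h0.symm)
    filter_upwards [a2, b2, (a1.prodMk_nhds b1).eventually
      (isClosed_diagonal.isOpen_compl.mem_nhds hne)] with x c1 c2 c3 _
    have c4 := (D.fib _ _ c1.1 c2.1 (c1.2.trans c2.2.symm)).resolve_left fun h0 => c3 h0.symm
    rw [← congrArg (s0 D u) c1.2, s0_p D u c1.1, c4]
    rfl

theorem on (hO : StOddFn) (hF : StFrame) (ht : ∀ y ∈ K.br, t y = 0) (hu : FL.Reg0 ∞ 0 u)
    (hd : ∀ᶠ z in 𝓝ˢ (range D.q), dbar0 0 u z = 0) {y : Y.X} (hy : y ∈ K.br) :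
    ∃ s, Sol K.L K.a t s y ∧ ∀ᶠ x in 𝓝 y, x ∈ K.brᶜ → s0 D u x = s x := by
  have t0 := ht y hy
  obtain ⟨i, b, u₀, rfl⟩ := hy
  have d0 : ∀ v, dir b v ≠ 0 := fun v => by cases b <;> simp [dir]
  -- the odd part in the chart at `q i`
  have h1 : HolAt 0 u (D.q i) := FL.holAt_of_dbar0
    ((hd.filter_mono (nhds_le_nhdsSet (mem_range_self i))).mono fun z hz =>
      ⟨(hu.at z).of_le (by simp), hz⟩)
  have h2 : AnalyticAt ℂ (fun v => u ((chartAt C2 (D.q i)).symm v)) 0 := by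
    rw [HolAt, LB.loc0_zero] at h1
    exact h1.comp_of_eq (φ.analyticAt 0) (congrArg φ (D.chart_q i).symm)
  have h3 : AnalyticAt ℂ (fun v => (2 : ℂ)⁻¹ * (u ((chartAt C2 (D.q i)).symm v) -
      u ((chartAt C2 (D.q i)).symm (-v)))) 0 :=
    analyticAt_const.mul (h2.sub (h2.comp_of_eq analyticAt_id.neg neg_zero))
  obtain ⟨r, hr, h4⟩ := Metric.eventually_nhds_iff_ball.1
    (h3.eventually_analyticAt.and (ball_mem_nhds (0 : C2) (by norm_num : (0 : ℝ) < 10)))
  obtain ⟨Ψ, p1, p2⟩ := hO ℂ r _ hr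
    (fun v hv => (h4 v hv).1.differentiableAt.differentiableWithinAt)
    fun v _ => by rw [neg_neg]; ring
  -- the chart along the curve
  obtain ⟨c, hc⟩ := hF Y n K A i b
  have v1 : (![0, u₀] : FL.C2) ∈ c.target := by
    rw [hc.target]
    exact ⟨d0 _, by simp⟩
  have v2 : c.symm ![0, u₀] = (K.C i).g b u₀ := (hc.symm _ v1).trans ((A.std i).zero b u₀)
  have v3 : (K.C i).g b u₀ ∈ c.source := v2 ▸ c.map_target v1
  have v4 : c ((K.C i).g b u₀) = ![0, u₀] := v2 ▸ c.right_inv v1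
  have m1 : AnalyticAt ℂ (fun v : FL.C2 => (v 0, dir b (v 1))) ![0, u₀] := by
    have m0 := FL.comp_analyticAt (analyticAt_id (z := (![0, u₀] : FL.C2)))
    cases b
    exacts [(m0 0).prod ((m0 1).prod analyticAt_const), (m0 0).prod (analyticAt_const.prod (m0 1))]
  have o1 : IsOpen {v : ℂ × C2 | ‖v.1‖ * ‖v.2‖ ^ 2 < r ^ 2} :=
    isOpen_lt (by fun_prop) continuous_const
  have o2 : ((0 : ℂ), dir b u₀) ∈ {v : ℂ × C2 | ‖v.1‖ * ‖v.2‖ ^ 2 < r ^ 2} := by
    simpa using pow_pos hr 2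
  have hs := mem_chart_source FL.C2 ((K.C i).g b u₀)
  have gh : HolAt 0 (fun x => Ψ (c x 0, dir b (c x 1))) ((K.C i).g b u₀) := by
    rw [HolAt, LB.loc0_zero]
    refine ((P268.analyticAt_of_differentiableOn o1 p1 o2).comp_of_eq m1 rfl).comp_of_eq
      (max_an hc.mem v3) ?_
    rw [(chartAt FL.C2 _).left_inv hs, v4]
  refine ⟨_, sol (frame_at0 hc.frame v3) (hc.frame.sec _ v3) (hc.frame.ne _ v3)
    (hc.frame.hol _ v3) gh.at0 (fun k => ?_) fun k => ?_, ?_⟩
  · rw [t0, Pi.zero_apply, LB.act_zero]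
  · rw [t0, gh.dbar0, Pi.zero_apply, Pi.zero_apply, LB.bp_zero_right]
  have m2 : Tendsto (fun x => (c x 0, dir b (c x 1))) (𝓝 ((K.C i).g b u₀)) (𝓝 (0, dir b u₀)) :=
    m1.continuousAt.tendsto.comp (v4 ▸ c.continuousAt v3)
  filter_upwards [c.open_source.mem_nhds v3, m2.eventually (o1.mem_nhds o2)] with x c1 c2 c3
  have c4 : A.ν i (c x 0) (dir b (c x 1)) = x :=
    (hc.symm _ (c.map_source c1)).symm.trans (c.left_inv c1)
  obtain ⟨σ, hσ⟩ := IsAlgClosed.exists_pow_nat_eq (c x 0) two_pos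
  have s1 : σ ≠ 0 := by
    rintro rfl
    refine c3 ⟨i, b, c x 1, ?_⟩
    rw [← (A.std i).zero, ← congrArg (A.ν i · _) ((zero_pow two_ne_zero).symm.trans hσ).symm, c4]
  have s2 : ‖σ‖ * ‖dir b (c x 1)‖ < r := by
    refine lt_of_pow_lt_pow_left₀ 2 hr.le ?_
    rw [mul_pow, ← norm_pow, hσ]
    exact c2
  have s3 := (h4 (σ • dir b (c x 1)) (by rwa [mem_ball_zero_iff, norm_smul])).2
  have s4 : σ • dir b (c x 1) ≠ 0 := smul_ne_zero s1 (d0 _)
  have s5 : D.p ((chartAt C2 (D.q i)).symm (σ • dir b (c x 1))) = x := by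
    rw [D.p_q i _ s3 s4, ← (A.std i).hom _ _ _ s1, one_mul, hσ, c4]
  rw [← congrArg (s0 D u) s5, s0_p D u (D.off_q i _ s3 s4), od, D.j_q i _ s3, D.w_q i _ s3 s4,
    (A.lift i).hom _ _ _ s1, one_mul, p2 σ _ s2, hσ, du_smul s1, smul_smul, smul_eq_mul,
    mul_comm σ, mul_assoc, mul_inv_cancel₀ s1, mul_one]

end Psh

open Psh in
theorem push (hO : StOddFn) (hF : StFrame) (hI : StInv) (hP : StPull) : StPush := by
  intro Y n K A D t ht h0 u hu hd
  have h1 := (hP Y n K A D t ht h0).2.2.1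
  rw [← hd] at h1
  have h2 : ∀ y, ∃ s, Sol K.L K.a t s y ∧ extendFrom K.brᶜ (s0 D u) =ᶠ[𝓝 y] s := fun y => by
    obtain ⟨s, a1, a2⟩ : ∃ s, Sol K.L K.a t s y ∧ ∀ᶠ x in 𝓝 y, x ∈ K.brᶜ → s0 D u x = s x := by
      by_cases hy : y ∈ K.br
      · exact on D hO hF h0.self_of_nhdsSet hu h1 hy
      · exact off D ((RR.mem_Z1 _ _ _).1 ht).1.2 hu hd hy
    exact ⟨s, a1, glue (dense_br K) _ (((a1.1.of_le (m := 0) (by simp)).eventually (by simp)).mono
      fun x hx => hx.continuousAt) a2⟩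
  refine (RR.mem_B1 _ _ _).2 ⟨extendFrom K.brᶜ (s0 D u),
    ⟨FL.reg0_iff_at.2 fun y => ?_, fun y => ?_⟩, funext fun y => ?_⟩
  all_goals obtain ⟨s, a1, a2⟩ := h2 y
  · exact a1.1.congr a2
  · rw [a2.self_of_nhds]
    exact a1.2.1
  · exact (LB.db0_congr a2).trans a1.2.2

end Vale.Agent.P290Z.Nk
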