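import Vale.Agent.P290Z.Nk.SpecC
import Vale.Agent.P290Z.W.H445Coh
import Vale.Agent.P267.H399.LBCurv

/-!
# P290Z, part III, block N2: the double cover branched along sixteen curves is a torus
-/

open scoped Manifold ContDiff ComplexConjugate Topology
open Set Filter Metric

noncomputable section

namespace Vale.Agent.P290Z.Nk

open Vale.Agent.P290 Vale.Agent.P267

namespace TOR

variable {Y : W.K3} {ι : Type} [Fintype ι] [DecidableEq ι] {L : FL.LB Y.X ι} {a : Y.X → Fin 2 → ℂ}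

theorem isec_dd (L : FL.LB Y.X ι) : RR.isec L.dual L.dual = RR.isec L L := by
  have : L.dual.curv.wedge L.dual.curv = L.curv.wedge L.curv := by
    funext x
    simp only [FL.TwoF.wedge, FL.LB.curv, FL.LB.F02_dual, FL.LB.F20_dual, FL.LB.F11_dual]
    ring
  rw [RR.isec, this, RR.isec]

theorem b1_le (hL : L.IsHol a) : RR.B1 L a 0 ≤ RR.Z1 L a 0 := fun t ht => by
  obtain ⟨s, ⟨h1, h2⟩, rfl⟩ := (RR.mem_B1 L a 0).1 ht
  exact (RR.mem_Z1 L a 0).2 ⟨⟨FL.LB.reg1_db0 hL.smooth h1, h2.db0⟩, funext fun x =>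
    FL.LB.db1_db0_eq_zero hL (Eventually.of_forall h2) ((h1.at x).of_le ENat.LEInfty.out)⟩

/-- Riemann-Roch: a closed form which is not exact -/
theorem exists_class (hB : RR.RRBlock) (hH : W.H445.H01 Y) (hL : L.IsHol a)
    (h : 2 * RR.isec L L = -16) :
    ∃ t ∈ RR.Z1 L a 0, t ∉ RR.B1 L a 0 := by
  obtain ⟨-, hS, hR, -⟩ := hB Y.X
  have h1 := W.H445.chi_eq Y hS hR hH L hL
  have h2 : RR.chi L a 0 = -2 := by
    have : (RR.chi L a 0 : ℂ) = ((-2 : ℤ) : ℂ) := by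
      push_cast
      linear_combination h1 + h / 4
    exact_mod_cast this
  by_contra h3
  push Not at h3
  have h4 : Subsingleton (RR.H1 L a 0) :=
    Submodule.Quotient.subsingleton_iff.2 (eq_top_iff.2 fun t _ => h3 t t.2)
  have h5 : RR.h1 L a 0 = 0 := Module.finrank_zero_of_subsingleton
  rw [RR.chi, h5] at h2
  omega

end TOR

/-- TORUS -/
theorem torus (hB : RR.RRBlock) (hH : ∀ Y, W.H445.H01 Y) (hL : StLoc) (hP : StPull) (hQ : StPush)
    (hT : StTwo) (hR : StPrim) (hA : StAff) (hI : StInv) : StTorus := by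
  intro Y K A D
  obtain ⟨t, ht, hn⟩ := TOR.exists_class hB (hH Y) K.hol.dual (by
    rw [TOR.isec_dd]
    exact_mod_cast K.sq)
  obtain ⟨s, hs, h0⟩ := hL Y 16 K A t ht
  have hb : K.L.dual.db0 (-K.a) 0 s ∈ RR.B1 K.L.dual (-K.a) 0 :=
    (RR.mem_B1 _ _ _).2 ⟨s, hs, rfl⟩
  have ht' := sub_mem ht (TOR.b1_le K.hol.dual hb)
  have h0' : ∀ᶠ y in 𝓝ˢ K.br, (t - K.L.dual.db0 (-K.a) 0 s) y = 0 :=
    h0.mono fun y hy => sub_eq_zero.2 hy
  obtain ⟨p1, p2, -, p3⟩ := hP Y 16 K A D _ ht' h0'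
  obtain ⟨i1, i2, -⟩ := hI Y 16 K A D
  obtain ⟨β, b1, b2⟩ := hT D.Z D.j i1 D.j_j i2 _ p1 p2 p3 fun u hu e =>
    hn (by simpa using add_mem (hQ Y 16 K A D _ ht' h0' u hu e) hb)
  obtain ⟨F, f1, f2⟩ := hR D.Z D.j i1 β b1 b2
  obtain ⟨l, π, h, -⟩ := hA D.Z.X F D.j (D.q 0) f1 D.j.continuous
    ((D.j_fix _).2 ⟨0, rfl⟩) f2
  exact ⟨l, π, h⟩

end Vale.Agent.P290Z.Nk
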