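import Vale.Agent.P290Z.Nk.HolPb
import Vale.Agent.P290Z.Nk.Serre
import Vale.Agent.P290Z.Nk.Basic
import Vale.Agent.P290.H445.Mul
import Vale.Agent.P267.H928.Int.FLLin
import Vale.Agent.P267.H928.Int.FLStokes

/-! P290Z, block N2: two independent closed odd forms. -/

open Set Filter
open scoped Topology Manifold ContDiff ComplexConjugate

noncomputable section

namespace Vale.Agent.P290Z.Nk

open Vale.Agent.P290 Vale.Agent.P267
open Vale.Agent.P290.H686 hiding wd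

namespace TWO

open HP

variable {V : VS} {a a' b : V.X → Fin 2 → ℂ}

/-- the product of the two-form and two forms of type `(0,1)` -/
def P (a b : V.X → Fin 2 → ℂ) (x : V.X) : ℂ := a x 0 * V.Om x • b x 1 - a x 1 * V.Om x • b x 0

theorem reg_w (hb : FL.Reg1 ∞ 0 b) : FL.Reg1 ∞ 1 fun x i => V.Om x • b x i :=
  H445.Reg1.smul' V.Reg0_Om hb

theorem dbar_w (hb : FL.Reg1 ∞ 0 b) (h : FL.dbar1 0 b = 0) :
    FL.dbar1 1 (fun x i => V.Om x • b x i) = 0 := funext fun x =>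
  (H445.dbar1_mul V.HolOn_Om hb x).trans (by rw [h]; exact smul_zero _)

theorem reg_P (ha : FL.Reg1 ∞ 0 a) (hb : FL.Reg1 ∞ 0 b) : FL.Reg2 ∞ 1 (P a b) :=
  Ser.reg2_wedge (w := fun x i => V.Om x • b x i) (reg_w hb) ha

theorem P_eq (a b : V.X → Fin 2 → ℂ) : P a b = V.omF.wedge ⟨0, 0, wd a b⟩ := by
  funext x
  simp only [P, FL.TwoF.wedge, VS.omF, wd, Pi.zero_apply, Matrix.zero_apply, smul_eq_mul]
  ring

theorem int_pb {j : V.X ≃ₜ V.X} (h : ∀ x, All.Hol j x) (hj : ∀ x, j (j x) = x)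
    (ho : pb2 j V.omF = V.omF) (ha : FL.Reg1 ∞ 0 a) (hb : FL.Reg1 ∞ 0 b) :
    FL.intX (P (pb1 j ⟨0, a⟩).f01 (pb1 j ⟨0, b⟩).f01) = FL.intX (P a b) := by
  have h1 := intX_wedge_pb2 j (isDiffeo_inv j h hj) (F := V.omF) (G := ⟨0, 0, wd a b⟩)
    (P_eq a b ▸ H469.r2mono (reg_P ha hb) (by simp))
  rwa [ho, pb2_wd h, ← P_eq, ← P_eq] at h1

theorem int_dbar {u : V.X → ℂ} (hu : FL.Reg0 ∞ 0 u) (hb : FL.Reg1 ∞ 0 b) (h : FL.dbar1 0 b = 0) :
    FL.intX (P (FL.dbar0 0 u) b) = 0 := by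
  rw [← FL.intX_dbar1 (c := fun y i => u y • V.Om y • b y i)
    (H469.r1mono (H445.Reg1.smul' hu (reg_w hb)) H469.one_le_infty)
    (hasCompactSupport_of_compactSpace _)]
  congr 1
  funext x
  rw [FL.dbar1_smul ((hu.at x).of_le H469.one_le_infty)
    (((reg_w hb).at x).of_le H469.one_le_infty), dbar_w hb h]
  simp [P]

theorem int_sub (ha : FL.Reg1 ∞ 0 a) (ha' : FL.Reg1 ∞ 0 a') (hb : FL.Reg1 ∞ 0 b) :
    FL.intX (P (a - a') b) = FL.intX (P a b) - FL.intX (P a' b) := by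
  rw [← FL.intX_sub (reg_P ha hb) (reg_P ha' hb) (hasCompactSupport_of_compactSpace _)
    (hasCompactSupport_of_compactSpace _)]
  congr 1
  funext x
  simp only [P, Pi.sub_apply]
  ring

theorem int_neg (ha : FL.Reg1 ∞ 0 a) (hb : FL.Reg1 ∞ 0 b) :
    FL.intX (P a (-b)) = -FL.intX (P a b) := by
  rw [← FL.intX_neg (reg_P ha hb) (hasCompactSupport_of_compactSpace _)]
  congr 1
  funext x
  simp only [P, Pi.neg_apply, smul_eq_mul]
  ring

theorem hol_inv (V : VS) : FL.HolOn (-1) (fun x => (V.Om x)⁻¹) univ := fun e he =>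
  ((V.HolOn_Om e he).fun_inv fun z hz => by
    rw [FL.loc0, zpow_one]
    exact mul_ne_zero (FL.jac_det_ne_zero he (e.map_target hz.1)) (V.Om_ne_zero _)).congr
    fun z _ => FL.loc0_inv (κ := 1) V.Om z

theorem diff_cj (ha : FL.Reg1 ∞ 0 a) (h : (⟨0, a⟩ : FL.OneF V.X).d = 0) {e : FL.Ch V.X}
    (he : e ∈ atlas FL.C2 V.X) {z : FL.C2} (hz : z ∈ e.target) (i : Fin 2) :
    DifferentiableAt ℂ (fun v => conj (FL.loc1 0 e a v i)) z := by
  have h0 : FL.dbar10 (0 : V.X → Fin 2 → ℂ) = 0 := by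
    funext x
    ext i j
    simp [FL.dbar10, FL.loc10, FL.dzb]
  have h1 : FL.del1 a + FL.dbar10 0 = 0 := congrArg FL.TwoF.f11 h
  rw [h0, add_zero] at h1
  have h2 : DifferentiableAt ℝ (fun v => FL.loc1 0 e a v i) z :=
    ((contDiffOn_pi.1 (ha e he) i).contDiffAt (e.open_target.mem_nhds hz)).differentiableAt
      (by simp)
  refine (FL.differentiableAt_complex_iff (Complex.conjCLE.differentiableAt.comp z h2)).2
    fun k => (FL.dzb_conj h2 k).trans ?_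
  rw [← H469.del1_law (H469.r1mono ha H469.one_le_infty) he hz, h1]
  simp [FL.loc11]

theorem hol_wd (ha : FL.Reg1 ∞ 0 a) (h : (⟨0, a⟩ : FL.OneF V.X).d = 0) (hb : FL.Reg1 ∞ 0 b)
    (h' : (⟨0, b⟩ : FL.OneF V.X).d = 0) :
    FL.HolOn 0 (fun x => (V.Om x)⁻¹ • conj (wd a b x)) univ := fun e he z hz => by
  have key : ∀ y ∈ e.target ∩ e.symm ⁻¹' univ,
      FL.loc0 0 e (fun x => (V.Om x)⁻¹ • conj (wd a b x)) y =
        FL.loc0 (-1) e (fun x => (V.Om x)⁻¹) y *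
          (conj (FL.loc1 0 e a y 0) * conj (FL.loc1 0 e b y 1) -
            conj (FL.loc1 0 e a y 1) * conj (FL.loc1 0 e b y 0)) := fun y hy => by
    refine (H445.loc0_mul (μ := -1) (κ := 1) he _ (fun x => conj (wd a b x)) hy.1).trans ?_
    congr 1
    simp only [FL.loc0, FL.loc1, wd, smul_eq_mul, Fin.sum_univ_two, zpow_zero, zpow_one, one_mul,
      Matrix.det_fin_two, map_add, map_sub, map_mul, Complex.conj_conj]
    ring
  exact ((hol_inv V e he z hz).mul ((((diff_cj ha h he hz.1 0).mul (diff_cj hb h' he hz.1 1)).sub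
    ((diff_cj ha h he hz.1 1).mul (diff_cj hb h' he hz.1 0))).differentiableWithinAt)).congr
    key (key z hz)

end TWO

open TWO HP in
theorem two (hO : StOddH) : StTwo := by
  intro V j hj hjj ho α h1 h2 h3 h4
  obtain ⟨β, u, b1, b2, b3, b4, rfl⟩ := hO V j hj hjj α h1 h2 h3
  have b5 : FL.dbar1 0 β = 0 := congrArg FL.TwoF.f02 b3
  obtain ⟨a, a1, a2, a3⟩ : ∃ a, FL.Reg1 ∞ 0 a ∧ FL.dbar1 0 a = 0 ∧ FL.intX (P a β) ≠ 0 := by
    by_contra h
    push Not at h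
    obtain ⟨η, e1, e2⟩ := Ser.serre _ (reg_w b1) (dbar_w b1 b5) h
    have e3 : FL.Reg0 ∞ 0 fun x => (V.Om x)⁻¹ • η x :=
      H445.Reg0.smul' (H445.reg0_of_holOn (hol_inv V)) e1
    refine h4 _ (RR.Reg0.add e3 b2) ?_
    rw [RR.dbar0_add e3 b2]
    congr 1
    funext x i
    refine (H445.dbar0_mul (hol_inv V) e1 x i).trans ?_
    rw [e2]
    exact inv_smul_smul₀ (V.Om_ne_zero x) _
  have s1 : (⟨0, a⟩ : FL.OneF V.X).Smooth := ⟨reg10_zero, a1⟩
  have s2 := (pb1_smooth (isSm hj) s1).s01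
  have s3 : FL.dbar1 0 (pb1 j ⟨0, a⟩).f01 = 0 :=
    (congrArg FL.TwoF.f02 (pb1_d (isSm hj) s1)).symm.trans (pb2_f02 hj a2)
  have s4 : FL.Reg1 ∞ 0 (a - (pb1 j ⟨0, a⟩).f01) :=
    FL.reg1_iff_at.2 fun x => (a1.at x).sub (s2.at x)
  have s5 : (⟨0, a - (pb1 j ⟨0, a⟩).f01⟩ : FL.OneF V.X) = ⟨0, a⟩ - pb1 j ⟨0, a⟩ :=
    FL.OneF.ext (by rw [FL.OneF.f10_sub, pb1_f10 hj, sub_zero]) rfl
  obtain ⟨γ, v, c1, c2, c3, c4, c5⟩ := hO V j hj hjj _ s4 (fun x =>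
    (FL.dbar1_sub ((a1.at x).of_le H469.one_le_infty) ((s2.at x).of_le H469.one_le_infty)).trans
      (by rw [a2, s3]; exact sub_self _)) (by rw [s5, pb1_sub, pb1_pb1 hj hjj, neg_sub])
  have d1 := int_pb hj hjj ho a1 b1
  rw [b4, FL.OneF.f01_neg, int_neg s2 b1] at d1
  have d2 := int_sub s4 (c2.dbar infty_sub) b1
  rw [int_dbar c2 b1 b5, int_sub a1 s2 b1, ← eq_sub_iff_add_eq.2 c5.symm] at d2
  refine ⟨![γ, β], Fin.forall_fin_two.2 ⟨⟨c1, c3, c4⟩, b1, b3, b4⟩, fun x hx => a3 ?_⟩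
  have d3 : P γ β = fun _ => 0 := funext fun y => by
    have d4 := V.const_of_hol (hol_wd c1 c3 b1 b3) y x
    rw [show wd γ β x = 0 from hx, map_zero, smul_zero, smul_eq_zero, inv_eq_zero,
      map_eq_zero] at d4
    have d5 := d4.resolve_left (V.Om_ne_zero y)
    simp only [P, wd, smul_eq_mul] at d5 ⊢
    linear_combination V.Om y * d5
  rw [d3, FL.intX_zero] at d2
  linear_combination (-1 / 2) * d2 - (1 / 2) * d1

end Vale.Agent.P290Z.Nk
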