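import Vale.Agent.P290Z.Nk.A1
import Vale.Agent.P290Z.Nk.N1
import Vale.Agent.P290Z.Nk.Cover
import Vale.Agent.P290Z.Nk.Frame
import Vale.Agent.P290Z.Nk.Loc
import Vale.Agent.P290Z.Nk.Pull
import Vale.Agent.P290Z.Nk.Push
import Vale.Agent.P290Z.Nk.OddFn
import Vale.Agent.P290Z.Nk.OddH
import Vale.Agent.P290Z.Nk.Two
import Vale.Agent.P290Z.Nk.Prim
import Vale.Agent.P290Z.Nk.Aff
import Vale.Agent.P290Z.Nk.Kummer
import Vale.Agent.P290Z.Nk.Torus

/-! P290Z Nk: the double cover along sixteen curves is a torus. -/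

namespace Vale.Agent.P290Z.Nk

theorem torus' : StTorus :=
  torus P267.RR.rrBlock (fun _ => W.H342.h01) (loc frame) pull' (push oddFn frame inv pull')
    (two oddH) prim aff inv

theorem kummer' : StKummer := kummer oddFn

end Vale.Agent.P290Z.Nk
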