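import Vale.Agent.P290Z.Nk.Spec
import Vale.Agent.P267.H815.Coord
import Vale.Agent.P267.H815.Div
import Vale.Agent.P247.H558.VF.Inj

/-!
# P290Z, part III, block N1: the parametrisation of a smooth rational curve is an immersion
-/

set_option linter.all false

open scoped Manifold ContDiff Topology
open Set Filter

noncomputable section

namespace Vale.Agent.P290Z.Nk

open Vale.Agent.P290 Vale.Agent.P267

namespace RCA

theorem md_iff {E X : Type} [NormedAddCommGroup E] [NormedSpace ℂ E] [TopologicalSpace X]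
    [ChartedSpace E X] {f : ℂ → X} {z : ℂ} : MDifferentiableAt 𝓘(ℂ) 𝓘(ℂ, E) f z ↔
    ContinuousAt f z ∧ DifferentiableAt ℂ (fun w => chartAt E (f z) (f w)) z := by
  rw [mdifferentiableAt_iff]
  simp only [mfld_simps, differentiableWithinAt_univ]
  rfl

theorem imm {X : Type} [TopologicalSpace X] [ChartedSpace FL.C2 X] [IsManifold 𝓘(ℂ, FL.C2) ω X]
    {D : EffDiv X} (hD : ∀ x, ∀ y ∈ D.U x, D.f x y = 0 → mfderiv 𝓘(ℂ, FL.C2) 𝓘(ℂ) (D.f x) y ≠ 0)
    {g : ℂ → X} (hg : MDifferentiable 𝓘(ℂ) 𝓘(ℂ, FL.C2) g) (hi : Function.Injective g)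
    (hs : ∀ u, g u ∈ D.supp) (u : ℂ) : deriv (fun z => chartAt FL.C2 (g u) (g z)) u ≠ 0 := by
  intro h0
  have n1 : IsManifold 𝓘(ℂ, FL.C2) 1 X := IsManifold.of_le (n := ω) le_top
  obtain ⟨e, e1, -, e3, -, e5, e6, e7, -⟩ := H815.exists_coordU (D.isOpen (g u)) (D.mem (g u))
    (H815.holN_f D (g u) (D.mem (g u))) (hD _ _ (D.mem _) (hs u))
  have hc := mdifferentiable_chart (I := 𝓘(ℂ, FL.C2)) (g u)
  generalize chartAt FL.C2 (g u) = c at h0 e6 e7 hc
  have hU : IsOpen (g ⁻¹' e.source) := e.open_source.preimage hg.continuous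
  have h1 : ∀ z ∈ g ⁻¹' e.source, DifferentiableAt ℂ (fun z => c (g z)) z := fun z hz =>
    mdifferentiableAt_iff_differentiableAt.1 ((hc.mdifferentiableAt (e6 hz)).comp z (hg z))
  have h2 : ∀ z ∈ g ⁻¹' e.source, DifferentiableAt ℂ (fun v => ((e ∘ c.symm) v).2) (c (g z)) :=
    fun z hz => (e7 _ hz).differentiableAt.snd
  refine P247.H558.VF.injOn_deriv_ne_zero (f := fun z => ((e ∘ c.symm) (c (g z))).2) hU
    (fun z hz => (DifferentiableAt.comp (g := fun v => ((e ∘ c.symm) v).2) (f := fun z => c (g z))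
      z (h2 z hz) (h1 z hz)).differentiableWithinAt) (fun z hz w hw h => ?_) (z₀ := u) e1 ?_
  · simp only [Function.comp_apply, c.left_inv (e6 hz), c.left_inv (e6 hw)] at h
    refine hi (e.injOn hz hw (Prod.ext ?_ h))
    rw [e3 _ hz, e3 _ hw, (H815.mem_supp_iff D (e5 hz)).1 (hs z),
      (H815.mem_supp_iff D (e5 hw)).1 (hs w)]
  · have h3 := (h2 u e1).hasFDerivAt.comp_hasDerivAt u (h1 u e1).hasDerivAt
    rw [h0, map_zero] at h3
    exact h3.deriv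

variable {Y : W.K3}

theorem md_of {g : ℂ → Y.X} {u : ℂ} (h : MDifferentiableAt 𝓘(ℂ) 𝓘(ℂ, FL.C2) g u) : MD g u :=
  md_iff.2 ⟨h.continuousAt,
    (H445.φ.symm : FL.C2 →L[ℂ] ℂ × ℂ).differentiableAt.comp u (md_iff.1 h).2⟩

theorem imm_of {g : ℂ → Y.X} {u : ℂ} (h : MD g u)
    (hd : deriv (fun z => chartAt FL.C2 (g u) (g z)) u ≠ 0) :
    deriv (fun z => chartAt C2 (g u) (g z)) u ≠ 0 := fun h0 => by
  have h1 := (H445.φ : ℂ × ℂ →L[ℂ] FL.C2).hasFDerivAt.comp_hasDerivAt u (md_iff.1 h).2.hasDerivAt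
  rw [h0, map_zero] at h1
  exact hd h1.deriv

end RCA

open RCA

theorem rc : StRC := by
  rintro Y D ⟨hD, φ, inj, ninf, hs⟩
  have gl : ∀ u, u ≠ 0 → φ.f₁ u = φ.f₀ u⁻¹ := fun u hu => by
    rw [φ.glue _ (inv_ne_zero hu), inv_inv]
  have inj₁ : Function.Injective φ.f₁ := fun u v h => by
    by_cases hu : u = 0 <;> by_cases hv : v = 0
    · rw [hu, hv]
    · exact absurd ⟨v⁻¹, by rw [← gl v hv, ← h, hu]⟩ ninf
    · exact absurd ⟨u⁻¹, by rw [← gl u hu, h, hv]⟩ ninf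
    · rw [gl u hu, gl v hv] at h
      exact inv_injective (inj h)
  have s₀ : ∀ u, φ.f₀ u ∈ D.supp := fun u => hs ▸ Or.inl ⟨u, rfl⟩
  have s₁ : ∀ u, φ.f₁ u ∈ D.supp := fun u => by
    by_cases hu : u = 0
    · rw [hs, hu]
      exact Or.inr rfl
    · exact gl u hu ▸ s₀ _
  refine ⟨⟨fun b => cond b φ.f₀ φ.f₁, fun b u => ?_, fun b u => ?_, fun b u hu => ?_, fun b => ?_,
    fun u h => ninf ⟨u, h⟩⟩, Subset.antisymm ?_ ?_⟩
  · cases b
    · exact md_of (φ.holo₁ u)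
    · exact md_of (φ.holo₀ u)
  · cases b
    · exact imm_of (md_of (φ.holo₁ u)) (imm hD φ.holo₁ inj₁ s₁ u)
    · exact imm_of (md_of (φ.holo₀ u)) (imm hD φ.holo₀ inj s₀ u)
  · cases b
    · exact (gl u hu).symm
    · exact (φ.glue u hu).symm
  · cases b
    · exact inj₁
    · exact inj
  · rintro _ ⟨b, u, rfl⟩
    cases b
    · exact s₁ u
    · exact s₀ u
  · rw [hs]
    rintro _ (⟨u, rfl⟩ | rfl)
    · exact ⟨true, u, rfl⟩
    · exact ⟨false, 0, rfl⟩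

end Vale.Agent.P290Z.Nk
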