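import Vale.Agent.P267.H815.Prime
import Vale.Agent.P267.H533.IntPos
import Vale.Agent.P290Z.W.H445Lef
import Vale.Agent.P290Z.W.H445IntK
import Vale.Agent.P290Z.W.H470C2

/-!
# P290Z, block N1, RAT: an irreducible curve of square `-2` on a K3 surface is smooth rational
-/

set_option linter.unusedVariables false
set_option linter.unusedSectionVars false

open scoped Manifold ContDiff ComplexConjugate Topology Matrix
open Set Filter

noncomputable section

namespace Vale.Agent.P290Z.Nk.RatA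

open Vale.Agent.P290 Vale.Agent.P267 Vale.Agent.P267.FL Vale.Agent.P267.RR
open Vale.Agent.P267.H823 (Prime)
open Vale.Agent.P290Z.W

section lin

variable {ι : Type} [Fintype ι] [DecidableEq ι]

/-- the conjugate vector -/
def cv (t : EuclideanSpace ℂ ι) : EuclideanSpace ℂ ι := WithLp.toLp 2 fun j => conj (t j)

theorem contDiff_cv : ContDiff ℝ ∞ (cv : EuclideanSpace ℂ ι → EuclideanSpace ℂ ι) := by
  have h1 : ContDiff ℝ ∞ fun t : EuclideanSpace ℂ ι => fun j => conj (t j) := by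
    refine contDiff_pi.2 fun j => ?_
    exact Complex.conjCLE.contDiff.comp
      ((EuclideanSpace.proj (𝕜 := ℂ) j).restrictScalars ℝ).contDiff
  exact ((EuclideanSpace.equiv ι ℂ).symm.toContinuousLinearMap.restrictScalars ℝ).contDiff.comp h1

theorem pr_cv (t : EuclideanSpace ℂ ι) : H365.pr (cv t) t = ((‖t‖ ^ 2 : ℝ) : ℂ) := by
  rw [← H365.nq_eq]
  rfl

variable {X : Type*} [TopologicalSpace X] [ChartedSpace C2 X]

theorem act_cv (L : LB X ι) {x : X} {t : EuclideanSpace ℂ ι} (ht : LB.act (L.P x) t = t) :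
    LB.act (L.dual.P x) (cv t) = cv t := by
  ext i
  have h1 : ∀ i, t i = ∑ j, L.P x i j * t j := fun i => by
    conv_lhs => rw [← ht]
    rfl
  have hh : ∀ i j, L.P x j i = conj (L.P x i j) := by
    intro i j
    have h := congrFun (congrFun (L.herm x) j) i
    rw [Matrix.conjTranspose_apply] at h
    exact h.symm
  change ∑ j, (L.P x)ᵀ i j * (cv t) j = (cv t) i
  have h2 : (cv t) i = conj (t i) := rfl
  rw [h2, h1 i, map_sum]
  refine Finset.sum_congr rfl fun j _ => ?_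
  rw [Matrix.transpose_apply, hh i j, map_mul]
  rfl

end lin

variable (X : W.K3) {ι : Type} [Fintype ι] [DecidableEq ι] {D : EffDiv X.X}

theorem s_ne (hP : Prime D) (A : H451.DivLB D ι) : ∃ z, A.s z ≠ 0 := by
  obtain ⟨x, -⟩ := hP.nonempty
  have h10 : ∃ᶠ z in 𝓝 x, D.f x z ≠ 0 := D.ne x x (D.mem x)
  obtain ⟨z, hz, hzU⟩ := (h10.and_eventually (H815.mem_nhds D x)).exists
  exact ⟨z, (H365.s_ne_iff A hzU).2 hz⟩

theorem h2_eq (hF : FiniteStmt X.X) (hS : SerreStmt X.X) (hR : RRStmt X.X) (h : W.H445.H01 X)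
    (hP : Prime D) (A : H451.DivLB D ι) (hA : isec A.L A.L = -2) :
    RR.h2 A.L.dual (-A.a) 0 = 1 := by
  obtain ⟨n, h1, -, h2⟩ := W.H445.rr_ineq X hS hR h A.L A.hol
  have hn : n = -1 := by
    rw [hA] at h1
    have h3 : ((-2 : ℤ) : ℂ) = ((2 * n : ℤ) : ℂ) := by
      push_cast
      exact h1
    have h4 : (-2 : ℤ) = 2 * n := by exact_mod_cast h3
    omega
  have h3 : RR.h1 A.L A.a 0 = 0 := by
    rw [(hS ι A.L A.a A.hol 0).2.1]
    have h4 : (1 : ℤ) - 0 = 1 + 0 := by norm_num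
    rw [h4]
    exact H470.h1_zero_of_le _ _ _ (W.H470.z1_le_b1_one X _ _ _ (H470.z1_le_b1 A hP h))
  have h4 : 1 ≤ h0 A.L A.a 0 := by
    have h5 := (hF ι A.L A.a A.hol 0).1
    have h6 : A.s ∈ H0 A.L A.a 0 := (mem_H0 _ _ _).2 ⟨⟨A.s_reg, A.s_sec⟩, by
      funext x i; exact A.s_hol x i⟩
    have h7 : Nontrivial (H0 A.L A.a 0) := by
      refine ⟨⟨⟨A.s, h6⟩, 0, fun h8 => ?_⟩⟩
      have h9 : A.s = 0 := congrArg Subtype.val h8
      obtain ⟨z, hz⟩ := s_ne X hP A
      apply hz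
      rw [h9]
      rfl
    exact Module.finrank_pos
  have h5 := (hS ι A.L A.a A.hol 1).1
  have h6 := W.H445.h0_one X A.L A.a 0
  rw [add_zero] at h6
  rw [sub_self] at h5
  rw [← h5, h6]
  rw [h3, hn] at h2
  omega

theorem exists_db1 (hP : Prime D) (A : H451.DivLB D ι) (h2 : RR.h2 A.L.dual (-A.a) 0 = 1)
    {v : X.X → EuclideanSpace ℂ ι} (hv : v ∈ RR.A2 A.L.dual 0)
    (h0 : intX (fun x => W.H445.Om X x * H365.pair0 A v x) = 0) :
    v ∈ B2 A.L.dual (-A.a) 0 := by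
  have hI := W.H445.intFactsK X
  have hreg : ∀ s : X.X → EuclideanSpace ℂ ι, s ∈ RR.A2 A.L.dual 0 →
      Reg2 ∞ 1 fun x => W.H445.Om X x * H365.pair0 A s x := fun s hs => by
    simpa using H445.Reg2.smul' (W.H445.Reg0_Om X) (H365.pair2_mem A 0 hs).1
  let lam : RR.A2 A.L.dual 0 →ₗ[ℂ] ℂ :=
    { toFun := fun s => intX (fun x => W.H445.Om X x * H365.pair0 A s.1 x)
      map_add' := fun s t => by
        rw [← hI.add _ _ (hreg s.1 s.2) (hreg t.1 t.2)]
        congr 1
        funext x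
        rw [Submodule.coe_add, H365.pair0_add, Pi.add_apply, mul_add]
      map_smul' := fun c s => by
        rw [RingHom.id_apply, smul_eq_mul, ← hI.smul c _ (hreg s.1 s.2)]
        congr 1
        funext x
        rw [Submodule.coe_smul, H365.pair0_smul, Pi.smul_apply, smul_eq_mul]
        ring }
  have hker : (B2 A.L.dual (-A.a) 0).comap (RR.A2 A.L.dual 0).subtype ≤ LinearMap.ker lam := by
    intro s hs
    obtain ⟨w, hw1, hw3⟩ := (mem_B2 _ _ _).1 hs
    rw [LinearMap.mem_ker]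
    change intX (fun x => W.H445.Om X x * H365.pair0 A s.1 x) = 0
    have h3 : H365.pair0 A s.1 = dbar1 0 (H365.pair1 A w) := by
      rw [H365.dbar1_pair A 0 hw1, hw3]
      rfl
    rw [h3]
    exact W.H445.intX_dbar1 X hI (H365.pair1_mem A 0 hw1).1
  let lam' : RR.H2 A.L.dual (-A.a) 0 →ₗ[ℂ] ℂ := Submodule.liftQ _ lam hker
  have hv0m : (fun x => W.H445.OmC X x • cv (A.s x)) ∈ RR.A2 A.L.dual 0 := by
    refine ⟨reg2_iff_at.2 fun x => ?_, fun x => ?_⟩
    · have h3 : At0 ∞ 0 (fun y => cv (A.s y)) x := (A.s_reg.at x).comp contDiff_cv.contDiffAt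
      have h4 := At2.bilin' (B := ContinuousLinearMap.lsmul ℂ ℂ) ((W.H445.Reg2_OmC X).at x) h3
      rw [add_zero] at h4
      exact h4
    · rw [H365.act_smul, act_cv A.L (A.s_sec x)]
  let v0 : RR.A2 A.L.dual 0 := ⟨_, hv0m⟩
  have hv0 : lam v0 ≠ 0 := by
    have h3 : (fun x => W.H445.Om X x * H365.pair0 A v0.1 x) =
        fun x => ((Complex.normSq (W.H445.Om X x) * ‖A.s x‖ ^ 2 : ℝ) : ℂ) := by
      funext x
      change W.H445.Om X x * H365.pr (W.H445.OmC X x • cv (A.s x)) (A.s x) = _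
      rw [H365.pr_smul_left, pr_cv, ← mul_assoc, W.H445.OmC, Complex.mul_conj]
      push_cast
      rfl
    have h4 := hreg _ hv0m
    change intX (fun x => W.H445.Om X x * H365.pair0 A v0.1 x) ≠ 0
    rw [h3] at h4 ⊢
    obtain ⟨z, hz⟩ := s_ne X hP A
    have h5 := H533.intX_re_pos (X := X.X)
      (β := fun x => Complex.normSq (W.H445.Om X x) * ‖A.s x‖ ^ 2)
      (fun e he => (h4 e he).continuousOn) (HasCompactSupport.of_compactSpace _)
      (fun x => mul_nonneg (Complex.normSq_nonneg _) (sq_nonneg _)) (x₀ := z)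
      (mul_pos (Complex.normSq_pos.2 (W.H445.Om_ne_zero X z)) (pow_pos (norm_pos_iff.2 hz) 2))
    intro h6
    rw [h6] at h5
    simp at h5
  let q : RR.A2 A.L.dual 0 →ₗ[ℂ] RR.H2 A.L.dual (-A.a) 0 := Submodule.mkQ _
  have hq : ∀ s, lam' (q s) = lam s := fun s => Submodule.liftQ_apply _ _ _
  have hqv : q v0 ≠ 0 := by
    intro h
    apply hv0
    rw [← hq, h, map_zero]
  have h1 := (finrank_eq_one_iff_of_nonzero' (q v0) hqv).1 h2
  let sb : RR.A2 A.L.dual 0 := ⟨v, hv⟩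
  have hsb : lam sb = 0 := h0
  obtain ⟨c, hc⟩ := h1 (q sb)
  have hc0 : c = 0 := by
    have h3 := congrArg lam' hc
    rw [map_smul, hq, hq, hsb, smul_eq_mul] at h3
    exact (mul_eq_zero.1 h3).resolve_right hv0
  rw [hc0, zero_smul] at hc
  have h3 : sb ∈ (B2 A.L.dual (-A.a) 0).comap (RR.A2 A.L.dual 0).subtype :=
    (Submodule.Quotient.mk_eq_zero _).1 hc.symm
  exact h3

/-- An irreducible curve of square `-2` is smooth and rational. -/
theorem rational (hF : FiniteStmt X.X) (hS : SerreStmt X.X) (hR : RRStmt X.X) (h : W.H445.H01 X)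
    (hP : Prime D) (A : H451.DivLB D ι) (hA : isec A.L A.L = -2) : D.IsSmoothRational := by
  have h2 := h2_eq X hF hS hR h hP A hA
  refine H815.smoothRational_of_H1 D hP.nonempty hP.conn.isPreconnected hP.fin.countable
    hP.dense ?_
  intro b hb hb2
  have hm := H815.mem_of_i2 (reg2_iff_at.2 fun x => (hb.at x).dbar (by simp)) hb2
  obtain ⟨v, hv, hv2⟩ := H365.pair2_surj A 0 hm
  have h3 : v ∈ B2 A.L.dual (-A.a) 0 := by
    refine exists_db1 X hP A h2 hv ?_
    rw [hv2]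
    exact W.H445.intX_dbar1 X (W.H445.intFactsK X) hb
  obtain ⟨w, hw1, hw3⟩ := (mem_B2 _ _ _).1 h3
  have hwm := H365.pair1_mem A 0 hw1
  have h4 : dbar1 0 (H365.pair1 A w) = dbar1 0 b := by
    rw [H365.dbar1_pair A 0 hw1, hw3, hv2]
  obtain ⟨t, ht, ht2⟩ := h (fun y => b y - H365.pair1 A w y)
    (reg1_iff_at.2 fun x => (hb.at x).sub (hwm.1.at x)) (fun x => by
      rw [FL.dbar1_sub ((hb.at x).of_le (by simp)) ((hwm.1.at x).of_le (by simp)), h4, sub_self])
  refine ⟨t, ht, H815.i1_of_mem ?_⟩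
  have h5 : (fun x => b x - dbar0 0 t x) = H365.pair1 A w := by
    funext x i
    rw [Pi.sub_apply, ht2 x i, Pi.sub_apply]
    ring
  rw [h5]
  exact hwm

end Vale.Agent.P290Z.Nk.RatA
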