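import Vale.Agent.P290Z.Nk.Defs
import Vale.Agent.P290.H342.Inst

/-!
# P290Z, part III, block N1: even sets of curves. Statements.
Paper proofs: `notes/P290_helper77.md`.
-/

set_option linter.unusedVariables false

open scoped Manifold ContDiff ComplexConjugate Topology
open Set Filter Metric

noncomputable section

namespace Vale.Agent.P290Z.Nk

open Vale.Agent.P290 Vale.Agent.P267
open Vale.Agent.P290.All (Etale dir Hol)
open Vale.Agent.P290.H342 (UData)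
open Vale.Agent.P290.H470 (NC)

/-- `v` is a class of type (1,1) -/
def IsNS {Y : W.K3} {N : ℕ} (U : UData Y.X N) (v : Fin N → ℤ) : Prop :=
  BlockC.pair (⟨W.H445.Om Y, 0, 0⟩ : FL.TwoF Y.X) (U.comb v) = 0

/-- the classes of type (1,1) form an overlattice of `⟨-2⟩ⁿ` with the same roots, which contains
half the sum of the `e i` -/
structure NSE {Y : W.K3} {N n : ℕ} (U : UData Y.X N) (e : Fin n → Fin N → ℤ) : Prop where
  ns : ∀ i, IsNS U (e i)
  orth : ∀ i j, U.B (e i) (e j) = if i = j then -2 else 0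
  half : ∃ m : Fin N → ℤ, m + m = ∑ i, e i
  root : ∀ r, IsNS U r → U.B r r = -2 → ∃ i, r = e i ∨ r = -e i
  span : ∀ v, IsNS U v → (∀ i, U.B v (e i) = 0) → v = 0

/-- PRIMES: the irreducible curves -/
def StPrimes : Prop :=
  ∀ (Y : W.K3) (N n : ℕ) (U : UData Y.X N) (e : Fin n → Fin N → ℤ), NSE U e →
    ∃ P : Fin n → H470.PD Y.X, (∀ i, U.clN (NC (P i)) = e i ∨ U.clN (NC (P i)) = -e i) ∧
      (∀ i k x, x ∈ (P i).1 → x ∈ (P k).1 → i = k) ∧ (∀ D : H470.PD Y.X, ∃ i, D = P i) ∧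
      ∀ i, RR.isec (P i).lb.L (P i).lb.L = -2

/-- RAT: irreducible curves of square `-2` are smooth and rational -/
def StRat : Prop :=
  ∀ (Y : W.K3) (P : H470.PD Y.X), RR.isec P.lb.L P.lb.L = -2 → P.eff.IsSmoothRational

/-- RC: the parametrisation of a smooth rational curve is an immersion -/
def StRC : Prop :=
  ∀ (Y : W.K3) (D : EffDiv Y.X), D.IsSmoothRational → ∃ C : RC Y.X, C.supp = D.supp

/-- SQRT: the square root of the line bundle of the sum of the curves -/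
def StSqrt : Prop :=
  ∀ (Y : W.K3) (N n : ℕ) (U : UData Y.X N) (P : Fin n → H470.PD Y.X) (C : Fin n → RC Y.X)
    (m : Fin N → ℤ), (∀ i, (C i).supp = (P i).1) → (∀ i, (P i).eff.IsSmoothRational) →
    (∀ i k x, x ∈ (P i).1 → x ∈ (P k).1 → i = k) → m + m = ∑ i, U.clN (NC (P i)) →
    2 * U.B m m = -(n : ℤ) → ∃ K : Nik Y n, K.C = C ∧ U.c1 ⟨K.ι, K.L⟩ = m

/-- **N1** -/
def StN1 : Prop :=
  ∀ (Y : W.K3) (N n : ℕ) (U : UData Y.X N) (e : Fin n → Fin N → ℤ), NSE U e →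
    ∃ (K : Nik Y n) (P : Fin n → H470.PD Y.X), (∀ i, (K.C i).supp = (P i).1) ∧
      (∀ i, U.clN (NC (P i)) = e i ∨ U.clN (NC (P i)) = -e i) ∧ (∀ D : H470.PD Y.X, ∃ i, D = P i) ∧
      U.c1 ⟨K.ι, K.L⟩ + U.c1 ⟨K.ι, K.L⟩ = ∑ i, U.clN (NC (P i))

end Vale.Agent.P290Z.Nk
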