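import Vale.Agent.P290Z.Nk.SpecB
import Vale.Agent.P290.H686.Pull
import Vale.Agent.P267.H857.Alg

/-!
# P290Z, part III, block N2: the statements about the involution.
Paper proofs: `notes/P290_helper77.md`.
-/

set_option linter.unusedVariables false

open scoped Manifold ContDiff ComplexConjugate Topology
open Set Filter Metric

noncomputable section

namespace Vale.Agent.P290Z.Nk

open Vale.Agent.P290 Vale.Agent.P267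
open Vale.Agent.P290.All (Etale dir Hol)
open Vale.Agent.P290.H686 (pb1 pb2)

/-- INV: the involution -/
def StInv : Prop :=
  ∀ (Y : W.K3) (n : ℕ) (K : Nik Y n) (A : Nbhd K) (D : DCover A),
    (∀ z, Hol D.j z) ∧ pb2 D.j D.Z.omF = D.Z.omF ∧
    ∀ (α : FL.OneF D.Z.X) (z : D.Z.X), z ∉ range D.q →
      (pb1 D.j α).f10 z = α.f10 (D.j z) ∧ (pb1 D.j α).f01 z = α.f01 (D.j z)

/-- PULL: the pull back of a closed form is closed and odd -/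
def StPull : Prop :=
  ∀ (Y : W.K3) (n : ℕ) (K : Nik Y n) (A : Nbhd K) (D : DCover A),
    ∀ t ∈ RR.Z1 K.L.dual (-K.a) 0, (∀ᶠ y in 𝓝ˢ K.br, t y = 0) →
      FL.Reg1 ∞ 0 (D.pull t) ∧ (∀ z, FL.dbar1 0 (D.pull t) z = 0) ∧
      (∀ᶠ z in 𝓝ˢ (range D.q), D.pull t z = 0) ∧
      pb1 D.j ⟨0, D.pull t⟩ = -⟨0, D.pull t⟩

/-- ODDH: odd classes in `H^{0,1}` are classes of closed forms -/
def StOddH : Prop :=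
  ∀ (V : VS) (j : V.X ≃ₜ V.X), (∀ x, Hol j x) → (∀ x, j (j x) = x) →
    ∀ α : V.X → Fin 2 → ℂ, FL.Reg1 ∞ 0 α → (∀ x, FL.dbar1 0 α x = 0) →
      pb1 j ⟨0, α⟩ = -⟨0, α⟩ →
      ∃ (β : V.X → Fin 2 → ℂ) (u : V.X → ℂ), FL.Reg1 ∞ 0 β ∧ FL.Reg0 ∞ 0 u ∧
        (⟨0, β⟩ : FL.OneF V.X).d = 0 ∧ pb1 j ⟨0, β⟩ = -⟨0, β⟩ ∧ α = β + FL.dbar0 0 u

/-- TWO: two independent closed odd forms of type (0,1) -/
def StTwo : Prop :=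
  ∀ (V : VS) (j : V.X ≃ₜ V.X), (∀ x, Hol j x) → (∀ x, j (j x) = x) → pb2 j V.omF = V.omF →
    ∀ α : V.X → Fin 2 → ℂ, FL.Reg1 ∞ 0 α → (∀ x, FL.dbar1 0 α x = 0) →
      pb1 j ⟨0, α⟩ = -⟨0, α⟩ → (∀ u : V.X → ℂ, FL.Reg0 ∞ 0 u → FL.dbar0 0 u ≠ α) →
      ∃ β : Fin 2 → V.X → Fin 2 → ℂ, (∀ k, FL.Reg1 ∞ 0 (β k) ∧
        (⟨0, β k⟩ : FL.OneF V.X).d = 0 ∧ pb1 j ⟨0, β k⟩ = -⟨0, β k⟩) ∧
        ∀ x, β 0 x 0 * β 1 x 1 - β 0 x 1 * β 1 x 0 ≠ 0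

/-- PRIM: the translation structure -/
def StPrim : Prop :=
  ∀ (V : VS) (j : V.X ≃ₜ V.X), (∀ x, Hol j x) → ∀ β : Fin 2 → V.X → Fin 2 → ℂ,
    (∀ k, FL.Reg1 ∞ 0 (β k) ∧ (⟨0, β k⟩ : FL.OneF V.X).d = 0 ∧ pb1 j ⟨0, β k⟩ = -⟨0, β k⟩) →
    (∀ x, β 0 x 0 * β 1 x 1 - β 0 x 1 * β 1 x 0 ≠ 0) →
    ∃ F : V.X → V.X → C2, Tr F ∧
      ∀ x, ∀ᶠ y in 𝓝 x, F (j x) (j y) - F (j x) (j x) = -(F x y - F x x)

end Vale.Agent.P290Z.Nk
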